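import Mathlib
import Vale.Agent.Lib.Common.PolyTime.MA
import Vale.Agent.Lib.P337.Defs
import Vale.Agent.Lib.Common.PolyTime.MB

section

/-!
P337, complexity side: the typed counting hierarchy, counting bit strings.
-/

namespace Vale.Agent.P337

open Vale.Agent.Lib.Common.PolyTime

/-- number of bit strings of length `n` with a property -/
noncomputable def cnt (n : ℕ) (P : List Bool → Prop) : ℕ :=
  Nat.card {y : List Bool // y.length = n ∧ P y}

/-- level `j` of the counting hierarchy, for predicates on encoded types (operator form) -/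
def InC : ℕ → ∀ {α : Type} [TEnc α], (α → Prop) → Prop
  | 0, _, _, A => ∃ f, PT f ∧ ∀ a, (A a ↔ f a = true)
  | j + 1, α, _, A => ∃ (l : α → ℕ) (B : α × List Bool → Prop), PT l ∧ InC j B ∧
      ∀ a, (A a ↔ 2 ^ l a < 2 * cnt (l a) (fun y => B (a, y)))

/-- predicates in the counting hierarchy -/
def CHp {α : Type} [TEnc α] (A : α → Prop) : Prop := ∃ j, InC j A

theorem cnt_congr {n : ℕ} {P Q : List Bool → Prop} (h : ∀ y, y.length = n → (P y ↔ Q y)) :
    cnt n P = cnt n Q := by
  unfold cnt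
  apply Nat.card_congr
  apply Equiv.subtypeEquivRight
  intro y
  constructor
  · rintro ⟨h1, h2⟩
    exact ⟨h1, (h y h1).mp h2⟩
  · rintro ⟨h1, h2⟩
    exact ⟨h1, (h y h1).mpr h2⟩

theorem cnt_zero (P : List Bool → Prop) [Decidable (P [])] : cnt 0 P = if P [] then 1 else 0 := by
  unfold cnt
  split_ifs with h
  · rw [Nat.card_eq_one_iff_exists]
    refine ⟨⟨[], rfl, h⟩, ?_⟩
    rintro ⟨y, hy, hP⟩
    exact Subtype.ext (List.length_eq_zero_iff.mp hy)
  · rw [Nat.card_eq_zero]
    left
    constructor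
    rintro ⟨y, hy, hP⟩
    rw [List.length_eq_zero_iff.mp hy] at hP
    exact h hP

theorem cnt_finite (n : ℕ) (P : List Bool → Prop) :
    Finite {y : List Bool // y.length = n ∧ P y} :=
  Set.Finite.to_subtype (s := {y : List Bool | y.length = n ∧ P y})
    ((List.finite_length_eq Bool n).subset fun _ hy => hy.1)

/-- splitting off the first bit -/
def cntEquiv (n : ℕ) (P : List Bool → Prop) :
    {y : List Bool // y.length = n ∧ P (true :: y)} ⊕
      {y : List Bool // y.length = n ∧ P (false :: y)} ≃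
    {y : List Bool // y.length = n + 1 ∧ P y} where
  toFun := fun x => match x with
    | Sum.inl y => ⟨true :: y.1, by rw [List.length_cons, y.2.1], y.2.2⟩
    | Sum.inr y => ⟨false :: y.1, by rw [List.length_cons, y.2.1], y.2.2⟩
  invFun := fun x => match x with
    | ⟨[], h⟩ => absurd h.1 (by simp)
    | ⟨true :: y, h⟩ => Sum.inl ⟨y, by simpa using h.1, h.2⟩
    | ⟨false :: y, h⟩ => Sum.inr ⟨y, by simpa using h.1, h.2⟩
  left_inv := by
    rintro (⟨y, hy⟩ | ⟨y, hy⟩) <;> rfl
  right_inv := by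
    rintro ⟨y, hy⟩
    match y, hy with
    | [], h => exact absurd h.1 (by simp)
    | true :: y, h => rfl
    | false :: y, h => rfl

theorem cnt_succ (n : ℕ) (P : List Bool → Prop) :
    cnt (n + 1) P = cnt n (fun y => P (true :: y)) + cnt n (fun y => P (false :: y)) := by
  unfold cnt
  have := cnt_finite n (fun y => P (true :: y))
  have := cnt_finite n (fun y => P (false :: y))
  rw [← Nat.card_sum]
  exact (Nat.card_congr (cntEquiv n P)).symm

theorem cnt_true (n : ℕ) : cnt n (fun _ => True) = 2 ^ n := by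
  induction n with
  | zero => rw [cnt_zero, if_pos trivial, pow_zero]
  | succ n ih => rw [cnt_succ, ih, pow_succ]; ring

theorem cnt_add_not (n : ℕ) (P : List Bool → Prop) : cnt n P + cnt n (fun y => ¬ P y) = 2 ^ n := by
  classical
  induction n generalizing P with
  | zero =>
    rw [cnt_zero, cnt_zero]
    by_cases h : P []
    · simp [h]
    · simp [h]
  | succ n ih =>
    rw [cnt_succ, cnt_succ, pow_succ]
    have h1 := ih (fun y => P (true :: y))
    have h2 := ih (fun y => P (false :: y))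
    omega

theorem cnt_false (n : ℕ) : cnt n (fun _ => False) = 0 := by
  have h1 := cnt_add_not n (fun _ => True)
  have h2 := cnt_true n
  simp only [not_true_eq_false] at h1
  omega

/-- counting strings whose first `n` bits satisfy `P` -/
theorem cnt_take (n m : ℕ) (P : List Bool → Prop) :
    cnt (n + m) (fun y => P (y.take n)) = 2 ^ m * cnt n P := by
  classical
  induction n generalizing P with
  | zero =>
    rw [zero_add, cnt_zero]
    simp only [List.take_zero]
    by_cases h : P []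
    · simp only [h, if_true, mul_one]
      exact cnt_true m
    · simp only [h, if_false, mul_zero]
      exact cnt_false m
  | succ n ih =>
    have h : n + 1 + m = n + m + 1 := by omega
    rw [h, cnt_succ, cnt_succ, mul_add]
    simp only [List.take_succ_cons]
    rw [ih (fun y => P (true :: y)), ih (fun y => P (false :: y))]

/-- the strings with prescribed content -/
theorem cnt_eq_singleton (n : ℕ) (z : List Bool) (hz : z.length = n) :
    cnt n (fun y => y = z) = 1 := by
  unfold cnt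
  rw [Nat.card_eq_one_iff_exists]
  refine ⟨⟨z, hz, rfl⟩, ?_⟩
  rintro ⟨y, hy, hP⟩
  exact Subtype.ext hP

end Vale.Agent.P337

end

section

/-!
P337, complexity side: closure properties of the typed levels.
-/

namespace Vale.Agent.P337

open Vale.Agent.Lib.Common.PolyTime

variable {α β : Type} [TEnc α] [TEnc β]

theorem InC_zero_iff {A : α → Prop} : InC 0 A ↔ ∃ f, PT f ∧ ∀ a, (A a ↔ f a = true) := Iff.rfl

theorem InC_succ_iff {j : ℕ} {A : α → Prop} : InC (j + 1) A ↔
    ∃ (l : α → ℕ) (B : α × List Bool → Prop), PT l ∧ InC j B ∧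
      ∀ a, (A a ↔ 2 ^ l a < 2 * cnt (l a) (fun y => B (a, y))) := Iff.rfl

theorem InC.congr {j : ℕ} {A B : α → Prop} (hA : InC j A) (h : ∀ a, A a ↔ B a) : InC j B := by
  have : A = B := funext fun a => propext (h a)
  rwa [← this]

theorem InC_pre_aux (j : ℕ) : ∀ {α β : Type} [TEnc α] [TEnc β] {A : α → Prop} (_ : InC j A)
    {f : β → α} (_ : PT f), InC j (fun b => A (f b)) := by
  induction j with
  | zero =>
    intro α β _ _ A hA f hf
    obtain ⟨g, hg, h⟩ := hA
    exact ⟨fun b => g (f b), PT.comp hg hf, fun b => h (f b)⟩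
  | succ j ih =>
    intro α β _ _ A hA f hf
    obtain ⟨l, B, hl, hB, h⟩ := hA
    refine ⟨fun b => l (f b), fun p => B (f p.1, p.2), PT.comp hl hf, ?_, fun b => h (f b)⟩
    exact ih hB (f := fun p : β × List Bool => (f p.1, p.2))
      (PT.pair (PT.comp hf (PT.fst PT.id)) (PT.snd PT.id))

theorem InC.pre {j : ℕ} {A : α → Prop} (hA : InC j A) {f : β → α} (hf : PT f) :
    InC j (fun b => A (f b)) := InC_pre_aux j hA hf

theorem InC_ite_aux (j : ℕ) : ∀ {α : Type} [TEnc α] {A B : α → Prop} (_ : InC j A) (_ : InC j B)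
    {c : α → Bool} (_ : PT c), InC j (fun a => if c a = true then A a else B a) := by
  induction j with
  | zero =>
    intro α _ A B hA hB c hc
    obtain ⟨f, hf, h1⟩ := hA
    obtain ⟨g, hg, h2⟩ := hB
    refine ⟨fun a => bif c a then f a else g a, PT.bif hc hf hg, fun a => ?_⟩
    cases hca : c a
    · simp [hca, h2]
    · simp [hca, h1]
  | succ j ih =>
    intro α _ A B hA hB c hc
    obtain ⟨l1, B1, hl1, hB1, h1⟩ := hA
    obtain ⟨l2, B2, hl2, hB2, h2⟩ := hB
    refine ⟨fun a => bif c a then l1 a else l2 a,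
      fun p => if c p.1 = true then B1 p else B2 p, PT.bif hc hl1 hl2,
      ih hB1 hB2 (c := fun p : α × List Bool => c p.1) (PT.comp hc (PT.fst PT.id)), fun a => ?_⟩
    cases hca : c a
    · simp only [hca, cond_false, Bool.false_eq_true, if_false]
      exact h2 a
    · simp only [hca, cond_true, if_true]
      exact h1 a

theorem InC.ite {j : ℕ} {A B : α → Prop} (hA : InC j A) (hB : InC j B) {c : α → Bool} (hc : PT c) :
    InC j (fun a => if c a = true then A a else B a) := InC_ite_aux j hA hB hc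

theorem InC_succ_aux {j : ℕ} {A : α → Prop} (hA : InC j A) : InC (j + 1) A := by
  classical
  refine ⟨fun _ => 0, fun p => A p.1, PT.const _, hA.pre (PT.fst PT.id), fun a => ?_⟩
  rw [cnt_zero]
  by_cases h : A a
  · simp [h]
  · simp [h]

theorem InC.const (j : ℕ) (P : Prop) : InC j (fun _ : α => P) := by
  classical
  induction j with
  | zero => exact ⟨fun _ => decide P, PT.const _, fun a => by simp⟩
  | succ j ih => exact InC_succ_aux ih

theorem InC.succ {j : ℕ} {A : α → Prop} (hA : InC j A) : InC (j + 1) A := InC_succ_aux hA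

theorem InC.mono {j k : ℕ} {A : α → Prop} (hA : InC j A) (h : j ≤ k) : InC k A := by
  induction h with
  | refl => exact hA
  | step _ ih => exact ih.succ

theorem InC_not_cnt (n : ℕ) (P : List Bool → Prop) :
    cnt (n + 2) (fun y => if (!(y.getD 0 false)) = true then ¬ P (y.drop 2)
      else (decide (y.getD 1 false = false) || decide (y.drop 2 = List.replicate n false)) = true)
      = 2 * cnt n (fun y => ¬ P y) + 2 ^ n + 1 := by
  rw [show n + 2 = (n + 1) + 1 from rfl, cnt_succ, cnt_succ, cnt_succ]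
  have h1 : cnt n (fun y => if (!((true :: true :: y).getD 0 false)) = true then
      ¬ P ((true :: true :: y).drop 2) else (decide ((true :: true :: y).getD 1 false = false) ||
        decide ((true :: true :: y).drop 2 = List.replicate n false)) = true) = 1 := by
    refine Eq.trans (cnt_congr (fun y _ => ?_))
      (cnt_eq_singleton n (List.replicate n false) (by simp))
    simp
  have h2 : cnt n (fun y => if (!((true :: false :: y).getD 0 false)) = true then
      ¬ P ((true :: false :: y).drop 2) else (decide ((true :: false :: y).getD 1 false = false) ||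
        decide ((true :: false :: y).drop 2 = List.replicate n false)) = true) = 2 ^ n := by
    rw [← cnt_true n]
    apply cnt_congr
    intro y _
    simp
  have h3 : ∀ b : Bool, cnt n (fun y => if (!((false :: b :: y).getD 0 false)) = true then
      ¬ P ((false :: b :: y).drop 2) else (decide ((false :: b :: y).getD 1 false = false) ||
        decide ((false :: b :: y).drop 2 = List.replicate n false)) = true) =
      cnt n (fun y => ¬ P y) := by
    intro b
    apply cnt_congr
    intro y _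
    simp
  rw [h1, h2, h3 true, h3 false]
  ring

theorem InC_not_aux (j : ℕ) : ∀ {α : Type} [TEnc α] {A : α → Prop} (_ : InC j A),
    InC j (fun a => ¬ A a) := by
  induction j with
  | zero =>
    intro α _ A hA
    obtain ⟨f, hf, h⟩ := hA
    refine ⟨fun a => !(f a), PT.not hf, fun a => ?_⟩
    show ¬ A a ↔ (!(f a)) = true
    rw [h a]
    cases f a <;> simp
  | succ j ih =>
    intro α _ A hA
    obtain ⟨l, B, hl, hB, h⟩ := hA
    refine ⟨fun a => l a + 2, fun p => if (!(p.2.getD 0 false)) = true then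
      ¬ B (p.1, p.2.drop 2) else (decide (p.2.getD 1 false = false) ||
        decide (p.2.drop 2 = List.replicate (l p.1) false)) = true, ?_, ?_, ?_⟩
    · exact PT.succ (PT.succ hl)
    · refine InC.ite ((ih hB).pre (f := fun p : α × List Bool => (p.1, p.2.drop 2)) ?_) ?_ ?_
      · exact PT.pair (PT.fst PT.id) (PT.drop (PT.snd PT.id) (PT.const _))
      · refine InC.mono (j := 0) ?_ (Nat.zero_le j)
        refine ⟨fun p : α × List Bool => (decide (p.2.getD 1 false = false) ||
          decide (p.2.drop 2 = List.replicate (l p.1) false)), ?_, fun p => Iff.rfl⟩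
        refine PT.or (PT.decide_eq ?_ (PT.const _)) (PT.decide_eq ?_ ?_)
        · exact PT.getD (PT.snd PT.id) (PT.const _) (PT.const _)
        · exact PT.drop (PT.snd PT.id) (PT.const _)
        · exact PT.replicate (PT.comp hl (PT.fst PT.id)) (PT.const _)
      · exact PT.not (PT.getD (PT.snd PT.id) (PT.const _) (PT.const _))
    · intro a
      show ¬ A a ↔ _
      rw [h a]
      have h1 := InC_not_cnt (l a) (fun y => B (a, y))
      have h2 := cnt_add_not (l a) (fun y => B (a, y))
      simp only at h1 ⊢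
      rw [h1, pow_add]
      omega

theorem InC.not {j : ℕ} {A : α → Prop} (hA : InC j A) : InC j (fun a => ¬ A a) :=
  InC_not_aux j hA

end Vale.Agent.P337

end

section

/-!
P337, complexity side: the size of an encoding as a polynomial time function.
-/

namespace Vale.Agent.P337

open Vale.Agent.Lib.Common.PolyTime

variable {α β : Type} [TEnc α] [TEnc β]

/-! ### the program computing the size of a tree -/

/-- `k` times the symbols `L N` -/
def szLN : ℕ → List Sy
  | 0 => []
  | k + 1 => Sy.L :: Sy.N :: szLN k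

/-- `k` times the symbols `N L` -/
def szNL : ℕ → List Sy
  | 0 => []
  | k + 1 => Sy.N :: Sy.L :: szNL k

theorem szLN_append (k : ℕ) (R : List Sy) :
    szLN k ++ (Sy.L :: Sy.N :: R) = szLN (k + 1) ++ R := by
  induction k with
  | zero => rfl
  | succ k ih =>
    change Sy.L :: Sy.N :: (szLN k ++ (Sy.L :: Sy.N :: R)) = _
    rw [ih]
    rfl

theorem szNL_append (k : ℕ) (R : List Sy) :
    szNL k ++ (Sy.N :: Sy.L :: R) = szNL (k + 1) ++ R := by
  induction k with
  | zero => rfl
  | succ k ih =>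
    change Sy.N :: Sy.L :: (szNL k ++ (Sy.N :: Sy.L :: R)) = _
    rw [ih]
    rfl

theorem szLN_reverse (k : ℕ) : (szLN k).reverse = szNL k := by
  induction k with
  | zero => rfl
  | succ k ih =>
    change (Sy.L :: Sy.N :: szLN k).reverse = _
    rw [List.reverse_cons, List.reverse_cons, ih, List.append_assoc]
    have h := szNL_append k []
    rw [List.append_nil] at h
    exact h

theorem code_encNat (k : ℕ) : code (encNat k) = szNL k ++ [Sy.L] := by
  induction k with
  | zero => rfl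
  | succ k ih =>
    change Sy.N :: ([Sy.L] ++ code (encNat k)) = Sy.N :: Sy.L :: (szNL k ++ [Sy.L])
    rw [ih]
    rfl

theorem H_notMem_szLN (k : ℕ) : Sy.H ∉ szLN k := by
  induction k with
  | zero => simp [szLN]
  | succ k ih => simp [szLN, ih]

theorem length_szLN (k : ℕ) : (szLN k).length = 2 * k := by
  induction k with
  | zero => rfl
  | succ k ih =>
    simp only [szLN, List.length_cons, ih]
    ring

theorem foldl_szLN (w : List Sy) : ∀ s : WStore,
    w.foldl (fun (s : WStore) _ => Function.update s 1 (Sy.L :: Sy.N :: s 1)) s =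
      Function.update s 1 (szLN w.length ++ s 1) := by
  induction w with
  | nil =>
    intro s
    rw [List.foldl_nil]
    exact (Function.update_eq_self 1 s).symm
  | cons a w ih =>
    intro s
    rw [List.foldl_cons, ih, Function.update_self, Function.update_idem, szLN_append,
      List.length_cons]

/-- the program: replace the top tree by the unary code of its size -/
def szProg : WCmd :=
  Cmd.seq (Cmd.push 1 Sy.H)
    (Cmd.seq (scan 0 3 (fun _ => Cmd.seq (Cmd.push 1 Sy.N) (Cmd.push 1 Sy.L)))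
      (Cmd.seq (Cmd.push 0 Sy.L) (back 1 0 3)))

theorem exec_szProg (s : WStore) (x : D) :
    ∃ t ≤ 53 * x.size + 30, Exec szProg (s.put x) (s.put (encNat x.size)) t := by
  have h01 : (0 : WK) ≠ 1 := by decide
  have h03 : (0 : WK) ≠ 3 := by decide
  have h13 : (1 : WK) ≠ 3 := by decide
  obtain ⟨t1, ht1, h1⟩ := exec_scan (i := 0) (c := 3) (T := 3) h03
    (out := fun _ => Cmd.seq (Cmd.push 1 Sy.N) (Cmd.push 1 Sy.L))
    (eff := fun _ s => Function.update s 1 (Sy.L :: Sy.N :: s 1))
    (fun a s => ⟨3, le_rfl, by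
      refine Exec.seq (t := 1) (t' := 1) (Exec.push _ _ _) ?_
      have h := Exec.push (Γ := fun _ => Sy) 1 Sy.L (Function.update s 1 (Sy.N :: s 1))
      rw [Function.update_self, Function.update_idem] at h
      exact h⟩)
    (fun a s l => by rw [Function.update_of_ne h01.symm, Function.update_comm h01])
    (fun a s l => by rw [Function.update_of_ne h13, Function.update_comm h13.symm])
    x (Function.update s 1 (Sy.H :: s 1)) (s 0)
  rw [foldl_szLN, Function.update_self, Function.update_idem, length_code] at h1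
  obtain ⟨t2, ht2, h2⟩ := exec_back (j := 1) (i := 0) (c := 3) h01.symm h13 h03
    (szLN x.size) (H_notMem_szLN _) (Function.update s 0 (Sy.L :: s 0)) (s 1)
  rw [length_szLN] at ht2
  refine ⟨1 + (t1 + (1 + t2 + 1) + 1) + 1, by omega, ?_⟩
  refine Exec.seq (s' := Function.update (Function.update s 1 (Sy.H :: s 1)) 0
      (code x ++ s 0)) ?_
    (Exec.seq (s' := Function.update s 1 (szLN x.size ++ Sy.H :: s 1)) ?_
      (Exec.seq (s' := Function.update (Function.update s 0 (Sy.L :: s 0)) 1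
        (szLN x.size ++ Sy.H :: s 1)) ?_ ?_))
  · have h := Exec.push (Γ := fun _ => Sy) 1 Sy.H (s.put x)
    convert h using 1
    funext k
    fin_cases k <;> simp [WStore.put, Function.update]
  · convert h1 using 1
    funext k
    fin_cases k <;> simp [Function.update]
  · have h := Exec.push (Γ := fun _ => Sy) 0 Sy.L
      (Function.update s 1 (szLN x.size ++ Sy.H :: s 1))
    convert h using 1
    funext k
    fin_cases k <;> simp [Function.update]
  · convert h2 using 1
    rw [szLN_reverse, Function.update_self]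
    unfold WStore.put
    rw [code_encNat]
    funext k
    fin_cases k <;> simp [Function.update]

theorem size_encNat (k : ℕ) : (encNat k).size = 2 * k + 1 := by
  induction k with
  | zero => rfl
  | succ k ih =>
    change 1 + (encNat k).size + 1 = _
    rw [ih]
    ring

/-- size of the encoding, as a polynomial time function -/
theorem PT_sz : PT (fun a : α => sz a) := by
  refine ⟨fun x => encNat x.size, ?_, fun a => rfl⟩
  refine PolyOn.intro szProg (Polynomial.C 53 * Polynomial.X + Polynomial.C 30)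
    (fun x _ => ?_) (fun x _ s => ?_)
  · rw [size_encNat]
    simp only [Polynomial.eval_add, Polynomial.eval_mul, Polynomial.eval_C, Polynomial.eval_X]
    omega
  · obtain ⟨t, ht, h⟩ := exec_szProg s x
    refine ⟨t, ?_, h⟩
    simp only [Polynomial.eval_add, Polynomial.eval_mul, Polynomial.eval_C, Polynomial.eval_X]
    exact ht

theorem PT_natPow {f : α → ℕ} (hf : PT f) (n : ℕ) : PT (fun a => f a ^ n) := by
  induction n with
  | zero =>
    simp only [pow_zero]
    exact PT.const 1
  | succ n ih =>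
    simp only [pow_succ]
    exact PT.mul ih hf

theorem PT_polyEval (p : Polynomial ℕ) {f : α → ℕ} (hf : PT f) : PT (fun a => p.eval (f a)) := by
  induction p using Polynomial.induction_on' with
  | add p q hp hq =>
    simp only [Polynomial.eval_add]
    exact PT.add hp hq
  | monomial n c =>
    simp only [Polynomial.eval_monomial]
    exact PT.mul (PT.const c) (PT_natPow hf n)

/-- a polynomially bounded function is bounded by a polynomial time function -/
theorem exists_PT_bound {g : α → ℕ} (hg : PB g) : ∃ l : α → ℕ, PT l ∧ ∀ a, g a ≤ l a := by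
  obtain ⟨p, hp⟩ := hg
  exact ⟨fun a => p.eval (sz a), PT_polyEval p PT_sz, hp⟩

end Vale.Agent.P337

end

section

/-!
P337, complexity side: closure properties of the typed counting hierarchy.
-/

namespace Vale.Agent.P337

open Vale.Agent.Lib.Common.PolyTime

variable {α β : Type} [TEnc α] [TEnc β]

theorem clb_finite (n : ℕ) (P : List Bool → Prop) :
    Finite {y : List Bool // y.length = n ∧ P y} :=
  ((List.finite_length_eq Bool n).subset (fun _ hy => hy.1)).to_subtype

theorem clb_cnt_pos (n : ℕ) (P : List Bool → Prop) :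
    0 < cnt n P ↔ ∃ y : List Bool, y.length = n ∧ P y := by
  have := clb_finite n P
  unfold cnt
  rw [Nat.card_pos_iff]
  constructor
  · rintro ⟨⟨y⟩, -⟩
    exact ⟨y.1, y.2⟩
  · rintro ⟨y, hy⟩
    exact ⟨⟨⟨y, hy⟩⟩, this⟩

theorem CHp.congr {A B : α → Prop} (hA : CHp A) (h : ∀ a, A a ↔ B a) : CHp B := by
  obtain ⟨j, hj⟩ := hA
  exact ⟨j, hj.congr h⟩

theorem CHp.of_PT {f : α → Bool} (hf : PT f) : CHp (fun a => f a = true) :=
  ⟨0, f, hf, fun _ => Iff.rfl⟩

theorem CHp.of_decide {P : α → Prop} [DecidablePred P] (hf : PT (fun a => decide (P a))) :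
    CHp P :=
  (CHp.of_PT hf).congr fun a => by simp

theorem CHp.const (P : Prop) : CHp (fun _ : α => P) := ⟨0, InC.const 0 P⟩

theorem CHp.pre {A : α → Prop} (hA : CHp A) {f : β → α} (hf : PT f) : CHp (fun b => A (f b)) := by
  obtain ⟨j, hj⟩ := hA
  exact ⟨j, hj.pre hf⟩

theorem CHp.not {A : α → Prop} (hA : CHp A) : CHp (fun a => ¬ A a) := by
  obtain ⟨j, hj⟩ := hA
  exact ⟨j, hj.not⟩

theorem clb_PT_head : PT (fun p : α × List Bool => decide (p.2.head? = some true)) := by
  fun_prop

theorem clb_PT_snd : PT (fun p : α × List Bool => decide (p.2.tail.head? = some true)) := by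
  fun_prop

theorem CHp.and {A B : α → Prop} (hA : CHp A) (hB : CHp B) : CHp (fun a => A a ∧ B a) := by
  classical
  obtain ⟨j, hj⟩ := hA
  obtain ⟨k, hk⟩ := hB
  have hA' : InC (max j k) A := hj.mono (le_max_left _ _)
  have hB' : InC (max j k) B := hk.mono (le_max_right _ _)
  have hfst : PT (fun p : α × List Bool => p.1) := by fun_prop
  have hE : InC (max j k) (fun p : α × List Bool =>
      if decide (p.2.tail.head? = some true) = true then
        (if decide (p.2.head? = some true) = true then False else True)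
      else (if decide (p.2.head? = some true) = true then A p.1 else B p.1)) :=
    ((InC.const _ False).ite (InC.const _ True) clb_PT_head).ite
      ((hA'.pre hfst).ite (hB'.pre hfst) clb_PT_head) clb_PT_snd
  refine ⟨max j k + 1, fun _ => 2, _, PT.const 2, hE, fun a => ?_⟩
  simp only [cnt_succ, cnt_zero, List.head?_cons, List.tail_cons, decide_true, if_true,
    Option.some.injEq, Bool.false_eq_true, decide_false, if_false]
  by_cases h1 : A a <;> by_cases h2 : B a <;> simp [h1, h2]

theorem CHp.or {A B : α → Prop} (hA : CHp A) (hB : CHp B) : CHp (fun a => A a ∨ B a) :=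
  ((hA.not.and hB.not).not).congr fun a => by tauto

theorem CHp.imp {A B : α → Prop} (hA : CHp A) (hB : CHp B) : CHp (fun a => A a → B a) :=
  (hA.not.or hB).congr fun a => by tauto

theorem CHp.iff {A B : α → Prop} (hA : CHp A) (hB : CHp B) : CHp (fun a => (A a ↔ B a)) :=
  ((hA.imp hB).and (hB.imp hA)).congr fun a => by tauto

/-- existential quantifier over bit strings of given length -/
theorem CHp.exists_str {l : α → ℕ} (hl : PT l) {B : α × List Bool → Prop} (hB : CHp B) :
    CHp (fun a => ∃ y : List Bool, y.length = l a ∧ B (a, y)) := by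
  classical
  obtain ⟨j, hj⟩ := hB
  have hf : PT (fun p : α × List Bool => (p.1, p.2.tail)) := by fun_prop
  have hE : InC j (fun p : α × List Bool =>
      if decide (p.2.head? = some true) = true then True else B (p.1, p.2.tail)) :=
    (InC.const _ True).ite (hj.pre hf) clb_PT_head
  refine ⟨j + 1, fun a => l a + 1, _, by fun_prop, hE, fun a => ?_⟩
  simp only [cnt_succ, List.head?_cons, List.tail_cons, decide_true, if_true,
    Option.some.injEq, Bool.false_eq_true, decide_false, if_false, cnt_true]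
  rw [← clb_cnt_pos (l a) (fun y => B (a, y)), pow_succ]
  omega

theorem CHp.forall_str {l : α → ℕ} (hl : PT l) {B : α × List Bool → Prop} (hB : CHp B) :
    CHp (fun a => ∀ y : List Bool, y.length = l a → B (a, y)) :=
  ((CHp.exists_str hl hB.not).not).congr fun a => by
    constructor
    · intro h y hy
      by_contra hn
      exact h ⟨y, hy, hn⟩
    · rintro h ⟨y, hy, hn⟩
      exact hn (h y hy)

/-- majority quantifier -/
theorem CHp.majority {l : α → ℕ} (hl : PT l) {B : α × List Bool → Prop} (hB : CHp B) :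
    CHp (fun a => 2 ^ l a < 2 * cnt (l a) (fun y => B (a, y))) := by
  obtain ⟨j, hj⟩ := hB
  exact ⟨j + 1, l, B, hl, hj, fun _ => Iff.rfl⟩

end Vale.Agent.P337

end

section

/-!
P337, complexity side: natural numbers in binary.
-/

namespace Vale.Agent.P337

open Vale.Agent.Lib.Common.PolyTime

variable {α : Type} [TEnc α]

/-- natural numbers, encoded in binary -/
@[ext] structure BNat where
  v : ℕ

theorem bval_bits (n : ℕ) : bval (Nat.bits n) = n := by
  induction n using Nat.binaryRec' with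
  | zero => simp [bval]
  | bit b n h ih =>
    rw [Nat.bits_append_bit _ _ h]
    simp only [bval, ih, Nat.bit_val]
    omega

instance : TEnc BNat := ⟨fun n => TEnc.enc (Nat.bits n.v), by
  intro a b h
  have h1 : Nat.bits a.v = Nat.bits b.v := TEnc.inj h
  ext
  rw [← bval_bits a.v, h1, bval_bits]⟩

instance : DecidableEq BNat := fun a b => decidable_of_iff (a.v = b.v) BNat.ext_iff.symm

/-- the two evaluations of bit lists agree -/
theorem BNat_bval_eq (l : List Bool) : Vale.Agent.Lib.Common.PolyTime.bval l = bval l := by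
  induction l with
  | nil => rfl
  | cons b l ih =>
    rw [bval_cons, ih, Nat.bit_val]
    change _ = b.toNat + 2 * bval l
    omega

theorem bval_lt (l : List Bool) : bval l < 2 ^ l.length := by
  induction l with
  | nil => exact Nat.one_pos
  | cons b l ih =>
    change b.toNat + 2 * bval l < 2 ^ (l.length + 1)
    have h1 := Bool.toNat_le b
    rw [pow_succ]
    omega

/-- every number below `2 ^ n` has a unique code of length `n` -/
theorem exists_bval {n v : ℕ} (h : v < 2 ^ n) : ∃ l : List Bool, l.length = n ∧ bval l = v := by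
  induction n generalizing v with
  | zero =>
    refine ⟨[], rfl, ?_⟩
    change 0 = v
    rw [pow_zero] at h
    omega
  | succ n ih =>
    have h1 : v / 2 < 2 ^ n := by
      rw [pow_succ] at h
      omega
    obtain ⟨l, hl, hv⟩ := ih h1
    refine ⟨decide (v % 2 = 1) :: l, by rw [List.length_cons, hl], ?_⟩
    change (decide (v % 2 = 1)).toNat + 2 * bval l = v
    rw [hv]
    by_cases h2 : v % 2 = 1
    · rw [decide_eq_true h2, Bool.toNat_true]
      omega
    · rw [decide_eq_false h2, Bool.toNat_false]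
      omega

theorem bval_inj {l m : List Bool} (h : l.length = m.length) (h' : bval l = bval m) : l = m := by
  induction l generalizing m with
  | nil =>
    cases m with
    | nil => rfl
    | cons c m => simp at h
  | cons b l ih =>
    cases m with
    | nil => simp at h
    | cons c m =>
      change b.toNat + 2 * bval l = c.toNat + 2 * bval m at h'
      have h1 := Bool.toNat_le b
      have h2 := Bool.toNat_le c
      have h3 : b.toNat = c.toNat := by omega
      have h4 : bval l = bval m := by omega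
      have h5 : b = c := by
        revert h3
        cases b <;> cases c <;> simp
      rw [ih (by simpa using h) h4, h5]

theorem sz_BNat_le {n k : ℕ} (h : n < 2 ^ k) : sz (⟨n⟩ : BNat) ≤ 4 * k + 1 := by
  have h1 : sz (⟨n⟩ : BNat) = sz (⟨n⟩ : Bn) := rfl
  have h2 := sz_bn_le (⟨n⟩ : Bn)
  have h3 : Nat.size n ≤ k := Nat.size_le.mpr h
  rw [h1]
  change _ ≤ 4 * Nat.size n + 1 at h2
  omega

theorem lt_two_pow_sz (n : BNat) : n.v < 2 ^ sz n := by
  have h1 : sz n = sz (⟨n.v⟩ : Bn) := rfl
  have h2 := size_le_sz_bn (⟨n.v⟩ : Bn)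
  change 2 * Nat.size n.v + 1 ≤ _ at h2
  refine lt_of_lt_of_le (Nat.lt_size_self n.v) (Nat.pow_le_pow_right two_pos ?_)
  omega

/-- the two types of binary numbers have the same code -/
theorem BNat_toBn {f : α → BNat} (hf : PT f) : PT (fun a => (⟨(f a).v⟩ : Bn)) := by
  obtain ⟨F, hF, hF'⟩ := hf
  exact ⟨F, hF, fun a => hF' a⟩

theorem BNat_ofBn {f : α → Bn} (hf : PT f) : PT (fun a => (⟨(f a).val⟩ : BNat)) := by
  obtain ⟨F, hF, hF'⟩ := hf
  exact ⟨F, hF, fun a => hF' a⟩

@[fun_prop] theorem PT_bits {f : α → BNat} (hf : PT f) : PT (fun a => Nat.bits (f a).v) := by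
  obtain ⟨F, hF, hF'⟩ := hf
  exact ⟨F, hF, fun a => hF' a⟩

@[fun_prop] theorem PT_ofBits {f : α → List Bool} (hf : PT f) :
    PT (fun a => (⟨bval (f a)⟩ : BNat)) := by
  have h : (fun a => (⟨bval (f a)⟩ : BNat)) = fun a => ⟨(Bn.ofBits (f a)).val⟩ := by
    funext a
    rw [Bn.ofBits_val, BNat_bval_eq]
  rw [h]
  exact BNat_ofBn (PT.bnOfBits hf)

@[fun_prop] theorem PT_ofNat {f : α → ℕ} (hf : PT f) : PT (fun a => (⟨f a⟩ : BNat)) := by
  exact BNat_ofBn (PT.bnOfNat hf)

@[fun_prop] theorem PT_twoPow {f : α → ℕ} (hf : PT f) : PT (fun a => (⟨2 ^ f a⟩ : BNat)) := by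
  exact BNat_ofBn (PT.bnPow2 hf)

end Vale.Agent.P337

end

section

/-!
P337, complexity side: comparison of binary numbers.
-/

namespace Vale.Agent.P337

open Vale.Agent.Lib.Common.PolyTime

variable {α : Type} [TEnc α]

@[fun_prop] theorem PT_lt {f g : α → BNat} (hf : PT f) (hg : PT g) :
    PT (fun a => decide ((f a).v < (g a).v)) := by
  exact PT.bnLt (BNat_toBn hf) (BNat_toBn hg)

/-- the minimum of a binary and a unary number, in unary -/
@[fun_prop] theorem PT_cap {f : α → BNat} {g : α → ℕ} (hf : PT f) (hg : PT g) :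
    PT (fun a => min (f a).v (g a)) := by
  have h : (fun a => min (f a).v (g a)) = fun a =>
      bif Bn.le ⟨(f a).v⟩ (Bn.ofNat (g a)) then
        modU (g a + 1) (Bn.bits ⟨(f a).v⟩) else g a := by
    funext a
    by_cases h0 : (f a).v ≤ g a
    · have h1 : Bn.le ⟨(f a).v⟩ (Bn.ofNat (g a)) = true := decide_eq_true h0
      rw [h1, cond_true, min_eq_left h0]
      unfold modU
      rw [if_neg (Nat.succ_ne_zero _)]
      change _ = Vale.Agent.Lib.Common.PolyTime.bval (Nat.bits (f a).v) % (g a + 1)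
      rw [bval_natBits]
      exact (Nat.mod_eq_of_lt (by omega)).symm
    · have h1 : Bn.le ⟨(f a).v⟩ (Bn.ofNat (g a)) = false := decide_eq_false h0
      rw [h1, cond_false]
      exact min_eq_right (by omega)
  rw [h]
  have hF := BNat_toBn hf
  exact PT.bif (PT.bnLe hF (PT.bnOfNat hg)) (PT.modU (PT.succ hg) (PT.bnBits hF)) hg

end Vale.Agent.P337

end

section

/-!
P337, complexity side: functions computable in the counting hierarchy; quantifiers over numbers.
-/

namespace Vale.Agent.P337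

open Vale.Agent.Lib.Common.PolyTime

variable {α β : Type} [TEnc α] [TEnc β]

/-- functions with values below `2 ^ poly` whose graph is in the counting hierarchy -/
def FC (f : α → ℕ) : Prop :=
  (∃ l : α → ℕ, PT l ∧ ∀ a, f a < 2 ^ l a) ∧ CHp (fun p : α × BNat => f p.1 = p.2.v)

theorem FC_cnt_bval (n : ℕ) (P : ℕ → Prop) :
    cnt n (fun y => P (bval y)) = Nat.card {v : ℕ // v < 2 ^ n ∧ P v} := by
  unfold cnt
  refine Nat.card_congr (Equiv.ofBijective
    (fun y => ⟨bval y.1, by
      have h := bval_lt y.1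
      rw [y.2.1] at h
      exact h, y.2.2⟩) ⟨?_, ?_⟩)
  · rintro ⟨y, hy⟩ ⟨z, hz⟩ h
    have h1 : bval y = bval z := by simpa using h
    exact Subtype.ext (bval_inj (hy.1.trans hz.1.symm) h1)
  · rintro ⟨v, hv, hP⟩
    obtain ⟨y, hy, hyv⟩ := exists_bval hv
    exact ⟨⟨y, hy, by simpa only [hyv] using hP⟩, Subtype.ext hyv⟩

theorem FC_cnt_ge {n v : ℕ} (_hv : v ≤ 2 ^ n) :
    cnt n (fun y => ¬ bval y < v) = 2 ^ n - v := by
  rw [FC_cnt_bval n (fun w => ¬ w < v)]
  have h : {w : ℕ // w < 2 ^ n ∧ ¬ w < v} = {w : ℕ // w ∈ Finset.Ico v (2 ^ n)} := by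
    congr 1
    funext w
    rw [Finset.mem_Ico, not_lt, and_comm]
  rw [h, Nat.card_eq_fintype_card, Fintype.card_coe, Nat.card_Ico]

theorem FC_pre_bval {B : α → ℕ → Prop}
    (hB : CHp (fun p : α × BNat => B p.1 p.2.v)) :
    CHp (fun p : α × List Bool => B p.1 (bval p.2)) :=
  CHp.pre (f := fun p : α × List Bool => (p.1, (⟨bval p.2⟩ : BNat))) hB (by fun_prop)

theorem CHp.exists_lt_pow {l : α → ℕ} (hl : PT l) {B : α → ℕ → Prop}
    (hB : CHp (fun p : α × BNat => B p.1 p.2.v)) : CHp (fun a => ∃ v < 2 ^ l a, B a v) := by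
  refine (CHp.exists_str hl (FC_pre_bval hB)).congr fun a => ?_
  constructor
  · rintro ⟨y, hy, hB⟩
    refine ⟨bval y, ?_, hB⟩
    rw [← hy]
    exact bval_lt y
  · rintro ⟨v, hv, hB⟩
    obtain ⟨y, hy, hyv⟩ := exists_bval hv
    exact ⟨y, hy, by simpa [hyv] using hB⟩

theorem CHp.forall_lt_pow {l : α → ℕ} (hl : PT l) {B : α → ℕ → Prop}
    (hB : CHp (fun p : α × BNat => B p.1 p.2.v)) : CHp (fun a => ∀ v < 2 ^ l a, B a v) := by
  refine (CHp.not (CHp.exists_lt_pow hl (B := fun a v => ¬ B a v) (CHp.not hB))).congr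
    fun a => ?_
  push Not
  rfl

/-- counting: comparison of the number of solutions with a binary number -/
theorem CHp.lt_count_pow {l : α → ℕ} (hl : PT l) {B : α → ℕ → Prop}
    (hB : CHp (fun p : α × BNat => B p.1 p.2.v)) :
    CHp (fun p : α × BNat => p.2.v < Nat.card {v : ℕ // v < 2 ^ l p.1 ∧ B p.1 v}) := by
  classical
  have hB' := FC_pre_bval hB
  have hhead : CHp (fun q : (α × BNat) × List Bool => q.2.head? = some true) :=
    CHp.of_decide (by fun_prop)
  have h1 : CHp (fun q : (α × BNat) × List Bool => ¬ bval q.2.tail < q.1.2.v) :=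
    CHp.not (CHp.of_decide (P := fun q : (α × BNat) × List Bool => bval q.2.tail < q.1.2.v)
      (PT_lt (f := fun q : (α × BNat) × List Bool => (⟨bval q.2.tail⟩ : BNat))
        (g := fun q : (α × BNat) × List Bool => q.1.2) (by fun_prop) (by fun_prop)))
  have h2 : CHp (fun q : (α × BNat) × List Bool => B q.1.1 (bval q.2.tail)) :=
    CHp.pre (f := fun q : (α × BNat) × List Bool => (q.1.1, q.2.tail)) hB' (by fun_prop)
  have h3 : CHp (fun q : (α × BNat) × List Bool =>
      (q.2.head? = some true ∧ ¬ bval q.2.tail < q.1.2.v) ∨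
        (¬ q.2.head? = some true ∧ B q.1.1 (bval q.2.tail))) :=
    CHp.or (CHp.and hhead h1) (CHp.and (CHp.not hhead) h2)
  have h4 := CHp.majority (l := fun p : α × BNat => l p.1 + 1) (by fun_prop) h3
  have h5 : CHp (fun p : α × BNat => ¬ (2 ^ l p.1 < p.2.v)) :=
    CHp.not (CHp.of_decide (P := fun p : α × BNat => 2 ^ l p.1 < p.2.v)
      (PT_lt (f := fun p : α × BNat => (⟨2 ^ l p.1⟩ : BNat))
        (g := fun p : α × BNat => p.2) (by fun_prop) (by fun_prop)))
  refine (CHp.and h5 h4).congr fun p => ?_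
  have hc : cnt (l p.1) (fun y => B p.1 (bval y)) =
      Nat.card {v : ℕ // v < 2 ^ l p.1 ∧ B p.1 v} := FC_cnt_bval _ _
  have hle : cnt (l p.1) (fun y => B p.1 (bval y)) ≤ 2 ^ l p.1 := by
    have := cnt_add_not (l p.1) (fun y => B p.1 (bval y))
    omega
  simp only [cnt_succ, List.head?_cons, List.tail_cons, Option.some.injEq, Bool.false_eq_true,
    not_true_eq_false, false_and, or_false, true_and, not_false_eq_true, false_or]
  rw [← hc]
  constructor
  · rintro ⟨h6, h7⟩
    rw [FC_cnt_ge (not_lt.1 h6), pow_succ] at h7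
    omega
  · intro h6
    have h7 : p.2.v ≤ 2 ^ l p.1 := by omega
    refine ⟨not_lt.2 h7, ?_⟩
    rw [FC_cnt_ge h7, pow_succ]
    omega

end Vale.Agent.P337

end

section

/-!
P337, complexity side: basic closure properties of FC.
-/

namespace Vale.Agent.P337

open Vale.Agent.Lib.Common.PolyTime

variable {α β : Type} [TEnc α] [TEnc β]

theorem FC.congr {f g : α → ℕ} (hf : FC f) (h : ∀ a, f a = g a) : FC g := by
  rwa [funext h] at hf

theorem FC.of_PT {f : α → BNat} (hf : PT f) : FC (fun a => (f a).v) := by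
  obtain ⟨l, hl, hl'⟩ := exists_PT_bound (PT.pb hf)
  refine ⟨⟨l, hl, fun a => ?_⟩, ?_⟩
  · exact (lt_two_pow_sz (f a)).trans_le (Nat.pow_le_pow_right (by norm_num) (hl' a))
  · refine CHp.congr (CHp.of_decide (P := fun p : α × BNat => f p.1 = p.2) (by fun_prop)) ?_
    intro p
    exact BNat.ext_iff

theorem FC.of_PTnat {f : α → ℕ} (hf : PT f) : FC f :=
  FC.congr (FC.of_PT (PT_ofNat hf)) fun _ => rfl

theorem FC.const (n : ℕ) : FC (fun _ : α => n) := FC.of_PTnat (PT.const n)

theorem FC.twoPow {f : α → ℕ} (hf : PT f) : FC (fun a => 2 ^ f a) :=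
  FC.congr (FC.of_PT (PT_twoPow hf)) fun _ => rfl

theorem FC.pre {f : α → ℕ} (hf : FC f) {φ : β → α} (hφ : PT φ) : FC (fun b => f (φ b)) := by
  obtain ⟨⟨l, hl, hb⟩, h⟩ := hf
  refine ⟨⟨fun b => l (φ b), by fun_prop, fun b => hb _⟩, ?_⟩
  exact CHp.pre (f := fun p : β × BNat => (φ p.1, p.2)) h (by fun_prop)

/-- from the threshold predicate to the graph -/
theorem FC.of_lt {f : α → ℕ} {l : α → ℕ} (hl : PT l) (hb : ∀ a, f a < 2 ^ l a)
    (h : CHp (fun p : α × BNat => p.2.v < f p.1)) : FC f := by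
  refine ⟨⟨l, hl, hb⟩, ?_⟩
  have h1 : CHp (fun p : α × BNat => ∀ w < 2 ^ l p.1, (w < p.2.v → w < f p.1)) := by
    refine CHp.forall_lt_pow (α := α × BNat) (l := fun p => l p.1)
      (B := fun p w => (w < p.2.v → w < f p.1)) (by fun_prop) ?_
    refine CHp.imp (CHp.of_decide (by fun_prop)) ?_
    exact CHp.pre (f := fun r : (α × BNat) × BNat => (r.1.1, r.2)) h (by fun_prop)
  refine CHp.congr (CHp.and (CHp.not h) h1) fun p => ?_
  constructor
  · rintro ⟨h2, h3⟩
    by_contra hne
    have h4 : f p.1 < p.2.v := by omega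
    exact lt_irrefl _ (h3 _ (hb p.1) h4)
  · intro h2
    constructor
    · omega
    · intro w _ hw
      omega

/-- substitution of a function into a predicate -/
theorem CHp.subst {B : α → ℕ → Prop} (hB : CHp (fun p : α × BNat => B p.1 p.2.v)) {f : α → ℕ}
    (hf : FC f) : CHp (fun a => B a (f a)) := by
  obtain ⟨⟨l, hl, hb⟩, h⟩ := hf
  have h1 : CHp (fun a => ∃ w < 2 ^ l a, f a = w ∧ B a w) :=
    CHp.exists_lt_pow hl (B := fun a w => f a = w ∧ B a w) (CHp.and h hB)
  refine CHp.congr h1 fun a => ?_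
  constructor
  · rintro ⟨w, -, rfl, hw⟩
    exact hw
  · intro hw
    exact ⟨f a, hb a, rfl, hw⟩

/-- substitution of a function into a function -/
theorem FC.subst {g : α → ℕ → ℕ} (hg : FC (fun p : α × BNat => g p.1 p.2.v)) {f : α → ℕ}
    (hf : FC f) : FC (fun a => g a (f a)) := by
  obtain ⟨⟨l, hl, hb⟩, h⟩ := hg
  obtain ⟨m, hm, hmb⟩ := hf.1
  obtain ⟨P, hP⟩ := PT.size_le hl
  refine ⟨⟨fun a => P.eval (sz a + (4 * m a + 1) + 1), ?_, fun a => ?_⟩, ?_⟩
  · exact PT_polyEval P (PT.add (PT.add PT_sz (PT.add (PT.mul (PT.const 4) hm) (PT.const 1)))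
      (PT.const 1))
  · refine (hb (a, ⟨f a⟩)).trans_le (Nat.pow_le_pow_right (by norm_num) ?_)
    have h1 := hP (a, ⟨f a⟩)
    rw [sz_nat, sz_pair] at h1
    have h2 : P.eval (sz a + sz (⟨f a⟩ : BNat) + 1) ≤ P.eval (sz a + (4 * m a + 1) + 1) := by
      apply poly_mono
      have := sz_BNat_le (hmb a)
      omega
    change l (a, ⟨f a⟩) ≤ P.eval (sz a + (4 * m a + 1) + 1)
    omega
  · have h1 : CHp (fun r : (α × BNat) × BNat => g r.1.1 r.2.v = r.1.2.v) :=
      CHp.pre (f := fun r : (α × BNat) × BNat => ((r.1.1, r.2), r.1.2)) h (by fun_prop)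
    exact CHp.subst (α := α × BNat) (B := fun p w => g p.1 w = p.2.v) h1
      (FC.pre hf (φ := fun p : α × BNat => p.1) (by fun_prop))

theorem CHp.lt {f g : α → ℕ} (hf : FC f) (hg : FC g) : CHp (fun a => f a < g a) := by
  have h1 : CHp (fun r : (α × BNat) × BNat => r.1.2.v < r.2.v) := CHp.of_decide (by fun_prop)
  have h2 : CHp (fun p : α × BNat => p.2.v < g p.1) :=
    CHp.subst (α := α × BNat) (B := fun p w => p.2.v < w) h1
      (FC.pre hg (φ := fun p : α × BNat => p.1) (by fun_prop))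
  exact CHp.subst (B := fun a w => w < g a) h2 hf

theorem CHp.le {f g : α → ℕ} (hf : FC f) (hg : FC g) : CHp (fun a => f a ≤ g a) :=
  CHp.congr (CHp.not (CHp.lt hg hf)) fun _ => not_lt

theorem CHp.eq {f g : α → ℕ} (hf : FC f) (hg : FC g) : CHp (fun a => f a = g a) :=
  CHp.congr (CHp.subst (B := fun a w => g a = w) hg.2 hf) fun _ => eq_comm

theorem CHp.exists_lt {M : α → ℕ} (hM : FC M) {B : α → ℕ → Prop}
    (hB : CHp (fun p : α × BNat => B p.1 p.2.v)) : CHp (fun a => ∃ v < M a, B a v) := by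
  obtain ⟨l, hl, hb⟩ := hM.1
  have h0 : CHp (fun p : α × BNat => p.2.v < M p.1) :=
    CHp.lt (FC.of_PT (by fun_prop)) (FC.pre hM (φ := fun p : α × BNat => p.1) (by fun_prop))
  have h1 : CHp (fun a => ∃ v < 2 ^ l a, v < M a ∧ B a v) :=
    CHp.exists_lt_pow hl (B := fun a v => v < M a ∧ B a v) (CHp.and h0 hB)
  refine CHp.congr h1 fun a => ?_
  constructor
  · rintro ⟨v, -, h2, h3⟩
    exact ⟨v, h2, h3⟩
  · rintro ⟨v, h2, h3⟩
    exact ⟨v, h2.trans (hb a), h2, h3⟩

theorem CHp.forall_lt {M : α → ℕ} (hM : FC M) {B : α → ℕ → Prop}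
    (hB : CHp (fun p : α × BNat => B p.1 p.2.v)) : CHp (fun a => ∀ v < M a, B a v) := by
  refine CHp.congr (CHp.not (CHp.exists_lt hM (B := fun a v => ¬ B a v) (CHp.not hB)))
    fun a => ?_
  push Not
  rfl

open Classical in
theorem FC.ite {c : α → Prop} (hc : CHp c) {f g : α → ℕ} (hf : FC f) (hg : FC g) :
    FC (fun a => if c a then f a else g a) := by
  obtain ⟨⟨l, hl, hlb⟩, h⟩ := hf
  obtain ⟨⟨m, hm, hmb⟩, h'⟩ := hg
  refine ⟨⟨fun a => l a + m a, by fun_prop, fun a => ?_⟩, ?_⟩
  · dsimp only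
    split
    · exact (hlb a).trans_le (Nat.pow_le_pow_right (by norm_num) (Nat.le_add_right _ _))
    · exact (hmb a).trans_le (Nat.pow_le_pow_right (by norm_num) (Nat.le_add_left _ _))
  · have hc' : CHp (fun p : α × BNat => c p.1) :=
      CHp.pre (f := fun p : α × BNat => p.1) hc (by fun_prop)
    refine CHp.congr (CHp.or (CHp.and hc' h) (CHp.and (CHp.not hc') h')) fun p => ?_
    by_cases h1 : c p.1
    · simp [h1]
    · simp [h1]

end Vale.Agent.P337

end

section

/-!
P337, complexity side: singly and doubly exponentially bounded functions.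
-/

namespace Vale.Agent.P337

open Vale.Agent.Lib.Common.PolyTime

variable {α : Type} [TEnc α]

/-- singly exponentially bounded functions -/
def SE (f : α → ℕ) : Prop := ∃ l : α → ℕ, PT l ∧ ∀ a, f a ≤ 2 ^ l a

/-- doubly exponentially bounded functions -/
def DE (f : α → ℕ) : Prop := ∃ l : α → ℕ, PT l ∧ ∀ a, f a ≤ 2 ^ 2 ^ l a

theorem SE.of_PT {f : α → ℕ} (hf : PT f) : SE f :=
  ⟨f, hf, fun _ => Nat.lt_two_pow_self.le⟩

theorem SE.of_FC {f : α → ℕ} (hf : FC f) : SE f := by
  obtain ⟨⟨l, hl, hb⟩, -⟩ := hf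
  exact ⟨l, hl, fun a => (hb a).le⟩

theorem SE.of_BNat {f : α → BNat} (hf : PT f) : SE (fun a => (f a).v) :=
  SE.of_FC (FC.of_PT hf)

theorem SE.const (n : ℕ) : SE (fun _ : α => n) := SE.of_PT (PT.const n)

theorem SE.mono {f g : α → ℕ} (hg : SE g) (h : ∀ a, f a ≤ g a) : SE f := by
  obtain ⟨l, hl, hb⟩ := hg
  exact ⟨l, hl, fun a => (h a).trans (hb a)⟩

theorem bounds_add_le (x y : ℕ) : 2 ^ x + 2 ^ y ≤ 2 ^ (x + y + 1) := by
  have h1 : 2 ^ x ≤ 2 ^ (x + y) := Nat.pow_le_pow_right (by norm_num) (by omega)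
  have h2 : 2 ^ y ≤ 2 ^ (x + y) := Nat.pow_le_pow_right (by norm_num) (by omega)
  rw [pow_succ]
  omega

theorem SE.add {f g : α → ℕ} (hf : SE f) (hg : SE g) : SE (fun a => f a + g a) := by
  obtain ⟨l, hl, hb⟩ := hf
  obtain ⟨m, hm, hc⟩ := hg
  refine ⟨fun a => l a + m a + 1, by fun_prop, fun a => ?_⟩
  exact (Nat.add_le_add (hb a) (hc a)).trans (bounds_add_le _ _)

theorem SE.mul {f g : α → ℕ} (hf : SE f) (hg : SE g) : SE (fun a => f a * g a) := by
  obtain ⟨l, hl, hb⟩ := hf
  obtain ⟨m, hm, hc⟩ := hg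
  refine ⟨fun a => l a + m a, by fun_prop, fun a => ?_⟩
  rw [pow_add]
  exact Nat.mul_le_mul (hb a) (hc a)

theorem SE.pow {f k : α → ℕ} (hf : SE f) (hk : PT k) : SE (fun a => f a ^ k a) := by
  obtain ⟨l, hl, hb⟩ := hf
  refine ⟨fun a => l a * k a, by fun_prop, fun a => ?_⟩
  rw [pow_mul]
  exact Nat.pow_le_pow_left (hb a) _

theorem SE.twoPow {k : α → ℕ} (hk : PT k) : SE (fun a => 2 ^ k a) :=
  ⟨k, hk, fun _ => le_rfl⟩

theorem SE.toDE {f : α → ℕ} (hf : SE f) : DE f := by
  obtain ⟨l, hl, hb⟩ := hf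
  exact ⟨l, hl, fun a => (hb a).trans (Nat.pow_le_pow_right (by norm_num)
    Nat.lt_two_pow_self.le)⟩

theorem DE.const (n : ℕ) : DE (fun _ : α => n) := (SE.const n).toDE

theorem DE.mono {f g : α → ℕ} (hg : DE g) (h : ∀ a, f a ≤ g a) : DE f := by
  obtain ⟨l, hl, hb⟩ := hg
  exact ⟨l, hl, fun a => (h a).trans (hb a)⟩

theorem DE.mul {f g : α → ℕ} (hf : DE f) (hg : DE g) : DE (fun a => f a * g a) := by
  obtain ⟨l, hl, hb⟩ := hf
  obtain ⟨m, hm, hc⟩ := hg
  refine ⟨fun a => l a + m a + 1, by fun_prop, fun a => ?_⟩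
  calc f a * g a ≤ 2 ^ 2 ^ l a * 2 ^ 2 ^ m a := Nat.mul_le_mul (hb a) (hc a)
    _ = 2 ^ (2 ^ l a + 2 ^ m a) := (pow_add _ _ _).symm
    _ ≤ 2 ^ 2 ^ (l a + m a + 1) := Nat.pow_le_pow_right (by norm_num) (bounds_add_le _ _)

theorem DE.add {f g : α → ℕ} (hf : DE f) (hg : DE g) : DE (fun a => f a + g a) := by
  have h1 : DE (fun a => (f a + 1) * (g a + 1)) := by
    apply DE.mul
    · obtain ⟨l, hl, hb⟩ := hf
      refine ⟨fun a => l a + 1, by fun_prop, fun a => ?_⟩
      calc f a + 1 ≤ 2 ^ 2 ^ l a + 2 ^ 0 := Nat.add_le_add (hb a) le_rfl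
        _ ≤ 2 ^ (2 ^ l a + 0 + 1) := bounds_add_le _ _
        _ ≤ 2 ^ 2 ^ (l a + 1) := Nat.pow_le_pow_right (by norm_num) (by
          rw [pow_succ]
          have := Nat.one_le_two_pow (n := l a)
          omega)
    · obtain ⟨l, hl, hb⟩ := hg
      refine ⟨fun a => l a + 1, by fun_prop, fun a => ?_⟩
      calc g a + 1 ≤ 2 ^ 2 ^ l a + 2 ^ 0 := Nat.add_le_add (hb a) le_rfl
        _ ≤ 2 ^ (2 ^ l a + 0 + 1) := bounds_add_le _ _
        _ ≤ 2 ^ 2 ^ (l a + 1) := Nat.pow_le_pow_right (by norm_num) (by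
          rw [pow_succ]
          have := Nat.one_le_two_pow (n := l a)
          omega)
  exact DE.mono h1 fun a => by nlinarith

theorem DE.pow {f k : α → ℕ} (hf : DE f) (hk : SE k) : DE (fun a => f a ^ k a) := by
  obtain ⟨l, hl, hb⟩ := hf
  obtain ⟨m, hm, hc⟩ := hk
  refine ⟨fun a => l a + m a, by fun_prop, fun a => ?_⟩
  calc f a ^ k a ≤ (2 ^ 2 ^ l a) ^ k a := Nat.pow_le_pow_left (hb a) _
    _ ≤ (2 ^ 2 ^ l a) ^ 2 ^ m a := Nat.pow_le_pow_right (by positivity) (hc a)
    _ = 2 ^ 2 ^ (l a + m a) := by rw [← pow_mul, ← pow_add]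

theorem DE.twoTwoPow {k : α → ℕ} (hk : PT k) : DE (fun a => 2 ^ 2 ^ k a) :=
  ⟨k, hk, fun _ => le_rfl⟩

/-- strict bounds -/
theorem SE.exists_lt {f : α → ℕ} (hf : SE f) : ∃ l : α → ℕ, PT l ∧ ∀ a, f a < 2 ^ l a := by
  obtain ⟨l, hl, hb⟩ := hf
  exact ⟨fun a => l a + 1, by fun_prop, fun a => (hb a).trans_lt
    (Nat.pow_lt_pow_right (by norm_num) (Nat.lt_succ_self _))⟩

theorem DE.exists_lt {f : α → ℕ} (hf : DE f) : ∃ l : α → ℕ, PT l ∧ ∀ a, f a < 2 ^ 2 ^ l a := by
  obtain ⟨l, hl, hb⟩ := hf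
  exact ⟨fun a => l a + 1, by fun_prop, fun a => (hb a).trans_lt
    (Nat.pow_lt_pow_right (by norm_num) (Nat.pow_lt_pow_right (by norm_num)
      (Nat.lt_succ_self _)))⟩

end Vale.Agent.P337

end

section

/-!
P337: the formula computing the decisive integer modulo a prime `r`.
-/

namespace Vale.Agent.P337

open MvPolynomial

/-- internal monomials: sign, absolute value of the coefficient, exponents -/
abbrev IMono := (Bool × BNat) × List ℕ

/-- internal polynomials -/
abbrev IPoly := List IMono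

/-- coefficient of an internal monomial -/
def IMono.coef (m : IMono) : ℤ := (if m.1.1 then -1 else 1) * (m.1.2.v : ℤ)

/-- the polynomial of an internal monomial, in the variables `x_0, ..., x_{N-1}` -/
noncomputable def IMono.toMv (N : ℕ) (m : IMono) : MvPolynomial (Fin N) ℤ :=
  monomial (Finsupp.equivFunOnFinite.symm fun i : Fin N => m.2.getD i 0) (IMono.coef m)

/-- the polynomial of an internal polynomial -/
noncomputable def IPoly.toMv (N : ℕ) (q : IPoly) : MvPolynomial (Fin N) ℤ :=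
  (List.map (fun m => IMono.toMv N m) q).sum

/-- the sum of the squares of a list of internal polynomials -/
noncomputable def sqs (N : ℕ) (qs : List IPoly) : MvPolynomial (Fin N) ℤ :=
  (List.map (fun q => IPoly.toMv N q ^ 2) qs).sum

/-- the parameters -/
structure Prm where
  /-- number of variables -/
  N : ℕ
  e : ℕ
  /-- `Λ = 2 ^ 2 ^ EL` -/
  EL : ℕ
  /-- `s = 2 ^ 2 ^ Es` -/
  Es : ℕ
  /-- scaling factor `2 ^ 2 ^ ES` of the derivatives -/
  ES : ℕ
  /-- threshold `2 ^ 2 ^ EC` for the critical value -/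
  EC : ℕ
  qs : List IPoly
  K : ℕ
  M : ℕ
  kap : ℕ
  a : ℕ
  a' : ℕ
  Z : ℕ
  Th : ℕ
  w0 : ℕ
  rho : ℕ
  q : ℕ
  r : ℕ

namespace Prm

variable (P : Prm)

/-- exponent of the leading monomials -/
def d : ℕ := 2 * P.e - 1

/-- dimension of the algebra -/
def D : ℕ := P.d ^ P.N

/-- the large factor -/
def L : ℕ := 2 ^ 2 ^ P.EL

/-- coefficients of the linear perturbation -/
def b (i : ℕ) : ℕ := 2 ^ 2 ^ P.Es * 2 ^ (i * P.d)

/-- the sum of squares -/
noncomputable def p : MvPolynomial (Fin P.N) ℤ := sqs P.N P.qs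

/-- weights -/
def w (k : ℕ) : ℕ := if k = 0 then P.w0 else if P.q = 0 then 0 else P.rho ^ k % P.q

/-- the point with coordinates `z i`, modulo `r` -/
def pt (z : ℕ → ℕ) : Fin P.N → ZMod P.r := fun i => (z i : ZMod P.r)

/-- extension of a vector by zero -/
def ext {N : ℕ} (z : Fin N → ℕ) : ℕ → ℕ := fun i => if h : i < N then z ⟨i, h⟩ else 0

/-- value of `p` modulo `r` -/
noncomputable def ev0 (z : ℕ → ℕ) : ZMod P.r :=
  MvPolynomial.eval (P.pt z) (MvPolynomial.map (Int.castRingHom _) P.p)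

/-- value of the `i`-th partial derivative of `p` modulo `r` -/
noncomputable def ev1 (i : ℕ) (z : ℕ → ℕ) : ZMod P.r :=
  if hi : i < P.N then
    MvPolynomial.eval (P.pt z) (MvPolynomial.map (Int.castRingHom _) (pderiv ⟨i, hi⟩ P.p))
  else 0

/-- value of the second partial derivatives of `p` modulo `r` -/
noncomputable def ev2 (i j : ℕ) (z : ℕ → ℕ) : ZMod P.r :=
  if hi : i < P.N then
    if hj : j < P.N then
      MvPolynomial.eval (P.pt z) (MvPolynomial.map (Int.castRingHom _)
        (pderiv ⟨j, hj⟩ (pderiv ⟨i, hi⟩ P.p)))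
    else 0
  else 0

/-- the perturbed function -/
noncomputable def gz (z : ℕ → ℕ) : ZMod P.r :=
  ((2 * P.e * P.L : ℕ) : ZMod P.r) * P.ev0 z + ∑ i ∈ Finset.range P.N, (z i : ZMod P.r) ^ (2 * P.e) +
    ∑ i ∈ Finset.range P.N, ((2 * P.e * P.b i : ℕ) : ZMod P.r) * (z i : ZMod P.r)

/-- right hand sides of the gradient system `x_i ^ d = H_i` -/
noncomputable def Hz (i : ℕ) (z : ℕ → ℕ) : ZMod P.r :=
  -(((P.L : ℕ) : ZMod P.r) * P.ev1 i z) - ((P.b i : ℕ) : ZMod P.r)

/-- entries of the Jacobian matrix -/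
noncomputable def Jent (i j : ℕ) (z : ℕ → ℕ) : ZMod P.r :=
  (if i = j then ((P.d : ℕ) : ZMod P.r) * (z i : ZMod P.r) ^ (P.d - 1) else 0) +
    ((P.L : ℕ) : ZMod P.r) * P.ev2 i j z

/-- the Jacobian determinant -/
noncomputable def Jz (z : ℕ → ℕ) : ZMod P.r :=
  Matrix.det (Matrix.of fun i j : Fin P.N => P.Jent i j z)

/-- the weight of a point in the trace formula -/
noncomputable def Tz (z : ℕ → ℕ) : ZMod P.r :=
  P.Jz z * ∏ i ∈ Finset.range P.N, ∑ k ∈ Finset.range (P.K + 1),
    P.Hz i z ^ k * ((z i : ZMod P.r)⁻¹) ^ (P.d * (k + 1) - 1)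

/-- the trace formula -/
noncomputable def trz (F : (ℕ → ℕ) → ZMod P.r) : ZMod P.r :=
  (-1) ^ P.N * ∑ z ∈ Fintype.piFinset (fun _ : Fin P.N => Finset.Ico 1 P.r),
    F (ext z) * P.Tz (ext z)

/-- power sums of `g` -/
noncomputable def pw (j : ℕ) : ZMod P.r := P.trz (fun z => P.gz z ^ j)

/-- elementary symmetric functions from power sums -/
noncomputable def expF (S : ℕ → ZMod P.r) (j : ℕ) : ZMod P.r :=
  ∑ l ∈ Finset.range (j + 1), ((l.factorial : ℕ) : ZMod P.r)⁻¹ *
    (-∑ x ∈ Finset.Ico 1 P.r,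
      (∑ i ∈ Finset.Ico 1 (P.D + 1),
        (-1) ^ (i - 1) * S i * ((i : ℕ) : ZMod P.r)⁻¹ * ((x : ℕ) : ZMod P.r) ^ i) ^ l *
        (((x : ℕ) : ZMod P.r)⁻¹) ^ j)

/-- the `k`-th derivative of the characteristic polynomial of `g` at `x` -/
noncomputable def fd (k : ℕ) (x : ZMod P.r) : ZMod P.r :=
  ∑ j ∈ Finset.range (P.D + 1), (-1) ^ j * P.expF P.pw j *
    (((P.D - j).descFactorial k : ℕ) : ZMod P.r) * x ^ (P.D - j - k)

/-- the scaled functions whose signs are used -/
noncomputable def yz (k : ℕ) (x : ZMod P.r) : ZMod P.r :=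
  ((2 ^ 2 ^ P.ES : ℕ) : ZMod P.r) *
    (if k = 0 then ((2 ^ 2 ^ P.EC : ℕ) : ZMod P.r) - x else P.fd k x)

/-- Newman type products -/
noncomputable def Pmz (y : ZMod P.r) : ZMod P.r :=
  ∏ i ∈ Finset.range (P.M + 1), (y - 2 ^ i) ^ (2 * P.kap)

/-- Newman type products -/
noncomputable def Ppz (y : ZMod P.r) : ZMod P.r :=
  ∏ i ∈ Finset.range (P.M + 1), (y + 2 ^ i) ^ (2 * P.kap)

/-- denominators -/
noncomputable def Bz (k : ℕ) (x : ZMod P.r) : ZMod P.r :=
  (P.a : ZMod P.r) * P.Pmz (P.yz k x) + (P.a' : ZMod P.r) * P.Ppz (P.yz k x)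

/-- the isolating polynomial at `x` -/
noncomputable def PPz (x : ZMod P.r) : ZMod P.r :=
  (∑ k ∈ Finset.range P.D, ((P.Z * P.w k * P.a : ℕ) : ZMod P.r) * P.Pmz (P.yz k x) *
    ∏ j ∈ Finset.range P.D, if j = k then 1 else P.Bz j x) -
    (P.Th : ZMod P.r) * ∏ j ∈ Finset.range P.D, P.Bz j x

/-- the decisive number modulo `r` -/
noncomputable def form : ZMod P.r :=
  P.expF (fun k => P.trz (fun z => P.PPz (P.gz z) ^ k)) P.D

end Prm

end Vale.Agent.P337

end

section

/-!
P337, complexity side: addition and subtraction of binary numbers.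
-/

namespace Vale.Agent.P337

open Vale.Agent.Lib.Common.PolyTime

variable {α : Type} [TEnc α]

@[fun_prop] theorem PT_badd {f g : α → BNat} (hf : PT f) (hg : PT g) :
    PT (fun a => (⟨(f a).v + (g a).v⟩ : BNat)) := by
  exact BNat_ofBn (PT.bnAdd (BNat_toBn hf) (BNat_toBn hg))

@[fun_prop] theorem PT_bsub {f g : α → BNat} (hf : PT f) (hg : PT g) :
    PT (fun a => (⟨(f a).v - (g a).v⟩ : BNat)) := by
  exact BNat_ofBn (PT.bnSub (BNat_toBn hf) (BNat_toBn hg))

end Vale.Agent.P337

end

section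

/-!
P337, complexity side: modular multiplication and powers of binary numbers.
-/

namespace Vale.Agent.P337

open Vale.Agent.Lib.Common.PolyTime

variable {α : Type} [TEnc α]

/-- the two types of binary numbers have the same code -/
theorem BNatMul_toBn {f : α → BNat} (hf : PT f) : PT (fun a => (⟨(f a).v⟩ : Bn)) := by
  obtain ⟨F, hF, hF'⟩ := hf
  exact ⟨F, hF, fun a => hF' a⟩

theorem BNatMul_ofBn {f : α → Bn} (hf : PT f) : PT (fun a => (⟨(f a).val⟩ : BNat)) := by
  obtain ⟨F, hF, hF'⟩ := hf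
  exact ⟨F, hF, fun a => hF' a⟩

@[fun_prop] theorem PT_bmulmod {f g r : α → BNat} (hf : PT f) (hg : PT g) (hr : PT r) :
    PT (fun a => (⟨(f a).v * (g a).v % (r a).v⟩ : BNat)) :=
  BNatMul_ofBn (PT.bnMod (PT.bnMul (BNatMul_toBn hf) (BNatMul_toBn hg)) (BNatMul_toBn hr))

/-- one step of the power algorithm: square and multiply modulo `m` -/
def powStep (m x s : Bn) (b : Bool) : Bn := Bn.mod (Bn.mul (Bn.mul s s) (bif b then x else ⟨1⟩)) m

theorem foldl_powStep (m x : Bn) (l : List Bool) :
    l.reverse.foldl (powStep m x) (Bn.mod ⟨1⟩ m) =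
      ⟨x.val ^ (Vale.Agent.Lib.Common.PolyTime.bval l) % m.val⟩ := by
  induction l with
  | nil =>
    apply Bn.ext
    change 1 % m.val = x.val ^ 0 % m.val
    rw [pow_zero]
  | cons b l ih =>
    rw [List.reverse_cons, List.foldl_append, ih]
    apply Bn.ext
    rw [Vale.Agent.Lib.Common.PolyTime.bval_cons]
    set v := Vale.Agent.Lib.Common.PolyTime.bval l with hv
    change (x.val ^ v % m.val) * (x.val ^ v % m.val) * (bif b then x else (⟨1⟩ : Bn)).val % m.val =
      x.val ^ (Nat.bit b v) % m.val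
    have h1 : x.val ^ (Nat.bit b v) = x.val ^ v * x.val ^ v * (bif b then x else (⟨1⟩ : Bn)).val := by
      rw [Nat.bit_val, pow_add, two_mul, pow_add]
      cases b
      · change _ * x.val ^ 0 = _ * 1
        rw [pow_zero]
      · change _ * x.val ^ 1 = _ * x.val
        rw [pow_one]
    rw [h1]
    simp [Nat.mul_mod]

theorem powStep_lt (m x : Bn) (hm : 0 < m.val) (l : List Bool) :
    (l.foldl (powStep m x) (Bn.mod ⟨1⟩ m)).val < m.val := by
  have h := foldl_powStep m x l.reverse
  rw [List.reverse_reverse] at h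
  rw [h]
  exact Nat.mod_lt _ hm

theorem PT_powStep {m x : α → Bn} (hm : PT m) (hx : PT x) :
    PT (fun y : α × Bn × Bool => powStep (m y.1) (x y.1) y.2.1 y.2.2) := by
  have hm' : PT (fun y : α × Bn × Bool => m y.1) := hm.comp (PT.fst PT.id)
  have hx' : PT (fun y : α × Bn × Bool => x y.1) := hx.comp (PT.fst PT.id)
  have hs : PT (fun y : α × Bn × Bool => y.2.1) := PT.fst (PT.snd PT.id)
  have hb : PT (fun y : α × Bn × Bool => y.2.2) := PT.snd (PT.snd PT.id)
  exact PT.bnMod (PT.bnMul (PT.bnMul hs hs) (PT.bif hb hx' (PT.const (⟨1⟩ : Bn)))) hm'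

theorem PT_powFold {m x y : α → Bn} (hm : PT m) (hx : PT x) (hy : PT y)
    (h0 : ∀ a, 0 < (m a).val) :
    PT (fun a => (⟨(x a).val ^ (y a).val % (m a).val⟩ : Bn)) := by
  have h : (fun a => (⟨(x a).val ^ (y a).val % (m a).val⟩ : Bn)) = fun a =>
      (y a).bits.reverse.foldl (powStep (m a) (x a)) (Bn.mod ⟨1⟩ (m a)) := by
    funext a
    rw [foldl_powStep]
    apply Bn.ext
    change _ = (x a).val ^ (Vale.Agent.Lib.Common.PolyTime.bval (Nat.bits (y a).val)) % (m a).val
    rw [bval_natBits]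
  rw [h]
  refine PT.foldl_le (step := fun a => powStep (m a) (x a)) (PT_powStep hm hx)
    (PT.reverse (PT.bnBits hy)) (PT.bnMod (PT.const (⟨1⟩ : Bn)) hm) (h := fun a => (m a, m a))
    (PT.pair hm hm) fun a l₁ l₂ _ => ?_
  have h1 := powStep_lt (m a) (x a) (h0 a) l₁
  have h2 := Nat.size_le_size h1.le
  have h3 := sz_bn_le (l₁.foldl (powStep (m a) (x a)) (Bn.mod ⟨1⟩ (m a)))
  have h4 := size_le_sz_bn (m a)
  rw [sz_pair]
  omega

@[fun_prop] theorem PT_bpowmod {f g r : α → BNat} (hf : PT f) (hg : PT g) (hr : PT r) :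
    PT (fun a => (⟨if (r a).v = 0 then 0 else (f a).v ^ (g a).v % (r a).v⟩ : BNat)) := by
  have hR := BNatMul_toBn hr
  have hm : PT (fun a => Bn.max (⟨(r a).v⟩ : Bn) ⟨1⟩) := PT.bnMax hR (PT.const (⟨1⟩ : Bn))
  have h1 : PT (fun a => (⟨(f a).v ^ (g a).v % (Bn.max (⟨(r a).v⟩ : Bn) ⟨1⟩).val⟩ : Bn)) :=
    PT_powFold (x := fun a => (⟨(f a).v⟩ : Bn)) (y := fun a => (⟨(g a).v⟩ : Bn)) hm
      (BNatMul_toBn hf) (BNatMul_toBn hg) fun a => by
        rw [Bn.max_val]
        exact lt_of_lt_of_le Nat.one_pos (Nat.le_max_right _ _)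
  have h2 : PT (fun a => bif decide ((⟨(r a).v⟩ : Bn) = ⟨0⟩) then (⟨0⟩ : Bn) else
      (⟨(f a).v ^ (g a).v % (Bn.max (⟨(r a).v⟩ : Bn) ⟨1⟩).val⟩ : Bn)) :=
    PT.bif (PT.decide_eq hR (PT.const (⟨0⟩ : Bn))) (PT.const (⟨0⟩ : Bn)) h1
  have h3 : (fun a => (⟨if (r a).v = 0 then 0 else (f a).v ^ (g a).v % (r a).v⟩ : BNat)) =
      fun a => (⟨(bif decide ((⟨(r a).v⟩ : Bn) = ⟨0⟩) then (⟨0⟩ : Bn) else
        (⟨(f a).v ^ (g a).v % (Bn.max (⟨(r a).v⟩ : Bn) ⟨1⟩).val⟩ : Bn)).val⟩ : BNat) := by
    funext a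
    by_cases h0 : (r a).v = 0
    · rw [if_pos h0, decide_eq_true (show (⟨(r a).v⟩ : Bn) = ⟨0⟩ from Bn.ext h0), cond_true]
    · rw [if_neg h0, decide_eq_false (show ¬ (⟨(r a).v⟩ : Bn) = ⟨0⟩ from fun h => h0 (by
        have := congrArg Bn.val h
        exact this)), cond_false]
      rw [Bn.max_val]
      have h5 : Nat.max (r a).v 1 = (r a).v := Nat.max_eq_left (Nat.pos_of_ne_zero h0)
      change _ = (⟨(f a).v ^ (g a).v % (Nat.max (r a).v 1)⟩ : BNat)
      rw [h5]
  rw [h3]
  exact BNatMul_ofBn h2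

end Vale.Agent.P337

end
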