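import Mathlib

section

/-!
P337, algebra side: monic complete intersections `x_i ^ d = H_i(x)`, `deg H_i < d`.
-/

namespace Vale.Agent.P337

open MvPolynomial

variable {N : ℕ} {R : Type} [CommRing R]

/-- the equations `X_i ^ d - H_i` -/
noncomputable def Fs (d : ℕ) (H : Fin N → MvPolynomial (Fin N) R) (i : Fin N) :
    MvPolynomial (Fin N) R := X i ^ d - H i

/-- the quotient algebra -/
abbrev QA (d : ℕ) (H : Fin N → MvPolynomial (Fin N) R) : Type :=
  MvPolynomial (Fin N) R ⧸ Ideal.span (Set.range (Fs d H))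

/-- the class of a polynomial -/
noncomputable abbrev qmk (d : ℕ) (H : Fin N → MvPolynomial (Fin N) R) :
    MvPolynomial (Fin N) R →ₐ[R] QA d H := Ideal.Quotient.mkₐ R _

/-- truncated residue functional -/
noncomputable def rho (d : ℕ) (H : Fin N → MvPolynomial (Fin N) R) (K : ℕ)
    (h : MvPolynomial (Fin N) R) : R :=
  ∑ k ∈ Fintype.piFinset (fun _ : Fin N => Finset.range (K + 1)),
    coeff (Finsupp.equivFunOnFinite.symm fun i => d * (k i + 1) - 1) (h * ∏ i, H i ^ k i)

/-- the monomials with all exponents below `d` -/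
noncomputable def mon (d : ℕ) (a : Fin N → Fin d) : MvPolynomial (Fin N) R :=
  ∏ i, X i ^ (a i : ℕ)

end Vale.Agent.P337

end

section

/-!
P337, algebra side: the monomials span the quotient algebra.
-/

namespace Vale.Agent.P337

open MvPolynomial

variable {N : ℕ} {R : Type} [CommRing R]

/-- abstract version: a quotient of the polynomial ring in which `X_i ^ d = H_i` -/
theorem span_aux {A : Type} [CommRing A] [Algebra R A] (π : MvPolynomial (Fin N) R →ₐ[R] A)
    {d : ℕ} {H : Fin N → MvPolynomial (Fin N) R} (hH : ∀ i, (H i).totalDegree < d)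
    (hπ : ∀ i, π (X i ^ d) = π (H i)) (n : ℕ) : ∀ m : Fin N →₀ ℕ, m.degree = n →
    π (monomial m 1) ∈ Submodule.span R (Set.range fun a : Fin N → Fin d => π (mon d a)) := by
  induction n using Nat.strong_induction_on with
  | _ n ih =>
    intro m hm
    by_cases hlt : ∀ i, m i < d
    · apply Submodule.subset_span
      refine ⟨fun i => ⟨m i, hlt i⟩, ?_⟩
      have h1 : mon d (fun i => (⟨m i, hlt i⟩ : Fin d)) = (monomial m 1 : MvPolynomial (Fin N) R) := by
        rw [mon, monomial_eq, map_one, one_mul, Finsupp.prod_fintype _ _ (fun _ => pow_zero _)]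
      show π (mon d _) = _
      rw [h1]
    · push Not at hlt
      obtain ⟨i, hi⟩ := hlt
      have hle : Finsupp.single i d ≤ m := by
        rw [Finsupp.single_le_iff]
        exact hi
      obtain ⟨m', rfl⟩ : ∃ m', m = m' + Finsupp.single i d := ⟨m - Finsupp.single i d, by
        rw [tsub_add_cancel_of_le hle]⟩
      have hm' : m'.degree + d = n := by
        rw [map_add, Finsupp.degree_single] at hm
        exact hm
      have h1 : (monomial (m' + Finsupp.single i d) (1 : R)) = monomial m' 1 * X i ^ d := by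
        rw [X_pow_eq_monomial, monomial_mul, mul_one]
      have h2 : π (monomial (m' + Finsupp.single i d) 1) =
          ∑ j ∈ (H i).support, coeff j (H i) • π (monomial (m' + j) 1) := by
        rw [h1, map_mul, hπ, ← map_mul]
        conv_lhs => rw [(H i).as_sum]
        rw [Finset.mul_sum, map_sum]
        refine Finset.sum_congr rfl fun j _ => ?_
        rw [monomial_mul, one_mul, ← map_smul, smul_monomial, smul_eq_mul, mul_one]
      rw [h2]
      refine Submodule.sum_mem _ fun j hj => Submodule.smul_mem _ _ ?_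
      have h3 : j.degree ≤ (H i).totalDegree := le_totalDegree hj
      have h4 := hH i
      exact ih (m' + j).degree (by rw [map_add]; omega) (m' + j) rfl

theorem mon_span {d : ℕ} (hd : 1 ≤ d) {H : Fin N → MvPolynomial (Fin N) R}
    (hH : ∀ i, (H i).totalDegree < d) :
    ⊤ ≤ Submodule.span R (Set.range fun a : Fin N → Fin d => qmk d H (mon d a)) := by
  intro v _
  obtain ⟨g, rfl⟩ := Ideal.Quotient.mkₐ_surjective R _ v
  have hπ : ∀ i, qmk d H (X i ^ d) = qmk d H (H i) := by
    intro i
    have : Fs d H i ∈ Ideal.span (Set.range (Fs d H)) := Ideal.subset_span ⟨i, rfl⟩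
    have h1 : qmk d H (Fs d H i) = 0 := Ideal.Quotient.eq_zero_iff_mem.2 this
    rw [Fs, map_sub, sub_eq_zero] at h1
    exact h1
  rw [g.as_sum, map_sum]
  refine Submodule.sum_mem _ fun m _ => ?_
  have h2 : (monomial m (coeff m g)) = coeff m g • (monomial m 1 : MvPolynomial (Fin N) R) := by
    rw [smul_monomial, smul_eq_mul, mul_one]
  rw [h2, map_smul]
  exact Submodule.smul_mem _ _ (span_aux (qmk d H) hH hπ _ m rfl)

end Vale.Agent.P337

end

section

/-!
P337, algebra side: the residue functional.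
-/

namespace Vale.Agent.P337

open MvPolynomial

variable {N : ℕ} {R : Type} [CommRing R]

/-- one term of the residue functional -/
noncomputable def rterm (d : ℕ) (H : Fin N → MvPolynomial (Fin N) R)
    (h : MvPolynomial (Fin N) R) (k : Fin N → ℕ) : R :=
  coeff (Finsupp.equivFunOnFinite.symm fun i => d * (k i + 1) - 1) (h * ∏ i, H i ^ k i)

theorem rho_eq_rterm (d : ℕ) (H : Fin N → MvPolynomial (Fin N) R) (K : ℕ)
    (h : MvPolynomial (Fin N) R) :
    rho d H K h = ∑ k ∈ Fintype.piFinset (fun _ : Fin N => Finset.range (K + 1)), rterm d H h k :=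
  rfl

theorem sum_exps {d : ℕ} (hd : 1 ≤ d) (k : Fin N → ℕ) :
    ∑ i, (d * (k i + 1) - 1) = d * ∑ i, k i + N * (d - 1) := by
  have h1 : ∀ i, d * (k i + 1) - 1 = d * k i + (d - 1) := by
    intro i
    rw [mul_add, mul_one]
    omega
  simp only [h1, Finset.sum_add_distrib, Finset.sum_const, Finset.card_univ, Fintype.card_fin,
    smul_eq_mul, Finset.mul_sum]

theorem rterm_zero {d : ℕ} (hd : 1 ≤ d) {H : Fin N → MvPolynomial (Fin N) R}
    (hH : ∀ i, (H i).totalDegree < d) {h : MvPolynomial (Fin N) R} {k : Fin N → ℕ}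
    (hk : h.totalDegree < ∑ i, k i + N * (d - 1)) : rterm d H h k = 0 := by
  unfold rterm
  apply coeff_eq_zero_of_totalDegree_lt
  have h1 : ∑ i ∈ (Finsupp.equivFunOnFinite.symm fun i => d * (k i + 1) - 1 : Fin N →₀ ℕ).support,
      (Finsupp.equivFunOnFinite.symm fun i => d * (k i + 1) - 1 : Fin N →₀ ℕ) i =
      ∑ i, (d * (k i + 1) - 1) := by
    rw [Finset.sum_subset (Finset.subset_univ _)]
    · rfl
    · intro i _ hi
      exact Finsupp.notMem_support_iff.1 hi
  rw [h1, sum_exps hd]
  have h2 : (∏ i, H i ^ k i).totalDegree ≤ (d - 1) * ∑ i, k i := by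
    refine (totalDegree_finsetProd _ _).trans ?_
    rw [Finset.mul_sum]
    refine Finset.sum_le_sum fun i _ => (totalDegree_pow _ _).trans ?_
    rw [mul_comm]
    exact Nat.mul_le_mul_right _ (Nat.le_sub_one_of_lt (hH i))
  have h3 := totalDegree_mul h (∏ i, H i ^ k i)
  have h4 : d * ∑ i, k i = (d - 1) * ∑ i, k i + ∑ i, k i := by
    obtain ⟨e, rfl⟩ : ∃ e, d = e + 1 := ⟨d - 1, by omega⟩
    simp only [Nat.add_sub_cancel]
    ring
  rw [h4]
  omega

/-- the truncation of the residue functional does not matter beyond the total degree -/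
theorem rho_stable {d : ℕ} (hd : 1 ≤ d) {H : Fin N → MvPolynomial (Fin N) R}
    (hH : ∀ i, (H i).totalDegree < d) {K K' : ℕ} (hK : K ≤ K') {h : MvPolynomial (Fin N) R}
    (hh : h.totalDegree ≤ K) : rho d H K' h = rho d H K h := by
  rw [rho_eq_rterm, rho_eq_rterm]
  symm
  refine Finset.sum_subset (Fintype.piFinset_subset _ _ fun _ => Finset.range_subset_range.2
    (Nat.succ_le_succ hK)) ?_
  intro k _ hk
  apply rterm_zero hd hH
  rw [Fintype.mem_piFinset] at hk
  push Not at hk
  obtain ⟨i, hi⟩ := hk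
  rw [Finset.mem_range] at hi
  have h1 : k i ≤ ∑ i, k i := Finset.single_le_sum (fun _ _ => Nat.zero_le _) (Finset.mem_univ i)
  omega

theorem rho_add (d : ℕ) (H : Fin N → MvPolynomial (Fin N) R) (K : ℕ)
    (h h' : MvPolynomial (Fin N) R) : rho d H K (h + h') = rho d H K h + rho d H K h' := by
  simp only [rho, add_mul, coeff_add, Finset.sum_add_distrib]

theorem rho_C_mul (d : ℕ) (H : Fin N → MvPolynomial (Fin N) R) (K : ℕ) (c : R)
    (h : MvPolynomial (Fin N) R) : rho d H K (C c * h) = c * rho d H K h := by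
  simp only [rho, mul_assoc, coeff_C_mul, Finset.mul_sum]

/-- the residue functional as a linear map -/
noncomputable def rhoL (d : ℕ) (H : Fin N → MvPolynomial (Fin N) R) :
    MvPolynomial (Fin N) R →ₗ[R] R :=
  (basisMonomials (Fin N) R).constr R fun m => rho d H m.degree (monomial m 1)

theorem rhoL_monomial_one (d : ℕ) (H : Fin N → MvPolynomial (Fin N) R) (m : Fin N →₀ ℕ) :
    rhoL d H (monomial m 1) = rho d H m.degree (monomial m 1) := by
  have h := (basisMonomials (Fin N) R).constr_basis R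
    (fun m => rho d H m.degree (monomial m (1 : R))) m
  rw [coe_basisMonomials] at h
  exact h

theorem rho_sum (d : ℕ) (H : Fin N → MvPolynomial (Fin N) R) (K : ℕ) {ι : Type}
    (s : Finset ι) (f : ι → MvPolynomial (Fin N) R) :
    rho d H K (∑ i ∈ s, f i) = ∑ i ∈ s, rho d H K (f i) := by
  classical
  induction s using Finset.induction_on with
  | empty => simp [rho]
  | insert a s ha ih => rw [Finset.sum_insert ha, Finset.sum_insert ha, rho_add, ih]

theorem rhoL_apply {d : ℕ} (hd : 1 ≤ d) {H : Fin N → MvPolynomial (Fin N) R}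
    (hH : ∀ i, (H i).totalDegree < d) {K : ℕ} {h : MvPolynomial (Fin N) R}
    (hh : h.totalDegree ≤ K) : rhoL d H h = rho d H K h := by
  conv_lhs => rw [h.as_sum]
  conv_rhs => rw [h.as_sum]
  rw [map_sum, rho_sum]
  refine Finset.sum_congr rfl fun m hm => ?_
  have h1 : (monomial m (coeff m h)) = C (coeff m h) * (monomial m 1 : MvPolynomial (Fin N) R) := by
    rw [C_mul_monomial, mul_one]
  have h2 : m.degree ≤ K := le_trans (le_totalDegree hm) hh
  rw [h1, rho_C_mul, ← smul_eq_C_mul, map_smul, smul_eq_mul, rhoL_monomial_one,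
    rho_stable hd hH h2]
  refine (totalDegree_monomial_le _ _).trans ?_
  exact le_rfl

theorem rho_map {R' : Type} [CommRing R'] (φ : R →+* R') (d : ℕ)
    (H : Fin N → MvPolynomial (Fin N) R) (K : ℕ) (h : MvPolynomial (Fin N) R) :
    rho d (fun i => map φ (H i)) K (map φ h) = φ (rho d H K h) := by
  rw [rho, rho, map_sum]
  refine Finset.sum_congr rfl fun k _ => ?_
  rw [← coeff_map]
  simp only [map_mul, map_prod, map_pow]

/-- base change -/
theorem rhoL_map {R' : Type} [CommRing R'] (φ : R →+* R') {d : ℕ} (hd : 1 ≤ d)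
    {H : Fin N → MvPolynomial (Fin N) R} (hH : ∀ i, (H i).totalDegree < d)
    (h : MvPolynomial (Fin N) R) :
    rhoL d (fun i => map φ (H i)) (map φ h) = φ (rhoL d H h) := by
  have hle : ∀ g : MvPolynomial (Fin N) R, (map φ g).totalDegree ≤ g.totalDegree := by
    intro g
    rw [totalDegree, totalDegree]
    exact Finset.sup_mono (support_map_subset φ g)
  rw [rhoL_apply hd (fun i => lt_of_le_of_lt (hle (H i)) (hH i)) (hle h),
    rhoL_apply hd hH (le_refl h.totalDegree), rho_map]

end Vale.Agent.P337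

end

section

/-!
P337, algebra side: the residue functional kills the ideal.
-/

namespace Vale.Agent.P337

open MvPolynomial

variable {N : ℕ} {R : Type} [CommRing R]

theorem rterm_shift {d : ℕ} (hd : 1 ≤ d) (H : Fin N → MvPolynomial (Fin N) R)
    (h : MvPolynomial (Fin N) R) (i : Fin N) (k : Fin N → ℕ) :
    rterm d H (h * X i ^ d) (k + Pi.single i 1) = rterm d H (h * H i) k := by
  unfold rterm
  have h1 : (Finsupp.equivFunOnFinite.symm fun j => d * ((k + Pi.single i 1 : Fin N → ℕ) j + 1) - 1 :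
      Fin N →₀ ℕ) = (Finsupp.equivFunOnFinite.symm fun j => d * (k j + 1) - 1) +
        Finsupp.single i d := by
    ext j
    by_cases hj : i = j
    · subst hj
      simp only [Pi.add_apply, Pi.single_eq_same, Finsupp.equivFunOnFinite_symm_apply_apply,
        Finsupp.add_apply, Finsupp.single_eq_same]
      have : 1 ≤ d * (k i + 1) := Nat.mul_pos hd (Nat.succ_pos _)
      rw [mul_add d (k i + 1) 1]
      omega
    · simp only [Pi.add_apply, Finsupp.equivFunOnFinite_symm_apply_apply, Finsupp.add_apply]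
      rw [Pi.single_eq_of_ne (Ne.symm hj), Finsupp.single_eq_of_ne (Ne.symm hj)]
      rfl
  have h2 : h * X i ^ d * ∏ j, H j ^ (k + Pi.single i 1 : Fin N → ℕ) j =
      (h * H i * ∏ j, H j ^ k j) * monomial (Finsupp.single i d) 1 := by
    have h3 : ∏ j, H j ^ (k + Pi.single i 1 : Fin N → ℕ) j = H i * ∏ j, H j ^ k j := by
      simp only [Pi.add_apply, pow_add, Finset.prod_mul_distrib]
      have h4 : ∏ j, H j ^ (Pi.single i 1 : Fin N → ℕ) j = H i := by
        rw [Finset.prod_eq_single i]
        · simp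
        · intro j _ hj
          rw [Pi.single_eq_of_ne hj, pow_zero]
        · intro hi
          exact absurd (Finset.mem_univ i) hi
      rw [h4, mul_comm]
    rw [h3, X_pow_eq_monomial]
    ring
  rw [h1, h2, coeff_mul_monomial, mul_one]

theorem rterm_first {d : ℕ} (hd : 1 ≤ d) (H : Fin N → MvPolynomial (Fin N) R)
    (h : MvPolynomial (Fin N) R) (i : Fin N) (k : Fin N → ℕ) (hk : k i = 0) :
    rterm d H (h * X i ^ d) k = 0 := by
  unfold rterm
  have h2 : h * X i ^ d * ∏ j, H j ^ k j =
      (h * ∏ j, H j ^ k j) * monomial (Finsupp.single i d) 1 := by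
    rw [X_pow_eq_monomial]
    ring
  rw [h2, coeff_mul_monomial', if_neg]
  intro hle
  have h3 := hle i
  simp only [Finsupp.single_eq_same, Finsupp.equivFunOnFinite_symm_apply_apply, hk] at h3
  omega

/-- the residue functional kills the ideal -/
theorem rhoL_mul_Fs {d : ℕ} (hd : 1 ≤ d) {H : Fin N → MvPolynomial (Fin N) R}
    (hH : ∀ i, (H i).totalDegree < d) (h : MvPolynomial (Fin N) R) (i : Fin N) :
    rhoL d H (h * Fs d H i) = 0 := by
  rw [Fs, mul_sub, map_sub, sub_eq_zero]
  set K := h.totalDegree + d with hK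
  have h1 : (h * X i ^ d).totalDegree ≤ K + 1 := by
    refine (totalDegree_mul _ _).trans ?_
    have : (X i ^ d : MvPolynomial (Fin N) R).totalDegree ≤ d := by
      rw [X_pow_eq_monomial]
      refine (totalDegree_monomial_le _ _).trans ?_
      simp
    omega
  have h2 : (h * H i).totalDegree ≤ K := by
    refine (totalDegree_mul _ _).trans ?_
    have := hH i
    omega
  rw [rhoL_apply hd hH h1, rhoL_apply hd hH (h2.trans (Nat.le_succ K)), rho_eq_rterm, rho_eq_rterm]
  symm
  refine Finset.sum_bij_ne_zero (fun k _ _ => k + Pi.single i 1) ?_ ?_ ?_ ?_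
  · intro k hk hne
    rw [Fintype.mem_piFinset] at hk ⊢
    have h3 : ¬ (h * H i).totalDegree < ∑ i, k i + N * (d - 1) := fun h4 =>
      hne (rterm_zero hd hH h4)
    intro j
    have h5 : k j ≤ ∑ i, k i := Finset.single_le_sum (fun _ _ => Nat.zero_le _) (Finset.mem_univ j)
    rw [Finset.mem_range, Pi.add_apply]
    have h6 : (Pi.single i 1 : Fin N → ℕ) j ≤ 1 := by
      by_cases hj : j = i
      · subst hj
        simp
      · rw [Pi.single_eq_of_ne hj]
        exact Nat.zero_le _
    omega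
  · intro k _ _ k' _ _ hkk
    exact add_right_cancel hkk
  · intro k hk hne
    have h3 : k i ≠ 0 := fun h4 => hne (rterm_first hd H h i k h4)
    refine ⟨k - Pi.single i 1, ?_, ?_, ?_⟩
    · rw [Fintype.mem_piFinset] at hk ⊢
      intro j
      have := Finset.mem_range.1 (hk j)
      rw [Finset.mem_range, Pi.sub_apply]
      omega
    · have h4 : k - Pi.single i 1 + Pi.single i 1 = k := by
        funext j
        by_cases hj : j = i
        · subst hj
          simp only [Pi.add_apply, Pi.sub_apply, Pi.single_eq_same]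
          omega
        · simp [Pi.single_eq_of_ne hj]
      rw [← rterm_shift hd H h i, h4]
      exact hne
    · funext j
      by_cases hj : j = i
      · subst hj
        simp only [Pi.add_apply, Pi.sub_apply, Pi.single_eq_same]
        omega
      · simp [Pi.single_eq_of_ne hj]
  · intro k _ _
    exact (rterm_shift hd H h i k).symm

theorem rhoL_ideal {d : ℕ} (hd : 1 ≤ d) {H : Fin N → MvPolynomial (Fin N) R}
    (hH : ∀ i, (H i).totalDegree < d) {h : MvPolynomial (Fin N) R}
    (hh : h ∈ Ideal.span (Set.range (Fs d H))) : rhoL d H h = 0 := by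
  have key : ∀ x ∈ Ideal.span (Set.range (Fs d H)), ∀ c, rhoL d H (c * x) = 0 := by
    intro x hx
    induction hx using Submodule.span_induction with
    | mem x hx =>
      obtain ⟨i, rfl⟩ := hx
      intro c
      exact rhoL_mul_Fs hd hH c i
    | zero =>
      intro c
      rw [mul_zero, map_zero]
    | add x y _ _ hx hy =>
      intro c
      rw [mul_add, map_add, hx, hy, add_zero]
    | smul a x _ hx =>
      intro c
      rw [smul_eq_mul, ← mul_assoc]
      exact hx _
  have h1 := key h hh 1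
  rwa [one_mul] at h1

theorem rhoL_low {d : ℕ} (hd : 1 ≤ d) {H : Fin N → MvPolynomial (Fin N) R}
    (hH : ∀ i, (H i).totalDegree < d) {h : MvPolynomial (Fin N) R}
    (hh : h.totalDegree < N * (d - 1)) : rhoL d H h = 0 := by
  rw [rhoL_apply hd hH le_rfl, rho_eq_rterm]
  refine Finset.sum_eq_zero fun k _ => rterm_zero hd hH ?_
  omega

/-- on monomials of degree `N (d-1)` only the socle monomial has a nonzero value -/
theorem rhoL_monomial {d : ℕ} (hd : 1 ≤ d) {H : Fin N → MvPolynomial (Fin N) R}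
    (hH : ∀ i, (H i).totalDegree < d) (m : Fin N →₀ ℕ) (hm : m.degree = N * (d - 1)) :
    rhoL d H (monomial m 1) = if (∀ i, m i = d - 1) then 1 else 0 := by
  have h1 : (monomial m (1 : R)).totalDegree ≤ N * (d - 1) := by
    refine (totalDegree_monomial_le _ _).trans ?_
    rw [← hm]
    exact le_rfl
  rw [rhoL_apply hd hH h1, rho_eq_rterm, Finset.sum_eq_single (0 : Fin N → ℕ)]
  · unfold rterm
    simp only [Pi.zero_apply, pow_zero, Finset.prod_const_one, mul_one, zero_add, coeff_monomial]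
    congr 1
    rw [eq_iff_iff]
    constructor
    · intro h2 i
      rw [h2]
      rfl
    · intro h2
      ext i
      exact h2 i
  · intro k _ hk
    refine rterm_zero hd hH (lt_of_le_of_lt h1 ?_)
    have : 0 < ∑ i, k i := by
      rw [Nat.pos_iff_ne_zero]
      intro h2
      apply hk
      funext i
      exact (Finset.sum_eq_zero_iff.1 h2) i (Finset.mem_univ i)
    omega
  · intro h2
    exfalso
    apply h2
    rw [Fintype.mem_piFinset]
    intro i
    simp

end Vale.Agent.P337

end

section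

/-!
P337, algebra side: the monomials are linearly independent.
-/

namespace Vale.Agent.P337

open MvPolynomial

variable {N : ℕ} {R : Type} [CommRing R]

theorem prod_X_eq_monomial (m : Fin N → ℕ) :
    ∏ i, (X i : MvPolynomial (Fin N) R) ^ m i = monomial (Finsupp.equivFunOnFinite.symm m) 1 := by
  rw [monomial_eq, map_one, one_mul, Finsupp.prod_fintype _ _ (fun _ => pow_zero _)]
  rfl

theorem mon_linearIndependent {d : ℕ} (hd : 1 ≤ d) {H : Fin N → MvPolynomial (Fin N) R}
    (hH : ∀ i, (H i).totalDegree < d) :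
    LinearIndependent R fun a : Fin N → Fin d => qmk d H (mon d a) := by
  classical
  rw [Fintype.linearIndependent_iff]
  intro g hg
  by_contra hne
  push Not at hne
  set S := Finset.univ.filter fun a : Fin N → Fin d => g a ≠ 0 with hS
  have hSne : S.Nonempty := by
    obtain ⟨a, ha⟩ := hne
    exact ⟨a, by simp [hS, ha]⟩
  obtain ⟨a, haS, hmax⟩ := S.exists_max_image (fun a => ∑ i, (a i : ℕ)) hSne
  have ha : g a ≠ 0 := by simpa [hS] using haS
  apply ha
  -- the complementary monomial
  set s : Fin N → ℕ := fun i => d - 1 - (a i : ℕ) with hs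
  have hsum : ∑ i, (a i : ℕ) + ∑ i, s i = N * (d - 1) := by
    rw [← Finset.sum_add_distrib]
    have h1 : ∀ i ∈ (Finset.univ : Finset (Fin N)), (a i : ℕ) + s i = d - 1 := by
      intro i _
      have := (a i).isLt
      simp only [hs]
      omega
    rw [Finset.sum_congr rfl h1, Finset.sum_const, Finset.card_univ, Fintype.card_fin, smul_eq_mul]
  have hmem : (∑ b, C (g b) * mon d b : MvPolynomial (Fin N) R) ∈
      Ideal.span (Set.range (Fs d H)) := by
    rw [← Ideal.Quotient.eq_zero_iff_mem]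
    rw [← hg, map_sum]
    refine Finset.sum_congr rfl fun b _ => ?_
    rw [← smul_eq_C_mul]
    exact map_smul (qmk d H) (g b) (mon d b)
  have h0 := rhoL_ideal hd hH (Ideal.mul_mem_right
    (∏ i, (X i : MvPolynomial (Fin N) R) ^ s i) _ hmem)
  rw [Finset.sum_mul, map_sum] at h0
  have hterm : ∀ b, rhoL d H (C (g b) * mon d b * ∏ i, (X i : MvPolynomial (Fin N) R) ^ s i) =
      if b = a then g a else 0 := by
    intro b
    have h1 : C (g b) * mon d b * ∏ i, (X i : MvPolynomial (Fin N) R) ^ s i =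
        g b • monomial (Finsupp.equivFunOnFinite.symm fun i => (b i : ℕ) + s i) 1 := by
      rw [smul_eq_C_mul, mul_assoc, mon, ← Finset.prod_mul_distrib, ← prod_X_eq_monomial]
      simp only [pow_add]
    rw [h1, map_smul, smul_eq_mul]
    by_cases hgb : g b = 0
    · rw [hgb, zero_mul]
      by_cases hba : b = a
      · rw [hba] at hgb
        exact absurd hgb ha
      · rw [if_neg hba]
    · have hbS : b ∈ S := by simp [hS, hgb]
      have hle := hmax b hbS
      have hdeg : (Finsupp.equivFunOnFinite.symm fun i => (b i : ℕ) + s i : Fin N →₀ ℕ).degree =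
          ∑ i, (b i : ℕ) + ∑ i, s i := by
        rw [Finsupp.degree_eq_sum, ← Finset.sum_add_distrib]
        rfl
      rcases lt_or_eq_of_le hle with hlt | heq
      · rw [rhoL_low hd hH, mul_zero, if_neg]
        · rintro rfl
          exact lt_irrefl _ hlt
        · refine lt_of_le_of_lt (totalDegree_monomial_le _ _) ?_
          have h2 : (Finsupp.equivFunOnFinite.symm fun i => (b i : ℕ) + s i : Fin N →₀ ℕ).sum
              (fun _ => id) = ∑ i, (b i : ℕ) + ∑ i, s i := by
            rw [← hdeg]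
            rfl
          rw [h2]
          omega
      · rw [rhoL_monomial hd hH _ (by rw [hdeg]; omega)]
        by_cases hba : b = a
        · subst hba
          rw [if_pos, if_pos rfl, mul_one]
          intro i
          have := (b i).isLt
          simp only [hs, Finsupp.equivFunOnFinite_symm_apply_apply]
          omega
        · rw [if_neg hba, if_neg, mul_zero]
          intro h3
          apply hba
          funext i
          have h4 := h3 i
          have h5 := (b i).isLt
          have h6 := (a i).isLt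
          simp only [hs, Finsupp.equivFunOnFinite_symm_apply_apply] at h4
          exact Fin.ext (by omega)
  simp only [hterm] at h0
  simpa using h0

end Vale.Agent.P337

end

section

/-!
P337, algebra side: the monomial basis of the quotient algebra.
-/

namespace Vale.Agent.P337

open MvPolynomial

variable {N : ℕ} {R : Type} [CommRing R]

/-- the monomial basis -/
noncomputable def bas {d : ℕ} (hd : 1 ≤ d) {H : Fin N → MvPolynomial (Fin N) R}
    (hH : ∀ i, (H i).totalDegree < d) : Module.Basis (Fin N → Fin d) R (QA d H) :=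
  Module.Basis.mk (mon_linearIndependent hd hH) (mon_span hd hH)

theorem bas_apply {d : ℕ} (hd : 1 ≤ d) {H : Fin N → MvPolynomial (Fin N) R}
    (hH : ∀ i, (H i).totalDegree < d) (a : Fin N → Fin d) :
    bas hd hH a = qmk d H (mon d a) := by
  rw [bas, Module.Basis.mk_apply]

/-- matrix of the multiplication by `g` in the monomial basis -/
noncomputable def mmat {d : ℕ} (hd : 1 ≤ d) {H : Fin N → MvPolynomial (Fin N) R}
    (hH : ∀ i, (H i).totalDegree < d) (g : MvPolynomial (Fin N) R) :
    Matrix (Fin N → Fin d) (Fin N → Fin d) R :=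
  Algebra.leftMulMatrix (bas hd hH) (qmk d H g)

theorem mmat_add {d : ℕ} (hd : 1 ≤ d) {H : Fin N → MvPolynomial (Fin N) R}
    (hH : ∀ i, (H i).totalDegree < d) (g h : MvPolynomial (Fin N) R) :
    mmat hd hH (g + h) = mmat hd hH g + mmat hd hH h := by
  simp [mmat]

theorem mmat_mul {d : ℕ} (hd : 1 ≤ d) {H : Fin N → MvPolynomial (Fin N) R}
    (hH : ∀ i, (H i).totalDegree < d) (g h : MvPolynomial (Fin N) R) :
    mmat hd hH (g * h) = mmat hd hH g * mmat hd hH h := by
  simp [mmat]

end Vale.Agent.P337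

end

section

/-!
P337, algebra side: multiplication matrices.
-/

namespace Vale.Agent.P337

open MvPolynomial

variable {N : ℕ} {R : Type} [CommRing R]

theorem mmat_C {d : ℕ} (hd : 1 ≤ d) {H : Fin N → MvPolynomial (Fin N) R}
    (hH : ∀ i, (H i).totalDegree < d) (c : R) :
    mmat hd hH (C c) = Matrix.scalar _ c := by
  have h1 : (C c : MvPolynomial (Fin N) R) = algebraMap R _ c := rfl
  rw [mmat, h1, AlgHom.commutes, AlgHom.commutes]
  rfl

/-- polynomials in `g` -/
theorem mmat_aeval {d : ℕ} (hd : 1 ≤ d) {H : Fin N → MvPolynomial (Fin N) R}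
    (hH : ∀ i, (H i).totalDegree < d) (g : MvPolynomial (Fin N) R) (P : Polynomial R) :
    mmat hd hH (Polynomial.aeval g P) = Polynomial.aeval (mmat hd hH g) P := by
  have h1 : ∀ x, mmat hd hH x = ((Algebra.leftMulMatrix (bas hd hH)).comp (qmk d H)) x :=
    fun _ => rfl
  rw [h1, h1, ← Polynomial.aeval_algHom_apply]

/-- abstract version of base change -/
theorem leftMulMatrix_map_aux {R' A A' ι : Type} [CommRing R'] [CommRing A] [CommRing A']
    [Algebra R A] [Algebra R' A'] [Fintype ι] [DecidableEq ι] (φ : R →+* R')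
    (b : Module.Basis ι R A) (b' : Module.Basis ι R' A') (Φ : A →+* A')
    (hΦ : ∀ r : R, Φ (algebraMap R A r) = algebraMap R' A' (φ r)) (hb : ∀ i, Φ (b i) = b' i)
    (x : A) : Algebra.leftMulMatrix b' (Φ x) = (Algebra.leftMulMatrix b x).map φ := by
  ext i j
  rw [Matrix.map_apply, Algebra.leftMulMatrix_eq_repr_mul, Algebra.leftMulMatrix_eq_repr_mul]
  have h1 : x * b j = ∑ k, (b.repr (x * b j) k) • b k := (b.sum_repr _).symm
  have h2 : Φ x * b' j = ∑ k, φ (b.repr (x * b j) k) • b' k := by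
    rw [← hb, ← map_mul]
    conv_lhs => rw [h1]
    rw [map_sum]
    refine Finset.sum_congr rfl fun k _ => ?_
    rw [Algebra.smul_def, map_mul, hΦ, hb, ← Algebra.smul_def]
  rw [h2, map_sum, Finsupp.finsetSum_apply, Finset.sum_eq_single i]
  · rw [map_smul, Module.Basis.repr_self, Finsupp.smul_apply, Finsupp.single_eq_same, smul_eq_mul,
      mul_one]
  · intro k _ hk
    rw [map_smul, Module.Basis.repr_self, Finsupp.smul_apply,
      Finsupp.single_eq_of_ne hk.symm, smul_zero]
  · intro h
    exact absurd (Finset.mem_univ i) h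

/-- base change -/
theorem mmat_map {R' : Type} [CommRing R'] (φ : R →+* R') {d : ℕ} (hd : 1 ≤ d)
    {H : Fin N → MvPolynomial (Fin N) R} (hH : ∀ i, (H i).totalDegree < d)
    (hH' : ∀ i, (map φ (H i)).totalDegree < d) (g : MvPolynomial (Fin N) R) :
    mmat hd hH' (map φ g) = (mmat hd hH g).map φ := by
  have hle : Ideal.span (Set.range (Fs d H)) ≤
      (Ideal.span (Set.range (Fs d fun i => map φ (H i)))).comap (map φ : MvPolynomial (Fin N) R →+* _) := by
    rw [Ideal.span_le]
    rintro _ ⟨i, rfl⟩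
    have h1 : map φ (Fs d H i) = Fs d (fun i => map φ (H i)) i := by
      simp [Fs]
    show map φ (Fs d H i) ∈ Ideal.span (Set.range (Fs d fun i => map φ (H i)))
    rw [h1]
    exact Ideal.subset_span ⟨i, rfl⟩
  let Φ : QA d H →+* QA d (fun i => map φ (H i)) := Ideal.quotientMap _ (map φ) hle
  have hΦ : ∀ x, Φ (qmk d H x) = qmk d (fun i => map φ (H i)) (map φ x) := fun x =>
    Ideal.quotientMap_mk
  have h2 := leftMulMatrix_map_aux φ (bas hd hH) (bas hd hH') Φ
    (by
      intro r
      have h3 : algebraMap R (QA d H) r = qmk d H (C r) := rfl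
      rw [h3, hΦ, map_C]
      rfl)
    (by
      intro a
      rw [bas_apply, bas_apply, hΦ]
      congr 1
      simp [mon])
    (qmk d H g)
  rw [hΦ] at h2
  exact h2

/-- the evaluation at a common zero -/
theorem exists_evalHom {d : ℕ} {H : Fin N → MvPolynomial (Fin N) R} (ξ : Fin N → R)
    (hξ : ∀ i, eval ξ (Fs d H i) = 0) :
    ∃ e : QA d H →ₐ[R] R, ∀ x, e (qmk d H x) = eval ξ x := by
  have h1 : ∀ a ∈ Ideal.span (Set.range (Fs d H)), (aeval ξ : MvPolynomial (Fin N) R →ₐ[R] R) a = 0 := by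
    intro a ha
    have h2 : Ideal.span (Set.range (Fs d H)) ≤
        RingHom.ker (aeval ξ : MvPolynomial (Fin N) R →ₐ[R] R) := by
      rw [Ideal.span_le]
      rintro _ ⟨i, rfl⟩
      show (aeval ξ : MvPolynomial (Fin N) R →ₐ[R] R) (Fs d H i) = 0
      exact hξ i
    exact h2 ha
  refine ⟨Ideal.Quotient.liftₐ _ (aeval ξ) h1, fun x => ?_⟩
  rfl

/-- abstract version: an algebra homomorphism to the base ring gives an eigenvalue -/
theorem eigen_aux {A ι : Type} [CommRing A] [Algebra R A] [IsDomain R] [Fintype ι] [DecidableEq ι]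
    (b : Module.Basis ι R A) (e : A →ₐ[R] R) (x : A) :
    (Algebra.leftMulMatrix b x).charpoly.eval (e x) = 0 := by
  rw [Matrix.eval_charpoly, ← Matrix.exists_vecMul_eq_zero_iff]
  refine ⟨fun i => e (b i), ?_, ?_⟩
  · intro h0
    have h1 : e 1 = 0 := by
      rw [← b.sum_repr 1, map_sum]
      refine Finset.sum_eq_zero fun i _ => ?_
      rw [map_smul]
      have := congrFun h0 i
      simp only [Pi.zero_apply] at this
      rw [this, smul_zero]
    rw [map_one] at h1
    exact one_ne_zero h1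
  · have h2 : Matrix.vecMul (fun i => e (b i)) (Algebra.leftMulMatrix b x) =
        fun j => e x * e (b j) := by
      funext j
      rw [← map_mul]
      conv_rhs => rw [← b.sum_repr (x * b j), map_sum]
      simp only [Matrix.vecMul, dotProduct, map_smul, smul_eq_mul,
        Algebra.leftMulMatrix_eq_repr_mul]
      refine Finset.sum_congr rfl fun i _ => mul_comm _ _
    rw [Matrix.vecMul_sub, h2]
    funext j
    simp [Matrix.scalar_apply]

/-- a common zero gives an eigenvalue -/
theorem mmat_eigen {d : ℕ} (hd : 1 ≤ d) {H : Fin N → MvPolynomial (Fin N) R}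
    (hH : ∀ i, (H i).totalDegree < d) [IsDomain R] (g : MvPolynomial (Fin N) R) (ξ : Fin N → R)
    (hξ : ∀ i, eval ξ (Fs d H i) = 0) : (mmat hd hH g).charpoly.eval (eval ξ g) = 0 := by
  obtain ⟨e, he⟩ := exists_evalHom ξ hξ
  rw [← he g]
  exact eigen_aux (bas hd hH) e (qmk d H g)

end Vale.Agent.P337

end

section

/-!
P337, algebra side: norms on rings and polynomial rings.
-/

namespace Vale.Agent.P337

open MvPolynomial

/-- submultiplicative norms on rings -/
structure IsNrm {R : Type} [CommRing R] (ν : R → ℝ) : Prop where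
  nonneg : ∀ a, 0 ≤ ν a
  zero : ν 0 = 0
  one : ν 1 ≤ 1
  neg : ∀ a, ν (-a) = ν a
  add_le : ∀ a b, ν (a + b) ≤ ν a + ν b
  mul_le : ∀ a b, ν (a * b) ≤ ν a * ν b

theorem isNrm_int : IsNrm (fun a : ℤ => |(a : ℝ)|) where
  nonneg a := abs_nonneg _
  zero := by simp
  one := by simp
  neg a := by simp
  add_le a b := by
    push_cast
    exact abs_add_le _ _
  mul_le a b := by
    push_cast
    rw [abs_mul]

theorem isNrm_real : IsNrm (fun a : ℝ => |a|) where
  nonneg a := abs_nonneg _
  zero := by simp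
  one := by simp
  neg a := by simp
  add_le a b := abs_add_le _ _
  mul_le a b := by rw [abs_mul]

theorem isNrm_complex : IsNrm (fun a : ℂ => ‖a‖) where
  nonneg a := norm_nonneg _
  zero := by simp
  one := by simp
  neg a := by simp
  add_le a b := norm_add_le _ _
  mul_le a b := by rw [norm_mul]

/-! ### general facts -/

private theorem nrm_sum_le {R : Type} [CommRing R] {ν : R → ℝ} (h0 : ν 0 = 0)
    (hadd : ∀ a b, ν (a + b) ≤ ν a + ν b) {ι : Type} (s : Finset ι) (g : ι → R) :
    ν (∑ i ∈ s, g i) ≤ ∑ i ∈ s, ν (g i) := by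
  classical
  induction s using Finset.induction_on with
  | empty => simp [h0]
  | insert i s hi ih =>
    rw [Finset.sum_insert hi, Finset.sum_insert hi]
    exact (hadd _ _).trans (add_le_add le_rfl ih)

private theorem nrm_prod_le {R : Type} [CommRing R] {ν : R → ℝ} (hν : IsNrm ν) {ι : Type}
    (s : Finset ι) (g : ι → R) : ν (∏ i ∈ s, g i) ≤ ∏ i ∈ s, ν (g i) := by
  classical
  induction s using Finset.induction_on with
  | empty => simpa using hν.one
  | insert i s hi ih =>
    rw [Finset.prod_insert hi, Finset.prod_insert hi]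
    exact (hν.mul_le _ _).trans (mul_le_mul_of_nonneg_left ih (hν.nonneg _))

/-- the `ℓ^1` norm of a polynomial, with weight `u` for the variable -/
noncomputable def pnorm {R : Type} [CommRing R] (ν : R → ℝ) (u : ℝ) (G : Polynomial R) : ℝ :=
  ∑ i ∈ G.support, ν (G.coeff i) * u ^ i

private theorem pnorm_eq {R : Type} [CommRing R] {ν : R → ℝ} (h0 : ν 0 = 0) (u : ℝ)
    {G : Polynomial R} {s : Finset ℕ} (hs : G.support ⊆ s) :
    pnorm ν u G = ∑ i ∈ s, ν (G.coeff i) * u ^ i := by
  unfold pnorm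
  apply Finset.sum_subset hs
  intro i _ hi
  rw [Polynomial.notMem_support_iff.1 hi, h0, zero_mul]

private theorem pnorm_nonneg' {R : Type} [CommRing R] {ν : R → ℝ} (hν : IsNrm ν) {u : ℝ}
    (hu : 0 ≤ u) (G : Polynomial R) : 0 ≤ pnorm ν u G :=
  Finset.sum_nonneg fun i _ => mul_nonneg (hν.nonneg _) (pow_nonneg hu i)

private theorem pnorm_zero' {R : Type} [CommRing R] (ν : R → ℝ) (u : ℝ) :
    pnorm ν u (0 : Polynomial R) = 0 := by
  simp [pnorm]

private theorem pnorm_add_le' {R : Type} [CommRing R] {ν : R → ℝ} (hν : IsNrm ν) {u : ℝ}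
    (hu : 0 ≤ u) (G H : Polynomial R) : pnorm ν u (G + H) ≤ pnorm ν u G + pnorm ν u H := by
  classical
  rw [pnorm_eq hν.zero u (G := G + H) (s := G.support ∪ H.support) Polynomial.support_add,
    pnorm_eq hν.zero u (G := G) (s := G.support ∪ H.support) Finset.subset_union_left,
    pnorm_eq hν.zero u (G := H) (s := G.support ∪ H.support) Finset.subset_union_right,
    ← Finset.sum_add_distrib]
  apply Finset.sum_le_sum
  intro i _
  rw [Polynomial.coeff_add, ← add_mul]
  exact mul_le_mul_of_nonneg_right (hν.add_le _ _) (pow_nonneg hu i)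

private theorem pnorm_monomial_le' {R : Type} [CommRing R] {ν : R → ℝ} (hν : IsNrm ν) {u : ℝ}
    (n : ℕ) (c : R) : pnorm ν u (Polynomial.monomial n c) ≤ ν c * u ^ n := by
  rw [pnorm_eq hν.zero u (Polynomial.support_monomial_subset n c), Finset.sum_singleton,
    Polynomial.coeff_monomial_same]

theorem isNrm_pnorm {R : Type} [CommRing R] {ν : R → ℝ} (hν : IsNrm ν) {u : ℝ} (hu : 0 ≤ u) :
    IsNrm (pnorm ν u) where
  nonneg := pnorm_nonneg' hν hu
  zero := pnorm_zero' ν u
  one := by
    have h1 := pnorm_monomial_le' hν (u := u) 0 (1 : R)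
    rw [Polynomial.monomial_zero_one, pow_zero, mul_one] at h1
    exact h1.trans hν.one
  neg G := by
    unfold pnorm
    rw [Polynomial.support_neg]
    apply Finset.sum_congr rfl
    intro i _
    rw [Polynomial.coeff_neg, hν.neg]
  add_le := pnorm_add_le' hν hu
  mul_le G H := by
    have h1 : G * H = ∑ i ∈ G.support, ∑ j ∈ H.support,
        Polynomial.monomial (i + j) (G.coeff i * H.coeff j) := by
      conv_lhs => rw [G.as_sum_support, H.as_sum_support]
      rw [Finset.sum_mul_sum]
      apply Finset.sum_congr rfl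
      intro i _
      apply Finset.sum_congr rfl
      intro j _
      rw [Polynomial.monomial_mul_monomial]
    rw [h1]
    refine (nrm_sum_le (pnorm_zero' ν u) (pnorm_add_le' hν hu) _ _).trans ?_
    unfold pnorm
    rw [Finset.sum_mul_sum]
    apply Finset.sum_le_sum
    intro i _
    refine (nrm_sum_le (pnorm_zero' ν u) (pnorm_add_le' hν hu) _ _).trans ?_
    apply Finset.sum_le_sum
    intro j _
    refine (pnorm_monomial_le' hν _ _).trans ?_
    calc ν (G.coeff i * H.coeff j) * u ^ (i + j)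
        ≤ (ν (G.coeff i) * ν (H.coeff j)) * u ^ (i + j) :=
          mul_le_mul_of_nonneg_right (hν.mul_le _ _) (pow_nonneg hu _)
      _ = ν (G.coeff i) * u ^ i * (ν (H.coeff j) * u ^ j) := by
          rw [pow_add]
          ring

variable {N : ℕ} {R : Type} [CommRing R]

/-- weighted `ℓ^1` norm -/
noncomputable def wnorm (ν : R → ℝ) (t : ℝ) (h : MvPolynomial (Fin N) R) : ℝ :=
  ∑ m ∈ h.support, ν (coeff m h) * t ^ m.degree

private theorem wnorm_eq {ν : R → ℝ} (h0 : ν 0 = 0) (t : ℝ)
    {h : MvPolynomial (Fin N) R} {s : Finset (Fin N →₀ ℕ)} (hs : h.support ⊆ s) :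
    wnorm ν t h = ∑ m ∈ s, ν (coeff m h) * t ^ m.degree := by
  unfold wnorm
  apply Finset.sum_subset hs
  intro m _ hm
  rw [MvPolynomial.notMem_support_iff.1 hm, h0, zero_mul]

theorem wnorm_nonneg {ν : R → ℝ} (hν : IsNrm ν) {t : ℝ} (ht : 0 ≤ t)
    (h : MvPolynomial (Fin N) R) : 0 ≤ wnorm ν t h :=
  Finset.sum_nonneg fun _ _ => mul_nonneg (hν.nonneg _) (pow_nonneg ht _)

theorem wnorm_add_le {ν : R → ℝ} (hν : IsNrm ν) {t : ℝ} (ht : 0 ≤ t)
    (g h : MvPolynomial (Fin N) R) : wnorm ν t (g + h) ≤ wnorm ν t g + wnorm ν t h := by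
  classical
  rw [wnorm_eq hν.zero t (h := g + h) (s := g.support ∪ h.support) MvPolynomial.support_add,
    wnorm_eq hν.zero t (h := g) (s := g.support ∪ h.support) Finset.subset_union_left,
    wnorm_eq hν.zero t (h := h) (s := g.support ∪ h.support) Finset.subset_union_right,
    ← Finset.sum_add_distrib]
  apply Finset.sum_le_sum
  intro m _
  rw [MvPolynomial.coeff_add, ← add_mul]
  exact mul_le_mul_of_nonneg_right (hν.add_le _ _) (pow_nonneg ht _)

theorem wnorm_neg {ν : R → ℝ} (hν : IsNrm ν) (t : ℝ)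
    (h : MvPolynomial (Fin N) R) : wnorm ν t (-h) = wnorm ν t h := by
  unfold wnorm
  rw [MvPolynomial.support_neg]
  apply Finset.sum_congr rfl
  intro m _
  rw [MvPolynomial.coeff_neg, hν.neg]

private theorem wnorm_zero' (ν : R → ℝ) (t : ℝ) : wnorm ν t (0 : MvPolynomial (Fin N) R) = 0 := by
  simp [wnorm]

theorem wnorm_monomial_le {ν : R → ℝ} (hν : IsNrm ν) {t : ℝ} (ht : 0 ≤ t) (m : Fin N →₀ ℕ)
    (c : R) : wnorm ν t (monomial m c) ≤ ν c * t ^ m.degree := by
  rw [wnorm_eq hν.zero t (s := {m}) MvPolynomial.support_monomial_subset, Finset.sum_singleton,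
    MvPolynomial.coeff_monomial, if_pos rfl]

theorem wnorm_sum_le {ν : R → ℝ} (hν : IsNrm ν) {t : ℝ} (ht : 0 ≤ t) {ι : Type} (s : Finset ι)
    (g : ι → MvPolynomial (Fin N) R) : wnorm ν t (∑ i ∈ s, g i) ≤ ∑ i ∈ s, wnorm ν t (g i) :=
  nrm_sum_le (wnorm_zero' ν t) (wnorm_add_le hν ht) s g

theorem wnorm_mul_le {ν : R → ℝ} (hν : IsNrm ν) {t : ℝ} (ht : 0 ≤ t)
    (g h : MvPolynomial (Fin N) R) : wnorm ν t (g * h) ≤ wnorm ν t g * wnorm ν t h := by
  have h1 : g * h = ∑ m ∈ g.support, ∑ n ∈ h.support,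
      monomial (m + n) (coeff m g * coeff n h) := by
    conv_lhs => rw [g.as_sum, h.as_sum]
    rw [Finset.sum_mul_sum]
    apply Finset.sum_congr rfl
    intro m _
    apply Finset.sum_congr rfl
    intro n _
    rw [MvPolynomial.monomial_mul]
  rw [h1]
  refine (wnorm_sum_le hν ht _ _).trans ?_
  unfold wnorm
  rw [Finset.sum_mul_sum]
  apply Finset.sum_le_sum
  intro m _
  refine (wnorm_sum_le hν ht _ _).trans ?_
  apply Finset.sum_le_sum
  intro n _
  refine (wnorm_monomial_le hν ht _ _).trans ?_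
  calc ν (coeff m g * coeff n h) * t ^ (m + n).degree
      ≤ (ν (coeff m g) * ν (coeff n h)) * t ^ (m + n).degree :=
        mul_le_mul_of_nonneg_right (hν.mul_le _ _) (pow_nonneg ht _)
    _ = ν (coeff m g) * t ^ m.degree * (ν (coeff n h) * t ^ n.degree) := by
        rw [map_add, pow_add]
        ring

/-- the determinant is bounded by weighted column sums -/
theorem det_le_prod {n : Type} [Fintype n] [DecidableEq n] {ν : R → ℝ} (hν : IsNrm ν)
    (M : Matrix n n R) (τ : n → ℝ) (hτ : ∀ a, 0 < τ a) :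
    ν M.det ≤ ∏ b, ∑ a, ν (M a b) * τ a / τ b := by
  have h0 : ∀ f : n → n, 0 ≤ ∏ b, ν (M (f b) b) * τ (f b) / τ b := fun f =>
    Finset.prod_nonneg fun b _ => div_nonneg (mul_nonneg (hν.nonneg _) (hτ _).le) (hτ _).le
  have h1 : ∀ σ : Equiv.Perm n, ν (Equiv.Perm.sign σ • ∏ b, M (σ b) b) ≤
      ∏ b, ν (M (σ b) b) * τ (σ b) / τ b := by
    intro σ
    have h2 : ν (Equiv.Perm.sign σ • ∏ b, M (σ b) b) = ν (∏ b, M (σ b) b) := by
      rcases Int.units_eq_one_or (Equiv.Perm.sign σ) with h | h
      · rw [h, one_smul]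
      · rw [h, Units.neg_smul, one_smul, hν.neg]
    rw [h2]
    refine (nrm_prod_le hν _ _).trans (le_of_eq ?_)
    have h3 : ∏ b, τ (σ b) = ∏ b, τ b := Equiv.prod_comp σ τ
    have h4 : ∏ b, τ b ≠ 0 := Finset.prod_ne_zero_iff.2 fun b _ => (hτ b).ne'
    rw [Finset.prod_div_distrib, Finset.prod_mul_distrib, h3, mul_div_assoc, div_self h4, mul_one]
  rw [Matrix.det_apply]
  refine (nrm_sum_le hν.zero hν.add_le _ _).trans ?_
  refine (Finset.sum_le_sum fun σ _ => h1 σ).trans ?_
  rw [Finset.prod_univ_sum]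
  have h5 : ∑ σ : Equiv.Perm n, ∏ b, ν (M (σ b) b) * τ (σ b) / τ b =
      ∑ f ∈ (Finset.univ : Finset (Equiv.Perm n)).map
        (⟨fun σ => (σ : n → n), DFunLike.coe_injective⟩ : Equiv.Perm n ↪ (n → n)),
          ∏ b, ν (M (f b) b) * τ (f b) / τ b := by
    rw [Finset.sum_map]
    rfl
  rw [h5]
  apply Finset.sum_le_sum_of_subset_of_nonneg
  · intro f _
    rw [Fintype.mem_piFinset]
    intro a
    exact Finset.mem_univ _
  · intro f _ _
    exact h0 f

end Vale.Agent.P337

end

section

/-!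
P337, algebra side: column sums of the multiplication matrices.
-/

namespace Vale.Agent.P337

open MvPolynomial

variable {N : ℕ} {R : Type} [CommRing R]

/-- weighted norm of the coordinates in the monomial basis -/
noncomputable def nmKap (ν : R → ℝ) (t : ℝ) {d : ℕ} (hd : 1 ≤ d)
    {H : Fin N → MvPolynomial (Fin N) R} (hH : ∀ i, (H i).totalDegree < d) (q : QA d H) : ℝ :=
  ∑ a : Fin N → Fin d, ν ((bas hd hH).repr q a) * t ^ (∑ i, (a i : ℕ))

theorem nmKap_zero {ν : R → ℝ} (hν : IsNrm ν) (t : ℝ) {d : ℕ} (hd : 1 ≤ d)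
    {H : Fin N → MvPolynomial (Fin N) R} (hH : ∀ i, (H i).totalDegree < d) :
    nmKap ν t hd hH 0 = 0 := by
  simp [nmKap, hν.zero]

theorem nmKap_add_le {ν : R → ℝ} (hν : IsNrm ν) {t : ℝ} (ht : 0 ≤ t) {d : ℕ} (hd : 1 ≤ d)
    {H : Fin N → MvPolynomial (Fin N) R} (hH : ∀ i, (H i).totalDegree < d) (p q : QA d H) :
    nmKap ν t hd hH (p + q) ≤ nmKap ν t hd hH p + nmKap ν t hd hH q := by
  unfold nmKap
  rw [← Finset.sum_add_distrib]
  apply Finset.sum_le_sum
  intro a _
  rw [map_add, Finsupp.add_apply, ← add_mul]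
  exact mul_le_mul_of_nonneg_right (hν.add_le _ _) (pow_nonneg ht _)

theorem nmKap_smul_le {ν : R → ℝ} (hν : IsNrm ν) {t : ℝ} (ht : 0 ≤ t) {d : ℕ} (hd : 1 ≤ d)
    {H : Fin N → MvPolynomial (Fin N) R} (hH : ∀ i, (H i).totalDegree < d) (c : R) (q : QA d H) :
    nmKap ν t hd hH (c • q) ≤ ν c * nmKap ν t hd hH q := by
  unfold nmKap
  rw [Finset.mul_sum]
  apply Finset.sum_le_sum
  intro a _
  rw [map_smul, Finsupp.smul_apply, ← mul_assoc, smul_eq_mul]
  exact mul_le_mul_of_nonneg_right (hν.mul_le _ _) (pow_nonneg ht _)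

theorem nmKap_sum_le {ν : R → ℝ} (hν : IsNrm ν) {t : ℝ} (ht : 0 ≤ t) {d : ℕ} (hd : 1 ≤ d)
    {H : Fin N → MvPolynomial (Fin N) R} (hH : ∀ i, (H i).totalDegree < d) {ι : Type}
    (s : Finset ι) (q : ι → QA d H) :
    nmKap ν t hd hH (∑ i ∈ s, q i) ≤ ∑ i ∈ s, nmKap ν t hd hH (q i) := by
  classical
  induction s using Finset.induction_on with
  | empty => simp [nmKap_zero hν]
  | insert i s hi ih =>
    rw [Finset.sum_insert hi, Finset.sum_insert hi]
    exact (nmKap_add_le hν ht hd hH _ _).trans (by linarith)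

theorem nmKap_bas_le {ν : R → ℝ} (hν : IsNrm ν) {t : ℝ} (ht : 0 ≤ t) {d : ℕ} (hd : 1 ≤ d)
    {H : Fin N → MvPolynomial (Fin N) R} (hH : ∀ i, (H i).totalDegree < d)
    (b : Fin N → Fin d) : nmKap ν t hd hH (bas hd hH b) ≤ t ^ (∑ i, (b i : ℕ)) := by
  classical
  unfold nmKap
  rw [Finset.sum_eq_single b]
  · rw [Module.Basis.repr_self, Finsupp.single_eq_same]
    calc ν 1 * t ^ (∑ i, (b i : ℕ)) ≤ 1 * t ^ (∑ i, (b i : ℕ)) :=
          mul_le_mul_of_nonneg_right hν.one (pow_nonneg ht _)
      _ = _ := one_mul _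
  · intro a _ hab
    rw [Module.Basis.repr_self, Finsupp.single_eq_of_ne hab, hν.zero, zero_mul]
  · simp

/-- the exponent of a basis monomial -/
theorem nm_mon_eq (d : ℕ) (a : Fin N → Fin d) :
    (mon d a : MvPolynomial (Fin N) R) =
      monomial (Finsupp.equivFunOnFinite.symm fun i => (a i : ℕ)) 1 := by
  unfold mon
  rw [MvPolynomial.monomial_eq, map_one, one_mul, Finsupp.prod_fintype _ _ (by simp)]
  simp

theorem nm_degree (m : Fin N →₀ ℕ) : m.degree = ∑ i, m i := by
  rw [Finsupp.degree_eq_sum]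

/-- linearity: `g * x ^ m'` -/
theorem nmKap_mul_monomial_le {ν : R → ℝ} (hν : IsNrm ν) {t : ℝ} (ht : 0 ≤ t) {d : ℕ} (hd : 1 ≤ d)
    {H : Fin N → MvPolynomial (Fin N) R} (hH : ∀ i, (H i).totalDegree < d)
    (g : MvPolynomial (Fin N) R) (m' : Fin N →₀ ℕ) :
    nmKap ν t hd hH (qmk d H (g * monomial m' 1)) ≤
      ∑ m ∈ g.support, ν (coeff m g) * nmKap ν t hd hH (qmk d H (monomial (m + m') 1)) := by
  have h1 : g * monomial m' 1 = ∑ m ∈ g.support, coeff m g • monomial (m + m') 1 := by
    conv_lhs => rw [g.as_sum, Finset.sum_mul]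
    apply Finset.sum_congr rfl
    intro m _
    rw [monomial_mul, mul_one, smul_monomial, smul_eq_mul, mul_one]
  rw [h1, map_sum]
  refine (nmKap_sum_le hν ht hd hH _ _).trans (Finset.sum_le_sum fun m _ => ?_)
  rw [map_smul]
  exact nmKap_smul_le hν ht hd hH _ _

/-- the relation `X_i ^ d = H_i` -/
theorem nm_rel {d : ℕ} {H : Fin N → MvPolynomial (Fin N) R} (i : Fin N) :
    qmk d H (X i ^ d) = qmk d H (H i) := by
  rw [← sub_eq_zero, ← map_sub]
  change Ideal.Quotient.mk _ (X i ^ d - H i) = 0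
  rw [Ideal.Quotient.eq_zero_iff_mem]
  exact Ideal.subset_span ⟨i, rfl⟩

theorem nmKap_monomial_le {ν : R → ℝ} (hν : IsNrm ν) {t : ℝ} (ht : 1 ≤ t) {d : ℕ} (hd : 1 ≤ d)
    {H : Fin N → MvPolynomial (Fin N) R} (hH : ∀ i, (H i).totalDegree < d)
    (hw : ∀ i, wnorm ν t (H i) ≤ t ^ d) (n : ℕ) : ∀ m : Fin N →₀ ℕ, m.degree = n →
    nmKap ν t hd hH (qmk d H (monomial m 1)) ≤ t ^ m.degree := by
  have ht0 : (0 : ℝ) ≤ t := le_trans zero_le_one ht
  induction n using Nat.strong_induction_on with
  | _ n ih =>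
    intro m hm
    by_cases hall : ∀ i, m i < d
    · have h1 : (monomial m 1 : MvPolynomial (Fin N) R) = mon d (fun i => ⟨m i, hall i⟩) := by
        rw [nm_mon_eq]
        congr 1
        ext i
        simp
      rw [h1, ← bas_apply hd hH, nm_degree]
      exact nmKap_bas_le hν ht0 hd hH _
    · push Not at hall
      obtain ⟨i, hi⟩ := hall
      set m' : Fin N →₀ ℕ := m - Finsupp.single i d with hm'
      have hmm : m = Finsupp.single i d + m' := by
        rw [hm', add_tsub_cancel_of_le]
        rw [Finsupp.single_le_iff]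
        exact hi
      have h1 : (monomial m 1 : MvPolynomial (Fin N) R) = X i ^ d * monomial m' 1 := by
        rw [X_pow_eq_monomial, monomial_mul, ← hmm, mul_one]
      have hdeg : m.degree = d + m'.degree := by
        conv_lhs => rw [hmm]
        rw [map_add, Finsupp.degree_single]
      rw [h1, map_mul, nm_rel, ← map_mul]
      refine (nmKap_mul_monomial_le hν ht0 hd hH (H i) m').trans ?_
      have h2 : ∀ m'' ∈ (H i).support,
          ν (coeff m'' (H i)) * nmKap ν t hd hH (qmk d H (monomial (m'' + m') 1)) ≤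
            ν (coeff m'' (H i)) * t ^ m''.degree * t ^ m'.degree := by
        intro m'' hm''
        have h3 : m''.degree < d := lt_of_le_of_lt (by
          rw [nm_degree]
          have := le_totalDegree hm''
          rwa [Finsupp.sum_fintype _ _ (by simp)] at this) (hH i)
        have h4 := ih (m'' + m').degree (by rw [map_add, ← hm, hdeg]; omega) (m'' + m') rfl
        rw [mul_assoc]
        apply mul_le_mul_of_nonneg_left _ (hν.nonneg _)
        rw [map_add, pow_add] at h4
        exact h4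
      refine (Finset.sum_le_sum h2).trans ?_
      rw [← Finset.sum_mul, hdeg, pow_add]
      exact mul_le_mul_of_nonneg_right (hw i) (pow_nonneg ht0 _)

/-- the multiplication matrix has weighted column sums at most the weighted norm -/
theorem mmat_col_le {ν : R → ℝ} (hν : IsNrm ν) {t : ℝ} (ht : 1 ≤ t) {d : ℕ} (hd : 1 ≤ d)
    {H : Fin N → MvPolynomial (Fin N) R} (hH : ∀ i, (H i).totalDegree < d)
    (hw : ∀ i, wnorm ν t (H i) ≤ t ^ d) (h : MvPolynomial (Fin N) R) (b : Fin N → Fin d) :
    ∑ a : Fin N → Fin d, ν (mmat hd hH h a b) * t ^ (∑ i, (a i : ℕ)) / t ^ (∑ i, (b i : ℕ)) ≤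
      wnorm ν t h := by
  have ht0 : (0 : ℝ) ≤ t := le_trans zero_le_one ht
  have hpos : (0 : ℝ) < t ^ (∑ i, (b i : ℕ)) := pow_pos (lt_of_lt_of_le zero_lt_one ht) _
  rw [← Finset.sum_div, div_le_iff₀ hpos]
  have h1 : ∑ a : Fin N → Fin d, ν (mmat hd hH h a b) * t ^ (∑ i, (a i : ℕ)) =
      nmKap ν t hd hH (qmk d H (h * mon d b)) := by
    unfold nmKap
    apply Finset.sum_congr rfl
    intro a _
    rw [mmat, Algebra.leftMulMatrix_eq_repr_mul, bas_apply, ← map_mul]
  rw [h1, nm_mon_eq]
  refine (nmKap_mul_monomial_le hν ht0 hd hH h _).trans ?_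
  unfold wnorm
  rw [Finset.sum_mul]
  apply Finset.sum_le_sum
  intro m _
  rw [mul_assoc]
  apply mul_le_mul_of_nonneg_left _ (hν.nonneg _)
  have h2 := nmKap_monomial_le hν ht hd hH hw _
    (m + Finsupp.equivFunOnFinite.symm fun i => (b i : ℕ)) rfl
  rw [map_add, pow_add] at h2
  have h3 : (Finsupp.equivFunOnFinite.symm fun i => (b i : ℕ) : Fin N →₀ ℕ).degree =
      ∑ i, (b i : ℕ) := by
    rw [nm_degree]
    simp
  rw [h3] at h2
  exact h2

end Vale.Agent.P337

end

section

/-!
P337, algebra side: norm bounds for determinant, trace, characteristic polynomial, roots.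
-/

namespace Vale.Agent.P337

open MvPolynomial

variable {N : ℕ} {R : Type} [CommRing R]

theorem nb_card (d : ℕ) : Fintype.card (Fin N → Fin d) = d ^ N := by
  simp

theorem nb_wnorm_nonneg {ν : R → ℝ} (hν : IsNrm ν) {t : ℝ} (ht : 0 ≤ t)
    (h : MvPolynomial (Fin N) R) : 0 ≤ wnorm ν t h := wnorm_nonneg hν ht h

theorem mmat_det_le {ν : R → ℝ} (hν : IsNrm ν) {t : ℝ} (ht : 1 ≤ t) {d : ℕ} (hd : 1 ≤ d)
    {H : Fin N → MvPolynomial (Fin N) R} (hH : ∀ i, (H i).totalDegree < d)
    (hw : ∀ i, wnorm ν t (H i) ≤ t ^ d) (h : MvPolynomial (Fin N) R) :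
    ν (mmat hd hH h).det ≤ wnorm ν t h ^ (d ^ N) := by
  have ht0 : (0 : ℝ) < t := lt_of_lt_of_le zero_lt_one ht
  have h1 := det_le_prod hν (mmat hd hH h) (fun a => t ^ (∑ i, (a i : ℕ)))
    (fun a => pow_pos ht0 _)
  refine h1.trans ?_
  calc ∏ b, ∑ a, ν (mmat hd hH h a b) * t ^ (∑ i, (a i : ℕ)) / t ^ (∑ i, (b i : ℕ))
      ≤ ∏ _b : Fin N → Fin d, wnorm ν t h := by
        apply Finset.prod_le_prod
        · intro b _
          exact Finset.sum_nonneg fun a _ => by
            have := hν.nonneg (mmat hd hH h a b)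
            positivity
        · intro b _
          exact mmat_col_le hν ht hd hH hw h b
    _ = wnorm ν t h ^ (d ^ N) := by
        rw [Finset.prod_const, Finset.card_univ, nb_card]

theorem nb_diag_le {ν : R → ℝ} (hν : IsNrm ν) {t : ℝ} (ht : 1 ≤ t) {d : ℕ} (hd : 1 ≤ d)
    {H : Fin N → MvPolynomial (Fin N) R} (hH : ∀ i, (H i).totalDegree < d)
    (hw : ∀ i, wnorm ν t (H i) ≤ t ^ d) (h : MvPolynomial (Fin N) R) (b : Fin N → Fin d) :
    ν (mmat hd hH h b b) ≤ wnorm ν t h := by
  have ht0 : (0 : ℝ) < t := lt_of_lt_of_le zero_lt_one ht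
  refine le_trans ?_ (mmat_col_le hν ht hd hH hw h b)
  have h1 : ν (mmat hd hH h b b) =
      ν (mmat hd hH h b b) * t ^ (∑ i, (b i : ℕ)) / t ^ (∑ i, (b i : ℕ)) := by
    field_simp
  rw [h1]
  exact Finset.single_le_sum (f := fun a : Fin N → Fin d =>
    ν (mmat hd hH h a b) * t ^ (∑ i, (a i : ℕ)) / t ^ (∑ i, (b i : ℕ)))
    (fun a _ => by
      have := hν.nonneg (mmat hd hH h a b)
      positivity) (Finset.mem_univ b)

theorem nb_sum_le {ν : R → ℝ} (hν : IsNrm ν) {ι : Type} (s : Finset ι) (f : ι → R) :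
    ν (∑ i ∈ s, f i) ≤ ∑ i ∈ s, ν (f i) := by
  classical
  induction s using Finset.induction_on with
  | empty => simp [hν.zero]
  | insert i s hi ih =>
    rw [Finset.sum_insert hi, Finset.sum_insert hi]
    exact (hν.add_le _ _).trans (by linarith)

theorem mmat_trace_le {ν : R → ℝ} (hν : IsNrm ν) {t : ℝ} (ht : 1 ≤ t) {d : ℕ} (hd : 1 ≤ d)
    {H : Fin N → MvPolynomial (Fin N) R} (hH : ∀ i, (H i).totalDegree < d)
    (hw : ∀ i, wnorm ν t (H i) ≤ t ^ d) (h : MvPolynomial (Fin N) R) :
    ν (mmat hd hH h).trace ≤ (d ^ N : ℕ) * wnorm ν t h := by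
  unfold Matrix.trace
  refine (nb_sum_le hν _ _).trans ?_
  calc ∑ b, ν ((mmat hd hH h).diag b) ≤ ∑ _b : Fin N → Fin d, wnorm ν t h :=
        Finset.sum_le_sum fun b _ => nb_diag_le hν ht hd hH hw h b
    _ = (d ^ N : ℕ) * wnorm ν t h := by
        rw [Finset.sum_const, Finset.card_univ, nb_card, nsmul_eq_mul]

theorem nb_pnorm_C {ν : R → ℝ} (hν : IsNrm ν) {u : ℝ} (hu : 0 ≤ u) (c : R) :
    pnorm ν u (Polynomial.C c) ≤ ν c := by
  unfold pnorm
  calc ∑ i ∈ (Polynomial.C c).support, ν ((Polynomial.C c).coeff i) * u ^ i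
      ≤ ∑ i ∈ {0}, ν ((Polynomial.C c).coeff i) * u ^ i := by
        apply Finset.sum_le_sum_of_subset_of_nonneg (Polynomial.support_C_subset c)
        intro i _ _
        exact mul_nonneg (hν.nonneg _) (pow_nonneg hu _)
    _ = ν c := by simp

theorem nb_pnorm_X {ν : R → ℝ} (hν : IsNrm ν) {u : ℝ} (hu : 0 ≤ u) :
    pnorm ν u (Polynomial.X : Polynomial R) ≤ u := by
  unfold pnorm
  have hsub : (Polynomial.X : Polynomial R).support ⊆ {1} := by
    intro i hi
    rw [Polynomial.mem_support_iff, Polynomial.coeff_X] at hi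
    rw [Finset.mem_singleton]
    by_contra hne
    exact hi (if_neg fun h => hne h.symm)
  calc ∑ i ∈ (Polynomial.X : Polynomial R).support, ν ((Polynomial.X : Polynomial R).coeff i) * u ^ i
      ≤ ∑ i ∈ {1}, ν ((Polynomial.X : Polynomial R).coeff i) * u ^ i := by
        apply Finset.sum_le_sum_of_subset_of_nonneg hsub
        intro i _ _
        exact mul_nonneg (hν.nonneg _) (pow_nonneg hu _)
    _ = ν 1 * u := by simp
    _ ≤ 1 * u := mul_le_mul_of_nonneg_right hν.one hu
    _ = u := one_mul u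

theorem mmat_charpoly_le {ν : R → ℝ} (hν : IsNrm ν) {t : ℝ} (ht : 1 ≤ t) {d : ℕ} (hd : 1 ≤ d)
    {H : Fin N → MvPolynomial (Fin N) R} (hH : ∀ i, (H i).totalDegree < d)
    (hw : ∀ i, wnorm ν t (H i) ≤ t ^ d) (h : MvPolynomial (Fin N) R) {u : ℝ} (hu : 0 ≤ u) :
    pnorm ν u (mmat hd hH h).charpoly ≤ (u + wnorm ν t h) ^ (d ^ N) := by
  classical
  have ht0 : (0 : ℝ) < t := lt_of_lt_of_le zero_lt_one ht
  have hp := isNrm_pnorm hν hu
  set M := mmat hd hH h with hM
  have h1 := det_le_prod hp M.charmatrix (fun a => t ^ (∑ i, (a i : ℕ)))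
    (fun a => pow_pos ht0 _)
  unfold Matrix.charpoly
  refine h1.trans ?_
  have hentry : ∀ a b : Fin N → Fin d, pnorm ν u (M.charmatrix a b) ≤
      (if a = b then u else 0) + ν (M a b) := by
    intro a b
    rw [Matrix.charmatrix_apply, sub_eq_add_neg]
    refine (hp.add_le _ _).trans ?_
    rw [hp.neg]
    apply add_le_add _ (nb_pnorm_C hν hu _)
    by_cases hab : a = b
    · subst hab
      simpa using nb_pnorm_X hν hu
    · simp [hab, hp.zero]
  calc ∏ b, ∑ a, pnorm ν u (M.charmatrix a b) * t ^ (∑ i, (a i : ℕ)) / t ^ (∑ i, (b i : ℕ))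
      ≤ ∏ _b : Fin N → Fin d, (u + wnorm ν t h) := by
        apply Finset.prod_le_prod
        · intro b _
          exact Finset.sum_nonneg fun a _ => by
            have := hp.nonneg (M.charmatrix a b)
            positivity
        · intro b _
          calc ∑ a, pnorm ν u (M.charmatrix a b) * t ^ (∑ i, (a i : ℕ)) / t ^ (∑ i, (b i : ℕ))
              ≤ ∑ a, ((if a = b then u else 0) + ν (M a b)) * t ^ (∑ i, (a i : ℕ)) /
                  t ^ (∑ i, (b i : ℕ)) := by
                apply Finset.sum_le_sum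
                intro a _
                have := hentry a b
                gcongr
            _ = ∑ a, (if a = b then u else 0) * t ^ (∑ i, (a i : ℕ)) / t ^ (∑ i, (b i : ℕ)) +
                ∑ a, ν (M a b) * t ^ (∑ i, (a i : ℕ)) / t ^ (∑ i, (b i : ℕ)) := by
                rw [← Finset.sum_add_distrib]
                apply Finset.sum_congr rfl
                intro a _
                rw [add_mul, add_div]
            _ ≤ u + wnorm ν t h := by
                apply add_le_add _ (mmat_col_le hν ht hd hH hw h b)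
                rw [Finset.sum_eq_single b]
                · rw [if_pos rfl]
                  have : t ^ (∑ i, (b i : ℕ)) ≠ 0 := (pow_pos ht0 _).ne'
                  rw [mul_div_cancel_right₀ _ this]
                · intro a _ hab
                  rw [if_neg hab]
                  simp
                · intro hb
                  exact absurd (Finset.mem_univ b) hb
    _ = (u + wnorm ν t h) ^ (d ^ N) := by
        rw [Finset.prod_const, Finset.card_univ, nb_card]

theorem mmat_root_le {t : ℝ} (ht : 1 ≤ t) {d : ℕ} (hd : 1 ≤ d)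
    {H : Fin N → MvPolynomial (Fin N) ℂ} (hH : ∀ i, (H i).totalDegree < d)
    (hw : ∀ i, wnorm (fun a : ℂ => ‖a‖) t (H i) ≤ t ^ d) (h : MvPolynomial (Fin N) ℂ) (α : ℂ)
    (hα : (mmat hd hH h).charpoly.eval α = 0) : ‖α‖ ≤ wnorm (fun a : ℂ => ‖a‖) t h := by
  classical
  have ht0 : (0 : ℝ) < t := lt_of_lt_of_le zero_lt_one ht
  set M := mmat hd hH h with hM
  rw [Matrix.eval_charpoly] at hα
  obtain ⟨v, hv0, hv⟩ := Matrix.exists_vecMul_eq_zero_iff.2 hα
  -- the eigenvector identity
  have hev : ∀ b, α * v b = ∑ a, v a * M a b := by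
    intro b
    have h1 := congrFun hv b
    rw [Matrix.vecMul_sub, Pi.sub_apply, Pi.zero_apply, sub_eq_zero] at h1
    rw [Matrix.scalar_apply, Matrix.vecMul_diagonal] at h1
    rw [mul_comm, h1]
    rfl
  -- maximise the weighted modulus
  have hne : (Finset.univ : Finset (Fin N → Fin d)).Nonempty := by
    by_contra hcon
    rw [Finset.not_nonempty_iff_eq_empty, Finset.univ_eq_empty_iff] at hcon
    exact hv0 (Subsingleton.elim _ _)
  obtain ⟨b, -, hb⟩ := Finset.exists_max_image Finset.univ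
    (fun a : Fin N → Fin d => ‖v a‖ / t ^ (∑ i, (a i : ℕ))) hne
  have hτ : ∀ a : Fin N → Fin d, (0 : ℝ) < t ^ (∑ i, (a i : ℕ)) := fun a => pow_pos ht0 _
  set c : ℝ := ‖v b‖ / t ^ (∑ i, (b i : ℕ)) with hc
  have hcpos : 0 < c := by
    obtain ⟨a, ha⟩ := Function.ne_iff.1 hv0
    have h1 : 0 < ‖v a‖ / t ^ (∑ i, (a i : ℕ)) := div_pos (norm_pos_iff.2 ha) (hτ a)
    exact lt_of_lt_of_le h1 (hb a (Finset.mem_univ a))
  have hva : ∀ a : Fin N → Fin d, ‖v a‖ ≤ c * t ^ (∑ i, (a i : ℕ)) := by
    intro a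
    have h1 := hb a (Finset.mem_univ a)
    rwa [div_le_iff₀ (hτ a)] at h1
  have hcol := mmat_col_le isNrm_complex ht hd hH hw h b
  have h2 : ‖α‖ * ‖v b‖ ≤ c * (wnorm (fun a : ℂ => ‖a‖) t h * t ^ (∑ i, (b i : ℕ))) := by
    rw [← norm_mul, hev b]
    refine (norm_sum_le _ _).trans ?_
    rw [← Finset.sum_div, div_le_iff₀ (hτ b)] at hcol
    calc ∑ a, ‖v a * M a b‖ ≤ ∑ a, c * (‖M a b‖ * t ^ (∑ i, (a i : ℕ))) := by
          apply Finset.sum_le_sum
          intro a _
          rw [norm_mul]
          calc ‖v a‖ * ‖M a b‖ ≤ (c * t ^ (∑ i, (a i : ℕ))) * ‖M a b‖ := by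
                gcongr
                exact hva a
            _ = _ := by ring
      _ = c * ∑ a, ‖M a b‖ * t ^ (∑ i, (a i : ℕ)) := by rw [Finset.mul_sum]
      _ ≤ _ := mul_le_mul_of_nonneg_left hcol hcpos.le
  have hvb : ‖v b‖ = c * t ^ (∑ i, (b i : ℕ)) := by
    rw [hc, div_mul_cancel₀ _ (hτ b).ne']
  rw [hvb] at h2
  have h3 : ‖α‖ * (c * t ^ (∑ i, (b i : ℕ))) ≤
      wnorm (fun a : ℂ => ‖a‖) t h * (c * t ^ (∑ i, (b i : ℕ))) := by
    linarith
  exact le_of_mul_le_mul_right h3 (mul_pos hcpos (hτ b))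

end Vale.Agent.P337

end
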