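import Mathlib
import Vale.Agent.Lib.P337.Real.DetModule
import Vale.Agent.Lib.P337.M.Alg

section

/-!
P337, real side: the determinant of a multiplication is nonnegative if the element is
nonnegative at the real points.
-/

namespace Vale.Agent.P337

open MvPolynomial

theorem mmat_det_nonneg {N d : ℕ} (hd : 1 ≤ d) {H : Fin N → MvPolynomial (Fin N) ℝ}
    (hH : ∀ i, (H i).totalDegree < d) (h : MvPolynomial (Fin N) ℝ)
    (hpos : ∀ ξ : Fin N → ℝ, (∀ i, eval ξ (Fs d H i) = 0) → 0 ≤ eval ξ h) :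
    0 ≤ (mmat hd hH h).det := by
  have hfin : Module.Finite ℝ (QA d H) := Module.Finite.of_basis (bas hd hH)
  have h1 : ∀ φ : QA d H →ₐ[ℝ] ℝ, 0 ≤ φ (qmk d H h) := by
    intro φ
    have h2 : ∀ p : MvPolynomial (Fin N) ℝ,
        φ (qmk d H p) = eval (fun i => φ (qmk d H (X i))) p := by
      intro p
      have h3 : φ.comp (qmk d H) = aeval (fun i => φ (qmk d H (X i))) := by
        apply MvPolynomial.algHom_ext
        intro i
        simp
      have h4 := DFunLike.congr_fun h3 p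
      rw [AlgHom.comp_apply] at h4
      rw [h4]
      exact congrFun (congrArg DFunLike.coe (coe_aeval_eq_eval _)) p
    rw [h2]
    apply hpos
    intro i
    rw [← h2]
    have h3 : qmk d H (Fs d H i) = 0 := by
      apply Ideal.Quotient.eq_zero_iff_mem.2
      exact Ideal.subset_span ⟨i, rfl⟩
    rw [h3, map_zero]
  have h5 := det_nonneg_of_module (qmk d H h) h1 (Module.finrank ℝ (QA d H)) (QA d H) le_rfl
  have h6 : LinearMap.restrictScalars ℝ (LinearMap.lsmul (QA d H) (QA d H) (qmk d H h)) =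
      Algebra.lmul ℝ (QA d H) (qmk d H h) := by
    apply LinearMap.ext
    intro w
    rfl
  rw [h6, ← Algebra.norm_apply, Algebra.norm_eq_matrix_det (bas hd hH)] at h5
  exact h5

end Vale.Agent.P337

end

section

/-!
P337, real side: the gradient system of `g = 2 e L p + ∑ x_i ^ (2 e) + 2 e ∑ b_i x_i`.
-/

namespace Vale.Agent.P337

open MvPolynomial

variable {N : ℕ} {R : Type} [CommRing R]

/-- right hand sides of the gradient system `x_i ^ (2 e - 1) = H_i` -/
noncomputable def gH (L : R) (b : Fin N → R) (p : MvPolynomial (Fin N) R) (i : Fin N) :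
    MvPolynomial (Fin N) R := -(C L * pderiv i p) - C (b i)

/-- the perturbed function -/
noncomputable def gG (e : ℕ) (L : R) (b : Fin N → R) (p : MvPolynomial (Fin N) R) :
    MvPolynomial (Fin N) R :=
  C (2 * (e : R) * L) * p + ∑ i, X i ^ (2 * e) + ∑ i, C (2 * (e : R) * b i) * X i

private theorem System_pderiv_degree (p : MvPolynomial (Fin N) R) (i : Fin N) :
    (pderiv i p).totalDegree ≤ p.totalDegree - 1 := by
  unfold totalDegree
  refine Finset.sup_le fun m hm => ?_
  rw [mem_support_iff, coeff_pderiv] at hm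
  have h1 : m + Finsupp.single i 1 ∈ p.support := by
    rw [mem_support_iff]
    intro h0
    rw [h0, zero_mul] at hm
    exact hm rfl
  have h2 := le_totalDegree h1
  have h3 : ((m + Finsupp.single i 1).sum fun _ e => e) = (m.sum fun _ e => e) + 1 := by
    rw [Finsupp.sum_add_index' (fun _ => rfl) (fun _ _ _ => rfl), Finsupp.sum_single_index rfl]
  rw [h3] at h2
  unfold totalDegree at h2
  omega

theorem gH_totalDegree {e : ℕ} (he : 2 ≤ e) (L : R) (b : Fin N → R)
    {p : MvPolynomial (Fin N) R} (hp : p.totalDegree < 2 * e) (i : Fin N) :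
    (gH L b p i).totalDegree < 2 * e - 1 := by
  unfold gH
  have h1 : (C L * pderiv i p).totalDegree ≤ p.totalDegree - 1 := by
    refine (totalDegree_mul _ _).trans ?_
    rw [totalDegree_C, zero_add]
    exact System_pderiv_degree p i
  have h2 : (-(C L * pderiv i p) - C (b i)).totalDegree ≤ p.totalDegree - 1 := by
    refine (totalDegree_sub _ _).trans ?_
    rw [totalDegree_neg, totalDegree_C]
    exact max_le h1 (Nat.zero_le _)
  omega

theorem gG_totalDegree {e : ℕ} (he : 2 ≤ e) (L : R) (b : Fin N → R)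
    {p : MvPolynomial (Fin N) R} (hp : p.totalDegree < 2 * e) :
    (gG e L b p).totalDegree ≤ 2 * e := by
  unfold gG
  refine (totalDegree_add _ _).trans (max_le ((totalDegree_add _ _).trans (max_le ?_ ?_)) ?_)
  · refine (totalDegree_mul _ _).trans ?_
    rw [totalDegree_C, zero_add]
    exact hp.le
  · refine totalDegree_finsetSum_le fun i _ => ?_
    refine (totalDegree_pow _ _).trans ?_
    have h1 : (X i : MvPolynomial (Fin N) R).totalDegree ≤ 1 := by
      by_cases hR : Nontrivial R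
      · rw [totalDegree_X]
      · rw [not_nontrivial_iff_subsingleton] at hR
        have : (X i : MvPolynomial (Fin N) R) = 0 := by
          ext m
          exact Subsingleton.elim _ _
        rw [this, totalDegree_zero]
        exact Nat.zero_le _
    calc 2 * e * (X i : MvPolynomial (Fin N) R).totalDegree ≤ 2 * e * 1 :=
          Nat.mul_le_mul_left _ h1
      _ = 2 * e := mul_one _
  · refine totalDegree_finsetSum_le fun i _ => ?_
    refine (totalDegree_mul _ _).trans ?_
    rw [totalDegree_C, zero_add]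
    have h1 : (X i : MvPolynomial (Fin N) R).totalDegree ≤ 1 := by
      by_cases hR : Nontrivial R
      · rw [totalDegree_X]
      · rw [not_nontrivial_iff_subsingleton] at hR
        have : (X i : MvPolynomial (Fin N) R) = 0 := by
          ext m
          exact Subsingleton.elim _ _
        rw [this, totalDegree_zero]
        exact Nat.zero_le _
    omega

theorem gH_map {R' : Type} [CommRing R'] (φ : R →+* R') (L : R) (b : Fin N → R)
    (p : MvPolynomial (Fin N) R) (i : Fin N) :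
    map φ (gH L b p i) = gH (φ L) (fun i => φ (b i)) (map φ p) i := by
  unfold gH
  rw [map_sub, map_neg, map_mul, map_C, map_C, pderiv_map]

theorem gG_map {R' : Type} [CommRing R'] (φ : R →+* R') (e : ℕ) (L : R) (b : Fin N → R)
    (p : MvPolynomial (Fin N) R) :
    map φ (gG e L b p) = gG e (φ L) (fun i => φ (b i)) (map φ p) := by
  have h2 : φ 2 = 2 := map_ofNat φ 2
  unfold gG
  simp [h2]

/-- the partial derivatives of `g` are `2 e` times the equations -/
theorem pderiv_gG {e : ℕ} (he : 1 ≤ e) (L : R) (b : Fin N → R) (p : MvPolynomial (Fin N) R)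
    (i : Fin N) : pderiv i (gG e L b p) = C (2 * (e : R)) * Fs (2 * e - 1) (gH L b p) i := by
  classical
  unfold gG Fs gH
  rw [map_add, map_add, map_sum, map_sum, pderiv_C_mul]
  have h1 : ∑ j, pderiv i (X j ^ (2 * e) : MvPolynomial (Fin N) R) =
      C (2 * (e : R)) * X i ^ (2 * e - 1) := by
    rw [Finset.sum_eq_single i]
    · rw [pderiv_pow, pderiv_X_self, mul_one]
      congr 1
      have h3 : (C (2 : R) : MvPolynomial (Fin N) R) = 2 := map_ofNat C 2
      simp [h3]
    · intro j _ hj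
      rw [pderiv_pow, pderiv_X_of_ne hj, mul_zero]
    · intro h
      exact absurd (Finset.mem_univ i) h
  have h2 : ∑ j, pderiv i (C (2 * (e : R) * b j) * X j : MvPolynomial (Fin N) R) =
      C (2 * (e : R)) * C (b i) := by
    rw [Finset.sum_eq_single i]
    · rw [pderiv_C_mul, pderiv_X_self, mul_one, C_mul]
    · intro j _ hj
      rw [pderiv_C_mul, pderiv_X_of_ne hj, mul_zero]
    · intro h
      exact absurd (Finset.mem_univ i) h
  rw [h1, h2, C_mul (a := 2 * (e : R)) (a' := L)]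
  ring

end Vale.Agent.P337

end

section

/-!
P337, real side: norm bounds for the gradient system.
-/

namespace Vale.Agent.P337

open MvPolynomial

variable {N : ℕ} {R : Type} [CommRing R]

/-- size of an integer polynomial -/
noncomputable def l1 (p : MvPolynomial (Fin N) ℤ) : ℤ := ∑ m ∈ p.support, |coeff m p|

/-- bound for the weighted norm of `g` -/
def thU (N e Q lam B : ℕ) : ℕ :=
  (2 * e * lam * Q + N + 2 * e * N * B + 1) * (2 * e * Q * lam + B + 1) ^ (2 * e)

theorem sysB_deg {e : ℕ} {p : MvPolynomial (Fin N) ℤ} (hp : p.totalDegree < 2 * e)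
    {m : Fin N →₀ ℕ} (hm : m ∈ p.support) : m.degree < 2 * e := by
  refine lt_of_le_of_lt ?_ hp
  have := le_totalDegree hm
  rwa [Finsupp.sum_fintype _ _ (by simp), ← Finsupp.degree_eq_sum] at this

theorem sysB_sum_le {p : MvPolynomial (Fin N) ℤ} {Q : ℕ} (hQ : l1 p ≤ Q) :
    ∑ m ∈ p.support, |((coeff m p : ℤ) : ℝ)| ≤ Q := by
  have h1 : ((l1 p : ℤ) : ℝ) ≤ ((Q : ℤ) : ℝ) := by exact_mod_cast hQ
  have h2 : ((l1 p : ℤ) : ℝ) = ∑ m ∈ p.support, |((coeff m p : ℤ) : ℝ)| := by
    unfold l1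
    push_cast
    rfl
  rw [← h2]
  simpa using h1

theorem sysB_map_eq (φ : ℤ →+* R) (p : MvPolynomial (Fin N) ℤ) :
    map φ p = ∑ m ∈ p.support, monomial m (φ (coeff m p)) := by
  conv_lhs => rw [p.as_sum]
  rw [map_sum]
  apply Finset.sum_congr rfl
  intro m _
  rw [map_monomial]

theorem sysB_wnorm_map_le {ν : R → ℝ} (hν : IsNrm ν) (φ : ℤ →+* R)
    (hφ : ∀ n : ℤ, ν (φ n) ≤ |(n : ℝ)|) {e : ℕ} {p : MvPolynomial (Fin N) ℤ}
    (hp : p.totalDegree < 2 * e) {Q : ℕ} (hQ : l1 p ≤ Q) {t : ℝ} (ht : 1 ≤ t) :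
    wnorm ν t (map φ p) ≤ Q * t ^ (2 * e) := by
  have ht0 : (0 : ℝ) ≤ t := le_trans zero_le_one ht
  rw [sysB_map_eq]
  refine (wnorm_sum_le hν ht0 _ _).trans ?_
  calc ∑ m ∈ p.support, wnorm ν t (monomial m (φ (coeff m p)))
      ≤ ∑ m ∈ p.support, |((coeff m p : ℤ) : ℝ)| * t ^ (2 * e) := by
        apply Finset.sum_le_sum
        intro m hm
        refine (wnorm_monomial_le hν ht0 m _).trans ?_
        exact mul_le_mul (hφ _) (pow_le_pow_right₀ ht (sysB_deg hp hm).le) (pow_nonneg ht0 _)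
          (abs_nonneg _)
    _ = (∑ m ∈ p.support, |((coeff m p : ℤ) : ℝ)|) * t ^ (2 * e) := by rw [Finset.sum_mul]
    _ ≤ Q * t ^ (2 * e) := mul_le_mul_of_nonneg_right (sysB_sum_le hQ) (pow_nonneg ht0 _)

theorem sysB_wnorm_pderiv_le {ν : R → ℝ} (hν : IsNrm ν) (φ : ℤ →+* R)
    (hφ : ∀ n : ℤ, ν (φ n) ≤ |(n : ℝ)|) {e : ℕ} {p : MvPolynomial (Fin N) ℤ}
    (hp : p.totalDegree < 2 * e) {Q : ℕ} (hQ : l1 p ≤ Q) {t : ℝ} (ht : 1 ≤ t) (i : Fin N) :
    wnorm ν t (pderiv i (map φ p)) ≤ 2 * e * Q * t ^ (2 * e - 2) := by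
  have ht0 : (0 : ℝ) ≤ t := le_trans zero_le_one ht
  rw [sysB_map_eq, map_sum]
  refine (wnorm_sum_le hν ht0 _ _).trans ?_
  calc ∑ m ∈ p.support, wnorm ν t (pderiv i (monomial m (φ (coeff m p))))
      ≤ ∑ m ∈ p.support, |((coeff m p : ℤ) : ℝ)| * (2 * e * t ^ (2 * e - 2)) := by
        apply Finset.sum_le_sum
        intro m hm
        rw [pderiv_monomial]
        refine (wnorm_monomial_le hν ht0 _ _).trans ?_
        have hdeg := sysB_deg hp hm
        have hmi : m i ≤ m.degree := by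
          rw [Finsupp.degree_eq_sum]
          exact Finset.single_le_sum (f := fun j => m j) (fun j _ => Nat.zero_le _)
            (Finset.mem_univ i)
        have h1 : φ (coeff m p) * ((m i : ℕ) : R) = φ (coeff m p * (m i : ℤ)) := by
          rw [map_mul]
          simp
        have h2 : ν (φ (coeff m p) * ((m i : ℕ) : R)) ≤ |((coeff m p : ℤ) : ℝ)| * (m i : ℝ) := by
          rw [h1]
          refine (hφ _).trans ?_
          push_cast
          rw [abs_mul, abs_of_nonneg (by positivity : (0 : ℝ) ≤ (m i : ℝ))]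
        rcases Nat.eq_zero_or_pos (m i) with h0 | hpos
        · rw [h0] at h2 ⊢
          have h3 : ν (φ (coeff m p) * ((0 : ℕ) : R)) ≤ 0 := by simpa using h2
          have h4 : ν (φ (coeff m p) * ((0 : ℕ) : R)) = 0 := le_antisymm h3 (hν.nonneg _)
          rw [h4, zero_mul]
          positivity
        · have hd2 : (m - Finsupp.single i 1).degree ≤ 2 * e - 2 := by
            have h5 : m = (m - Finsupp.single i 1) + Finsupp.single i 1 := by
              rw [tsub_add_cancel_of_le]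
              rw [Finsupp.single_le_iff]
              exact hpos
            have h6 : m.degree = (m - Finsupp.single i 1).degree + 1 := by
              conv_lhs => rw [h5]
              rw [map_add, Finsupp.degree_single]
            omega
          have h7 : (m i : ℝ) ≤ 2 * e := by
            have : m i ≤ 2 * e := by omega
            exact_mod_cast this
          have h8 : ν (φ (coeff m p) * ((m i : ℕ) : R)) ≤ |((coeff m p : ℤ) : ℝ)| * (2 * e) :=
            h2.trans (mul_le_mul_of_nonneg_left h7 (abs_nonneg _))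
          calc ν (φ (coeff m p) * ((m i : ℕ) : R)) * t ^ (m - Finsupp.single i 1).degree
              ≤ |((coeff m p : ℤ) : ℝ)| * (2 * e) * t ^ (2 * e - 2) :=
                mul_le_mul h8 (pow_le_pow_right₀ ht hd2) (pow_nonneg ht0 _) (by positivity)
            _ = _ := by ring
    _ = (∑ m ∈ p.support, |((coeff m p : ℤ) : ℝ)|) * (2 * e * t ^ (2 * e - 2)) := by
        rw [Finset.sum_mul]
    _ ≤ Q * (2 * e * t ^ (2 * e - 2)) :=
        mul_le_mul_of_nonneg_right (sysB_sum_le hQ) (by positivity)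
    _ = _ := by ring

theorem sysB_wnorm_C_le {ν : R → ℝ} (hν : IsNrm ν) {t : ℝ} (ht : 0 ≤ t) (c : R) :
    wnorm ν t (C c : MvPolynomial (Fin N) R) ≤ ν c := by
  have := wnorm_monomial_le (N := N) hν ht 0 c
  simpa using this

theorem sysB_t_ge (e Q lam B : ℕ) : (1 : ℝ) ≤ ((2 * e * Q * lam + B + 1 : ℕ) : ℝ) := by
  exact_mod_cast Nat.le_add_left 1 _

theorem wnorm_gH_le {ν : R → ℝ} (hν : IsNrm ν) (φ : ℤ →+* R) (hφ : ∀ n : ℤ, ν (φ n) ≤ |(n : ℝ)|)
    {e : ℕ} (he : 2 ≤ e) {p : MvPolynomial (Fin N) ℤ} (hp : p.totalDegree < 2 * e) {Q lam B : ℕ}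
    (hQ : l1 p ≤ Q) {L : R} (hL : ν L ≤ lam) {b : Fin N → R} (hb : ∀ i, ν (b i) ≤ B) (i : Fin N) :
    wnorm ν ((2 * e * Q * lam + B + 1 : ℕ) : ℝ) (gH L b (map φ p) i) ≤
      ((2 * e * Q * lam + B + 1 : ℕ) : ℝ) ^ (2 * e - 1) := by
  have ht := sysB_t_ge e Q lam B
  set t : ℝ := ((2 * e * Q * lam + B + 1 : ℕ) : ℝ) with htdef
  have ht0 : (0 : ℝ) ≤ t := le_trans zero_le_one ht
  have htval : t = 2 * e * Q * lam + B + 1 := by rw [htdef]; push_cast; ring
  unfold gH
  have h1 : wnorm ν t (-(C L * pderiv i (map φ p)) - C (b i)) ≤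
      wnorm ν t (C L * pderiv i (map φ p)) + wnorm ν t (C (b i) : MvPolynomial (Fin N) R) := by
    rw [sub_eq_add_neg]
    refine (wnorm_add_le hν ht0 _ _).trans ?_
    rw [wnorm_neg hν, wnorm_neg hν]
  refine h1.trans ?_
  have h2 : wnorm ν t (C L * pderiv i (map φ p)) ≤ lam * (2 * e * Q * t ^ (2 * e - 2)) := by
    refine (wnorm_mul_le hν ht0 _ _).trans ?_
    exact mul_le_mul ((sysB_wnorm_C_le hν ht0 L).trans hL)
      (sysB_wnorm_pderiv_le hν φ hφ hp hQ ht i) (wnorm_nonneg hν ht0 _) (by positivity)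
  have h3 : wnorm ν t (C (b i) : MvPolynomial (Fin N) R) ≤ B :=
    (sysB_wnorm_C_le hν ht0 _).trans (hb i)
  have hpow : (1 : ℝ) ≤ t ^ (2 * e - 2) := one_le_pow₀ ht
  have h4 : t ^ (2 * e - 1) = t * t ^ (2 * e - 2) := by
    rw [← pow_succ']
    congr 1
    omega
  rw [h4]
  calc wnorm ν t (C L * pderiv i (map φ p)) + wnorm ν t (C (b i) : MvPolynomial (Fin N) R)
      ≤ lam * (2 * e * Q * t ^ (2 * e - 2)) + B := add_le_add h2 h3
    _ ≤ lam * (2 * e * Q * t ^ (2 * e - 2)) + B * t ^ (2 * e - 2) + t ^ (2 * e - 2) := by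
        have hB : (0 : ℝ) ≤ B := by positivity
        nlinarith [mul_le_mul_of_nonneg_left hpow hB]
    _ = (2 * e * Q * lam + B + 1) * t ^ (2 * e - 2) := by ring
    _ = t * t ^ (2 * e - 2) := by rw [← htval]

theorem wnorm_gG_le {ν : R → ℝ} (hν : IsNrm ν) (φ : ℤ →+* R) (hφ : ∀ n : ℤ, ν (φ n) ≤ |(n : ℝ)|)
    {e : ℕ} (he : 2 ≤ e) {p : MvPolynomial (Fin N) ℤ} (hp : p.totalDegree < 2 * e) {Q lam B : ℕ}
    (hQ : l1 p ≤ Q) {L : R} (hL : ν L ≤ lam) {b : Fin N → R} (hb : ∀ i, ν (b i) ≤ B) :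
    wnorm ν ((2 * e * Q * lam + B + 1 : ℕ) : ℝ) (gG e L b (map φ p)) ≤ (thU N e Q lam B : ℕ) := by
  have ht := sysB_t_ge e Q lam B
  have hcast : ((thU N e Q lam B : ℕ) : ℝ) = (2 * e * lam * Q + N + 2 * e * N * B + 1) *
      ((2 * e * Q * lam + B + 1 : ℕ) : ℝ) ^ (2 * e) := by
    unfold thU
    push_cast
    ring
  rw [hcast]
  set t : ℝ := ((2 * e * Q * lam + B + 1 : ℕ) : ℝ) with htdef
  have ht0 : (0 : ℝ) ≤ t := le_trans zero_le_one ht
  have h2e : ∀ c : R, ν (2 * (e : R) * c) ≤ 2 * e * ν c := by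
    intro c
    refine (hν.mul_le _ _).trans (mul_le_mul_of_nonneg_right ?_ (hν.nonneg _))
    have h1 : (2 * (e : R)) = φ (2 * (e : ℤ)) := by simp
    rw [h1]
    refine (hφ _).trans ?_
    push_cast
    rw [abs_of_nonneg (by positivity)]
  unfold gG
  have hA : wnorm ν t (C (2 * (e : R) * L) * map φ p) ≤ 2 * e * lam * Q * t ^ (2 * e) := by
    refine (wnorm_mul_le hν ht0 _ _).trans ?_
    have h1 : wnorm ν t (C (2 * (e : R) * L) : MvPolynomial (Fin N) R) ≤ 2 * e * lam :=
      (sysB_wnorm_C_le hν ht0 _).trans ((h2e L).trans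
        (mul_le_mul_of_nonneg_left hL (by positivity)))
    calc wnorm ν t (C (2 * (e : R) * L) : MvPolynomial (Fin N) R) * wnorm ν t (map φ p)
        ≤ (2 * e * lam) * (Q * t ^ (2 * e)) :=
          mul_le_mul h1 (sysB_wnorm_map_le hν φ hφ hp hQ ht) (wnorm_nonneg hν ht0 _)
            (by positivity)
      _ = _ := by ring
  have hX : wnorm ν t (∑ i : Fin N, X i ^ (2 * e) : MvPolynomial (Fin N) R) ≤
      N * t ^ (2 * e) := by
    refine (wnorm_sum_le hν ht0 _ _).trans ?_
    have h1 : ∀ i ∈ (Finset.univ : Finset (Fin N)),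
        wnorm ν t (X i ^ (2 * e) : MvPolynomial (Fin N) R) ≤ t ^ (2 * e) := by
      intro i _
      rw [X_pow_eq_monomial]
      refine (wnorm_monomial_le hν ht0 _ _).trans ?_
      rw [Finsupp.degree_single]
      calc ν 1 * t ^ (2 * e) ≤ 1 * t ^ (2 * e) :=
            mul_le_mul_of_nonneg_right hν.one (pow_nonneg ht0 _)
        _ = _ := one_mul _
    refine (Finset.sum_le_sum h1).trans ?_
    simp
  have hB : wnorm ν t (∑ i : Fin N, C (2 * (e : R) * b i) * X i : MvPolynomial (Fin N) R) ≤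
      2 * e * N * B * t ^ (2 * e) := by
    refine (wnorm_sum_le hν ht0 _ _).trans ?_
    have h1 : ∀ i ∈ (Finset.univ : Finset (Fin N)),
        wnorm ν t (C (2 * (e : R) * b i) * X i : MvPolynomial (Fin N) R) ≤
          2 * e * B * t ^ (2 * e) := by
      intro i _
      rw [C_mul_X_eq_monomial]
      refine (wnorm_monomial_le hν ht0 _ _).trans ?_
      rw [Finsupp.degree_single]
      have h2 : ν (2 * (e : R) * b i) ≤ 2 * e * B :=
        (h2e (b i)).trans (mul_le_mul_of_nonneg_left (hb i) (by positivity))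
      exact mul_le_mul h2 (pow_le_pow_right₀ ht (by omega)) (pow_nonneg ht0 _) (by positivity)
    refine (Finset.sum_le_sum h1).trans ?_
    simp only [Finset.sum_const, Finset.card_univ, Fintype.card_fin, nsmul_eq_mul]
    apply le_of_eq
    ring
  refine (wnorm_add_le hν ht0 _ _).trans ?_
  have h5 := wnorm_add_le hν ht0 (C (2 * (e : R) * L) * map φ p)
    (∑ i : Fin N, X i ^ (2 * e) : MvPolynomial (Fin N) R)
  have hpow : (0 : ℝ) ≤ t ^ (2 * e) := pow_nonneg ht0 _
  nlinarith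

end Vale.Agent.P337

end

section

/-!
P337, real side: the polynomial relation for the critical values.
-/

namespace Vale.Agent.P337

open MvPolynomial

variable {N : ℕ}

/-- real version of an integer polynomial -/
noncomputable abbrev toR (p : MvPolynomial (Fin N) ℤ) : MvPolynomial (Fin N) ℝ :=
  map (Int.castRingHom ℝ) p

section gapPolyAux

theorem gapPoly_pnorm_monomial_le {R : Type} [CommRing R] {ν : R → ℝ} (hν : IsNrm ν) {u : ℝ}
    (hu : 0 ≤ u) (n : ℕ) (a : R) : pnorm ν u (Polynomial.monomial n a) ≤ ν a * u ^ n := by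
  unfold pnorm
  have h1 : ∑ i ∈ (Polynomial.monomial n a).support,
      ν ((Polynomial.monomial n a).coeff i) * u ^ i
      ≤ ∑ i ∈ {n}, ν ((Polynomial.monomial n a).coeff i) * u ^ i :=
    Finset.sum_le_sum_of_subset_of_nonneg (Polynomial.support_monomial_subset n a)
      fun i _ _ => mul_nonneg (hν.nonneg _) (pow_nonneg hu _)
  refine h1.trans ?_
  rw [Finset.sum_singleton, Polynomial.coeff_monomial, if_pos rfl]

theorem gapPoly_pnorm_C_le {R : Type} [CommRing R] {ν : R → ℝ} (hν : IsNrm ν) {u : ℝ}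
    (hu : 0 ≤ u) (a : R) : pnorm ν u (Polynomial.C a) ≤ ν a := by
  have h := gapPoly_pnorm_monomial_le hν hu 0 a
  rwa [Polynomial.monomial_zero_left, pow_zero, mul_one] at h

theorem gapPoly_pnorm_X_le {R : Type} [CommRing R] {ν : R → ℝ} (hν : IsNrm ν) {u : ℝ}
    (hu : 0 ≤ u) : pnorm ν u (Polynomial.X : Polynomial R) ≤ u := by
  have h := gapPoly_pnorm_monomial_le hν hu 1 (1 : R)
  rw [Polynomial.monomial_one_one_eq_X, pow_one] at h
  refine h.trans ?_
  calc ν 1 * u ≤ 1 * u := mul_le_mul_of_nonneg_right hν.one hu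
    _ = u := one_mul u

theorem gapPoly_wnorm_C_le {R : Type} [CommRing R] {ν : R → ℝ} (hν : IsNrm ν) {t : ℝ}
    (ht : 0 ≤ t) (a : R) : wnorm ν t (C a : MvPolynomial (Fin N) R) ≤ ν a := by
  have h := wnorm_monomial_le hν ht (0 : Fin N →₀ ℕ) a
  rw [map_zero, pow_zero, mul_one] at h
  exact h

theorem gapPoly_totalDegree_map_le {R S : Type} [CommRing R] [CommRing S] (θ : R →+* S)
    (p : MvPolynomial (Fin N) R) : (map θ p).totalDegree ≤ p.totalDegree := by
  unfold totalDegree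
  exact Finset.sup_mono (support_map_subset _ _)

theorem gapPoly_mmat_sub {R : Type} [CommRing R] {d : ℕ} (hd : 1 ≤ d)
    {H : Fin N → MvPolynomial (Fin N) R} (hH : ∀ i, (H i).totalDegree < d)
    (g h : MvPolynomial (Fin N) R) :
    mmat hd hH (g - h) = mmat hd hH g - mmat hd hH h := by
  simp [mmat]

theorem gapPoly_mmat_congr {R : Type} [CommRing R] {d : ℕ} (hd : 1 ≤ d)
    {H H' : Fin N → MvPolynomial (Fin N) R} (hH : ∀ i, (H i).totalDegree < d)
    (hH' : ∀ i, (H' i).totalDegree < d) (h : H = H') {g g' : MvPolynomial (Fin N) R}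
    (hg : g = g') : mmat hd hH g = mmat hd hH' g' := by
  subst h
  subst hg
  rfl

/-- base change for the multiplication matrices of the gradient system -/
theorem gapPoly_mmat_map {R R' : Type} [CommRing R] [CommRing R'] (θ : R →+* R') {e : ℕ}
    (he : 2 ≤ e) (hd : 1 ≤ 2 * e - 1) {p : MvPolynomial (Fin N) R} (hp : p.totalDegree < 2 * e)
    {p' : MvPolynomial (Fin N) R'} (hp' : p'.totalDegree < 2 * e) (hpp : map θ p = p')
    {L : R} {L' : R'} (hL : θ L = L') {g : MvPolynomial (Fin N) R}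
    {g' : MvPolynomial (Fin N) R'} (hg : map θ g = g') :
    (mmat hd (gH_totalDegree he L 0 hp) g).map θ =
      mmat hd (gH_totalDegree he L' 0 hp') g' := by
  subst hpp
  subst hL
  have hHeq : (fun i => map θ (gH L 0 p i)) = gH (θ L) 0 (map θ p) := by
    funext i
    rw [gH_map]
    congr 1
    funext i
    simp
  have hH' : ∀ i, (map θ (gH L 0 p i)).totalDegree < 2 * e - 1 := fun i =>
    lt_of_le_of_lt (gapPoly_totalDegree_map_le _ _) (gH_totalDegree he L 0 hp i)
  rw [← mmat_map θ hd (gH_totalDegree he L 0 hp) hH' g]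
  exact gapPoly_mmat_congr hd hH' _ hHeq hg

/-- base change for `g` -/
theorem gapPoly_gG_map {R R' : Type} [CommRing R] [CommRing R'] (θ : R →+* R') (e : ℕ) (L : R)
    (p : MvPolynomial (Fin N) R) : map θ (gG e L 0 p) = gG e (θ L) 0 (map θ p) := by
  rw [gG_map]
  congr 1
  funext i
  simp

/-- the determinant of `c - g` is the value at `c` of the characteristic polynomial -/
theorem gapPoly_det_eq {R : Type} [CommRing R] {d : ℕ} (hd : 1 ≤ d)
    {H : Fin N → MvPolynomial (Fin N) R} (hH : ∀ i, (H i).totalDegree < d) (c : R)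
    (g : MvPolynomial (Fin N) R) :
    (mmat hd hH (C c - g)).det = (mmat hd hH g).charpoly.eval c := by
  rw [gapPoly_mmat_sub, mmat_C, Matrix.eval_charpoly]

/-- specialisation `L = 0` -/
theorem gapPoly_det_ne_zero {R : Type} [CommRing R] (φ : ℤ →+* R) (ψ : R →+* Polynomial ℤ)
    {e : ℕ} (he : 2 ≤ e) (hd : 1 ≤ 2 * e - 1) {p : MvPolynomial (Fin N) ℤ}
    (hp : p.totalDegree < 2 * e) (hp' : (map φ p).totalDegree < 2 * e) {L c : R}
    (hL : ψ L = Polynomial.C 0) (hc : ψ c = Polynomial.X) :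
    (mmat hd (gH_totalDegree he L 0 hp') (C c - gG e L 0 (map φ p))).det ≠ 0 := by
  intro h0
  have hp2 : (map (Polynomial.C : ℤ →+* Polynomial ℤ) p).totalDegree < 2 * e :=
    lt_of_le_of_lt (gapPoly_totalDegree_map_le _ _) hp
  have hcomp : map ψ (map φ p) = map (Polynomial.C : ℤ →+* Polynomial ℤ) p := by
    rw [map_map, RingHom.ext_int (ψ.comp φ) (Polynomial.C : ℤ →+* Polynomial ℤ)]
  have h1 := congrArg ψ h0
  rw [RingHom.map_det, RingHom.mapMatrix_apply, map_zero] at h1
  have h2 : map ψ (C c - gG e L 0 (map φ p)) = C Polynomial.X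
      - gG e (Polynomial.C 0) 0 (map (Polynomial.C : ℤ →+* Polynomial ℤ) p) := by
    rw [map_sub, map_C, gapPoly_gG_map, hL, hc, hcomp]
  rw [gapPoly_mmat_map ψ he hd hp' hp2 hcomp hL h2, gapPoly_mmat_sub, mmat_C] at h1
  have h3 := gapPoly_mmat_map (Polynomial.C : ℤ →+* Polynomial ℤ) he hd hp hp2 rfl
    (L := (0 : ℤ)) rfl (gapPoly_gG_map Polynomial.C e 0 p)
  rw [← h3] at h1
  have h4 : (mmat hd (gH_totalDegree he (0 : ℤ) 0 hp) (gG e 0 0 p)).charpoly = 0 := by
    rw [Matrix.charpoly, Matrix.charmatrix]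
    exact h1
  exact (Matrix.charpoly_monic _).ne_zero h4

/-- the norm bound -/
theorem gapPoly_det_le {R : Type} [CommRing R] {ν : R → ℝ} (hν : IsNrm ν) (φ : ℤ →+* R)
    (hφ : ∀ n : ℤ, ν (φ n) ≤ |(n : ℝ)|)
    {e : ℕ} (he : 2 ≤ e) (hd : 1 ≤ 2 * e - 1) {p : MvPolynomial (Fin N) ℤ}
    (hp : p.totalDegree < 2 * e) (hp' : (map φ p).totalDegree < 2 * e) {Q : ℕ} (hQ : l1 p ≤ Q)
    {L c : R} (hL : ν L ≤ 1) {u : ℝ} (hc : ν c ≤ u) :
    ν (mmat hd (gH_totalDegree he L 0 hp') (C c - gG e L 0 (map φ p))).det ≤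
      (u + (thU N e Q 1 0 : ℕ)) ^ ((2 * e - 1) ^ N) := by
  have hL' : ν L ≤ ((1 : ℕ) : ℝ) := by
    rw [Nat.cast_one]
    exact hL
  have hb : ∀ i : Fin N, ν ((0 : Fin N → R) i) ≤ ((0 : ℕ) : ℝ) := by
    intro i
    rw [Pi.zero_apply, hν.zero, Nat.cast_zero]
  have ht : (1 : ℝ) ≤ ((2 * e * Q * 1 + 0 + 1 : ℕ) : ℝ) := by
    exact_mod_cast Nat.le_add_left 1 _
  have ht0 : (0 : ℝ) ≤ ((2 * e * Q * 1 + 0 + 1 : ℕ) : ℝ) := zero_le_one.trans ht
  have h1 := mmat_det_le hν ht hd (gH_totalDegree he L 0 hp')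
    (wnorm_gH_le (lam := 1) (B := 0) hν φ hφ he hp hQ hL' hb) (C c - gG e L 0 (map φ p))
  refine h1.trans (pow_le_pow_left₀ (wnorm_nonneg hν ht0 _) ?_ _)
  rw [sub_eq_add_neg]
  refine (wnorm_add_le hν ht0 _ _).trans (add_le_add ?_ ?_)
  · exact (gapPoly_wnorm_C_le hν ht0 _).trans hc
  · rw [wnorm_neg hν]
    exact wnorm_gG_le (lam := 1) (B := 0) hν φ hφ he hp hQ hL' hb

/-- vanishing at the critical values -/
theorem gapPoly_det_eq_zero {R : Type} [CommRing R] (φ : ℤ →+* R) (θ : R →+* ℝ)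
    {e : ℕ} (he : 2 ≤ e) (hd : 1 ≤ 2 * e - 1) {p : MvPolynomial (Fin N) ℤ}
    (hp : p.totalDegree < 2 * e) (hp' : (map φ p).totalDegree < 2 * e) {L c : R} {L' : ℝ}
    (hL : θ L = L') (ξ : Fin N → ℝ)
    (hξ : ∀ i, eval ξ (Fs (2 * e - 1) (gH L' 0 (toR p)) i) = 0)
    (hc : θ c = eval ξ (gG e L' 0 (toR p))) :
    θ (mmat hd (gH_totalDegree he L 0 hp') (C c - gG e L 0 (map φ p))).det = 0 := by
  have hp2 : (toR p).totalDegree < 2 * e := lt_of_le_of_lt (gapPoly_totalDegree_map_le _ _) hp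
  have hcomp : map θ (map φ p) = toR p := by
    rw [map_map, RingHom.ext_int (θ.comp φ) (Int.castRingHom ℝ)]
  have h2 : map θ (C c - gG e L 0 (map φ p)) = C (θ c) - gG e L' 0 (toR p) := by
    rw [map_sub, map_C, gapPoly_gG_map, hL, hcomp]
  rw [RingHom.map_det, RingHom.mapMatrix_apply,
    gapPoly_mmat_map θ he hd hp' hp2 hcomp hL h2, gapPoly_det_eq, hc]
  exact mmat_eigen hd _ _ ξ hξ

/-- the embedding of the integers in `ℤ[c][L]` -/
noncomputable def gapPhi : ℤ →+* Polynomial (Polynomial ℤ) :=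
  (Polynomial.C : Polynomial ℤ →+* Polynomial (Polynomial ℤ)).comp
    (Polynomial.C : ℤ →+* Polynomial ℤ)

/-- the determinant as a polynomial in two variables -/
noncomputable def gapChi {e : ℕ} (he : 2 ≤ e) (hd : 1 ≤ 2 * e - 1) {p : MvPolynomial (Fin N) ℤ}
    (hp' : (map gapPhi p).totalDegree < 2 * e) : Polynomial (Polynomial ℤ) :=
  (mmat hd (gH_totalDegree he (Polynomial.X : Polynomial (Polynomial ℤ)) 0 hp')
    (C (Polynomial.C (Polynomial.X : Polynomial ℤ) : Polynomial (Polynomial ℤ)) -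
      gG e (Polynomial.X : Polynomial (Polynomial ℤ)) 0 (map gapPhi p))).det

theorem gapChi_norm_le {e : ℕ} (he : 2 ≤ e) (hd : 1 ≤ 2 * e - 1) {p : MvPolynomial (Fin N) ℤ}
    (hp : p.totalDegree < 2 * e) (hp' : (map gapPhi p).totalDegree < 2 * e) {Q : ℕ}
    (hQ : l1 p ≤ Q) {u : ℝ} (hu : 0 ≤ u) :
    pnorm (pnorm (fun a : ℤ => |(a : ℝ)|) u) 1 (gapChi he hd hp') ≤
      (u + (thU N e Q 1 0 : ℕ)) ^ ((2 * e - 1) ^ N) := by
  have hν1 : IsNrm (pnorm (fun a : ℤ => |(a : ℝ)|) u) := isNrm_pnorm isNrm_int hu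
  have hν : IsNrm (pnorm (pnorm (fun a : ℤ => |(a : ℝ)|) u) 1) :=
    isNrm_pnorm hν1 zero_le_one
  have h1 : ∀ n : ℤ, pnorm (pnorm (fun a : ℤ => |(a : ℝ)|) u) 1 (gapPhi n) ≤ |(n : ℝ)| :=
    fun n => (gapPoly_pnorm_C_le hν1 zero_le_one _).trans (gapPoly_pnorm_C_le isNrm_int hu _)
  have h2 : pnorm (pnorm (fun a : ℤ => |(a : ℝ)|) u) 1
      (Polynomial.X : Polynomial (Polynomial ℤ)) ≤ 1 := gapPoly_pnorm_X_le hν1 zero_le_one
  have h3 : pnorm (pnorm (fun a : ℤ => |(a : ℝ)|) u) 1
      (Polynomial.C Polynomial.X : Polynomial (Polynomial ℤ)) ≤ u :=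
    (gapPoly_pnorm_C_le hν1 zero_le_one _).trans (gapPoly_pnorm_X_le isNrm_int hu)
  exact gapPoly_det_le hν gapPhi h1 he hd hp hp' hQ h2 h3

theorem gapChi_ne_zero {e : ℕ} (he : 2 ≤ e) (hd : 1 ≤ 2 * e - 1) {p : MvPolynomial (Fin N) ℤ}
    (hp : p.totalDegree < 2 * e) (hp' : (map gapPhi p).totalDegree < 2 * e) :
    gapChi he hd hp' ≠ 0 :=
  gapPoly_det_ne_zero gapPhi (Polynomial.evalRingHom (0 : Polynomial ℤ)) he hd hp hp'
    (by simp) (by simp)

/-- evaluation at real values of `L` and `c` -/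
noncomputable def gapTheta (L c : ℝ) : Polynomial (Polynomial ℤ) →+* ℝ :=
  (Polynomial.evalRingHom c).comp ((Polynomial.evalRingHom (Polynomial.C L)).comp
    (Polynomial.mapRingHom (Polynomial.mapRingHom (Int.castRingHom ℝ))))

theorem gapTheta_apply (L c : ℝ) (χ : Polynomial (Polynomial ℤ)) :
    gapTheta L c χ = Polynomial.eval c (Polynomial.eval (Polynomial.C L)
      (χ.map (Polynomial.mapRingHom (Int.castRingHom ℝ)))) := rfl

theorem gapTheta_X (L c : ℝ) : gapTheta L c Polynomial.X = L := by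
  rw [gapTheta_apply, Polynomial.map_X, Polynomial.eval_X, Polynomial.eval_C]

theorem gapTheta_CX (L c : ℝ) : gapTheta L c (Polynomial.C Polynomial.X) = c := by
  rw [gapTheta_apply, Polynomial.map_C, Polynomial.eval_C, Polynomial.coe_mapRingHom,
    Polynomial.map_X, Polynomial.eval_X]

theorem gapChi_vanish {e : ℕ} (he : 2 ≤ e) (hd : 1 ≤ 2 * e - 1) {p : MvPolynomial (Fin N) ℤ}
    (hp : p.totalDegree < 2 * e) (hp' : (map gapPhi p).totalDegree < 2 * e) (L : ℝ)
    (ξ : Fin N → ℝ) (hξ : ∀ i, eval ξ (Fs (2 * e - 1) (gH L 0 (toR p)) i) = 0) :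
    gapTheta L (eval ξ (gG e L 0 (toR p))) (gapChi he hd hp') = 0 :=
  gapPoly_det_eq_zero gapPhi (gapTheta L (eval ξ (gG e L 0 (toR p)))) he hd hp hp'
    (gapTheta_X _ _) ξ hξ (gapTheta_CX _ _)

end gapPolyAux

/-- a polynomial relation between the factor `L` (outer variable) and the critical values
(inner variable), with bounded coefficients -/
theorem exists_gapPoly {e : ℕ} (he : 2 ≤ e) {p : MvPolynomial (Fin N) ℤ}
    (hp : p.totalDegree < 2 * e) {Q : ℕ} (hQ : l1 p ≤ Q) :
    ∃ χ : Polynomial (Polynomial ℤ), χ ≠ 0 ∧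
      (∀ u : ℝ, 0 ≤ u → pnorm (pnorm (fun a : ℤ => |(a : ℝ)|) u) 1 χ ≤
        (u + (thU N e Q 1 0 : ℕ)) ^ ((2 * e - 1) ^ N)) ∧
      ∀ (L : ℝ) (ξ : Fin N → ℝ), (∀ i, eval ξ (Fs (2 * e - 1) (gH L 0 (toR p)) i) = 0) →
        Polynomial.eval (eval ξ (gG e L 0 (toR p)))
          (Polynomial.eval (Polynomial.C L)
            (χ.map (Polynomial.mapRingHom (Int.castRingHom ℝ)))) = 0 := by
  have hd : 1 ≤ 2 * e - 1 := by omega
  have hp' : (map gapPhi p).totalDegree < 2 * e :=
    lt_of_le_of_lt (gapPoly_totalDegree_map_le _ _) hp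
  refine ⟨gapChi he hd hp', gapChi_ne_zero he hd hp hp',
    fun u hu => gapChi_norm_le he hd hp hp' hQ hu, fun L ξ hξ => ?_⟩
  have h := gapChi_vanish he hd hp hp' L ξ hξ
  rwa [gapTheta_apply] at h

end Vale.Agent.P337

end

section

/-!
P337, real side: the minimum is attained.
-/

namespace Vale.Agent.P337

open MvPolynomial

variable {N : ℕ}

/-- the partial derivative along a coordinate line -/
theorem mvp_hasDerivAt (x : Fin N → ℝ) (i : Fin N) (p : MvPolynomial (Fin N) ℝ) :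
    HasDerivAt (fun t : ℝ => eval (Function.update x i t) p) (eval x (pderiv i p)) (x i) := by
  induction p using MvPolynomial.induction_on with
  | C a =>
    simp only [eval_C, pderiv_C, map_zero]
    exact hasDerivAt_const _ _
  | add p q hp hq =>
    simp only [map_add]
    exact hp.add hq
  | mul_X p j hp =>
    have h1 : HasDerivAt (fun t : ℝ => Function.update x i t j) (if i = j then 1 else 0) (x i) := by
      by_cases hij : i = j
      · subst hij
        simp only [Function.update_self, if_true]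
        exact hasDerivAt_id _
      · simp only [Function.update_of_ne (Ne.symm hij), if_neg hij]
        exact hasDerivAt_const _ _
    have h2 := hp.mul h1
    rw [Function.update_eq_self] at h2
    simp only [eval_mul, eval_X, pderiv_mul, map_add]
    have h3 : eval x (pderiv i (X j : MvPolynomial (Fin N) ℝ)) = if i = j then 1 else 0 := by
      rw [pderiv_X]
      by_cases hij : i = j
      · subst hij
        simp
      · rw [Pi.single_eq_of_ne (Ne.symm hij)]
        simp [hij]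
    rw [h3]
    exact h2

theorem one_var_lower {e : ℕ} (he : 2 ≤ e) (b t : ℝ) :
    t ^ 2 / 2 - (1 + 2 * (e : ℝ) ^ 2 * b ^ 2) ≤ t ^ (2 * e) + 2 * (e : ℝ) * b * t := by
  have h1 : t ^ 2 - 1 ≤ t ^ (2 * e) := by
    rw [pow_mul]
    by_cases h : 1 ≤ t ^ 2
    · have h2 : (t ^ 2) ^ 1 ≤ (t ^ 2) ^ e := pow_le_pow_right₀ h (by omega)
      rw [pow_one] at h2
      linarith
    · have h2 : 0 ≤ (t ^ 2) ^ e := by positivity
      push Not at h
      linarith
  nlinarith [sq_nonneg (t + 2 * (e : ℝ) * b)]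

/-- the minimum of `2 e L p + ∑ x_i ^ (2 e)` is attained, at a solution of the system -/
theorem exists_min {e : ℕ} (he : 2 ≤ e) {p : MvPolynomial (Fin N) ℝ}
    (hpos : ∀ x, 0 ≤ eval x p) {L : ℝ} (hL : 0 ≤ L) (b : Fin N → ℝ) :
    ∃ ξ : Fin N → ℝ, (∀ x, eval ξ (gG e L b p) ≤ eval x (gG e L b p)) ∧
      ∀ i, eval ξ (Fs (2 * e - 1) (gH L b p) i) = 0 := by
  have heval : ∀ x : Fin N → ℝ, eval x (gG e L b p) =
      2 * (e : ℝ) * L * eval x p + ∑ i, (x i ^ (2 * e) + 2 * (e : ℝ) * b i * x i) := by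
    intro x
    unfold gG
    simp only [map_add, map_mul, map_sum, map_pow, eval_C, eval_X, Finset.sum_add_distrib]
    ring
  set K : ℝ := ∑ i, (1 + 2 * (e : ℝ) ^ 2 * b i ^ 2) with hK
  have hlow : ∀ x : Fin N → ℝ, ∑ i, x i ^ 2 / 2 - K ≤ eval x (gG e L b p) := by
    intro x
    rw [heval, hK, ← Finset.sum_sub_distrib]
    have h1 : 0 ≤ 2 * (e : ℝ) * L * eval x p := by
      have := hpos x
      positivity
    have h2 := Finset.sum_le_sum (fun i (_ : i ∈ (Finset.univ : Finset (Fin N))) =>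
      one_var_lower he (b i) (x i))
    linarith
  have hcont : Continuous (fun x : Fin N → ℝ => eval x (gG e L b p)) :=
    MvPolynomial.continuous_eval _
  set g0 : ℝ := eval 0 (gG e L b p) with hg0
  obtain ⟨ξ, hξ⟩ := hcont.exists_forall_le' (0 : Fin N → ℝ) (by
    set R : ℝ := 2 * (|g0| + |K|) + 1 with hR
    have hR1 : 1 ≤ R := by
      have := abs_nonneg g0
      have := abs_nonneg K
      linarith
    filter_upwards [(isCompact_closedBall (0 : Fin N → ℝ) R).compl_mem_cocompact] with x hx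
    rw [Set.mem_compl_iff, mem_closedBall_zero_iff, not_le] at hx
    obtain ⟨i, hi⟩ : ∃ i, R < |x i| := by
      by_contra hcon
      push Not at hcon
      have h1 : ‖x‖ ≤ R := by
        rw [pi_norm_le_iff_of_nonneg (by linarith)]
        intro i
        exact hcon i
      linarith
    have h2 : x i ^ 2 / 2 ≤ ∑ i, x i ^ 2 / 2 :=
      Finset.single_le_sum (f := fun i => x i ^ 2 / 2) (fun j _ => by positivity)
        (Finset.mem_univ i)
    have h3 : R ≤ x i ^ 2 := by
      have h4 : R ^ 2 ≤ |x i| ^ 2 := by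
        apply pow_le_pow_left₀ (by linarith) hi.le
      rw [sq_abs] at h4
      nlinarith
    have h5 := hlow x
    have h6 := le_abs_self g0
    have h7 := le_abs_self K
    linarith)
  refine ⟨ξ, hξ, ?_⟩
  intro i
  have h1 := mvp_hasDerivAt ξ i (gG e L b p)
  have h2 : IsLocalMin (fun t : ℝ => eval (Function.update ξ i t) (gG e L b p)) (ξ i) := by
    refine Filter.Eventually.of_forall ?_
    intro t
    simp only [Function.update_eq_self]
    exact hξ _
  have h3 := h2.hasDerivAt_eq_zero h1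
  rw [pderiv_gG (by omega), map_mul, eval_C] at h3
  have h4 : (2 * (e : ℝ)) ≠ 0 := by
    have : (2 : ℝ) ≤ e := by exact_mod_cast he
    positivity
  exact (mul_eq_zero.mp h3).resolve_left h4

end Vale.Agent.P337

end

section

/-!
P337, real side: no small values without zeros.
-/

namespace Vale.Agent.P337

open MvPolynomial

variable {N : ℕ}

/-- root bound for integer polynomials -/
private theorem gp_root_bound {P : Polynomial ℤ} (hP : P ≠ 0) {x : ℝ}
    (hx : pnorm (fun a : ℤ => |(a : ℝ)|) 1 P ≤ x) :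
    Polynomial.eval x (P.map (Int.castRingHom ℝ)) ≠ 0 := by
  intro h0
  set n := P.natDegree with hn
  have hmem : n ∈ P.support := Polynomial.natDegree_mem_support_of_nonzero hP
  have hlead : (1 : ℝ) ≤ |((P.coeff n : ℤ) : ℝ)| := by
    have h1 : P.coeff n ≠ 0 := Polynomial.mem_support_iff.1 hmem
    exact_mod_cast Int.one_le_abs h1
  have hsplit : ∑ i ∈ P.support, |((P.coeff i : ℤ) : ℝ)| =
      |((P.coeff n : ℤ) : ℝ)| + ∑ i ∈ P.support.erase n, |((P.coeff i : ℤ) : ℝ)| :=
    (Finset.add_sum_erase _ (fun i => |((P.coeff i : ℤ) : ℝ)|) hmem).symm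
  have hnn : 0 ≤ ∑ i ∈ P.support.erase n, |((P.coeff i : ℤ) : ℝ)| :=
    Finset.sum_nonneg fun i _ => abs_nonneg _
  have hS : ∑ i ∈ P.support, |((P.coeff i : ℤ) : ℝ)| ≤ x := by
    simpa [pnorm] using hx
  have hx1 : 1 ≤ x := by linarith
  have heval : Polynomial.eval x (P.map (Int.castRingHom ℝ)) =
      ∑ i ∈ P.support, ((P.coeff i : ℤ) : ℝ) * x ^ i := by
    rw [Polynomial.eval_map, Polynomial.eval₂_eq_sum, Polynomial.sum_def]
    rfl
  rw [heval, ← Finset.add_sum_erase _ _ hmem] at h0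
  have h1 : ((P.coeff n : ℤ) : ℝ) * x ^ n =
      -∑ i ∈ P.support.erase n, ((P.coeff i : ℤ) : ℝ) * x ^ i := by linarith
  have h2 : |((P.coeff n : ℤ) : ℝ)| * x ^ n * x ≤
      (∑ i ∈ P.support.erase n, |((P.coeff i : ℤ) : ℝ)|) * x ^ n := by
    have h3 : |((P.coeff n : ℤ) : ℝ)| * x ^ n =
        |∑ i ∈ P.support.erase n, ((P.coeff i : ℤ) : ℝ) * x ^ i| := by
      rw [← abs_of_nonneg (pow_nonneg (zero_le_one.trans hx1) n), ← abs_mul, h1, abs_neg]
    rw [h3]
    calc |∑ i ∈ P.support.erase n, ((P.coeff i : ℤ) : ℝ) * x ^ i| * x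
        ≤ (∑ i ∈ P.support.erase n, |((P.coeff i : ℤ) : ℝ) * x ^ i|) * x :=
          mul_le_mul_of_nonneg_right (Finset.abs_sum_le_sum_abs _ _) (by linarith)
      _ = ∑ i ∈ P.support.erase n, |((P.coeff i : ℤ) : ℝ)| * x ^ (i + 1) := by
          rw [Finset.sum_mul]
          refine Finset.sum_congr rfl fun i _ => ?_
          rw [abs_mul, abs_of_nonneg (pow_nonneg (zero_le_one.trans hx1) i), pow_succ]
          ring
      _ ≤ ∑ i ∈ P.support.erase n, |((P.coeff i : ℤ) : ℝ)| * x ^ n := by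
          refine Finset.sum_le_sum fun i hi => ?_
          refine mul_le_mul_of_nonneg_left ?_ (abs_nonneg _)
          refine pow_le_pow_right₀ hx1 ?_
          have h4 := Polynomial.le_natDegree_of_mem_supp i (Finset.mem_of_mem_erase hi)
          have h5 := Finset.ne_of_mem_erase hi
          omega
      _ = (∑ i ∈ P.support.erase n, |((P.coeff i : ℤ) : ℝ)|) * x ^ n := by
          rw [Finset.sum_mul]
  have hxn : 0 < x ^ n := pow_pos (by linarith) n
  have h3 : |((P.coeff n : ℤ) : ℝ)| * x ≤ ∑ i ∈ P.support.erase n, |((P.coeff i : ℤ) : ℝ)| := by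
    refine le_of_mul_le_mul_right ?_ hxn
    linarith
  have h4 : x ≤ |((P.coeff n : ℤ) : ℝ)| * x := le_mul_of_one_le_left (by linarith) hlead
  linarith

/-- the norm of an evaluation -/
private theorem gp_abs_eval_le (a : Polynomial ℤ) (c : ℕ) :
    |((Polynomial.eval (c : ℤ) a : ℤ) : ℝ)| ≤ pnorm (fun a : ℤ => |(a : ℝ)|) (c : ℝ) a := by
  rw [Polynomial.eval_eq_sum, Polynomial.sum_def]
  push_cast
  unfold pnorm
  refine (Finset.abs_sum_le_sum_abs _ _).trans (Finset.sum_le_sum fun i _ => ?_)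
  rw [abs_mul, abs_of_nonneg (show (0 : ℝ) ≤ (c : ℝ) ^ i from pow_nonneg (Nat.cast_nonneg c) i)]

/-- the values of the relation at a large integer and a large real -/
private theorem gp_relation_ne {χ : Polynomial (Polynomial ℤ)} (hχ : χ ≠ 0) {c : ℕ} {x : ℝ}
    (hc : pnorm (pnorm (fun a : ℤ => |(a : ℝ)|) 1) 1 χ ≤ c)
    (hx : pnorm (pnorm (fun a : ℤ => |(a : ℝ)|) (c : ℝ)) 1 χ ≤ x) :
    Polynomial.eval (c : ℝ) (Polynomial.eval (Polynomial.C x)
      (χ.map (Polynomial.mapRingHom (Int.castRingHom ℝ)))) ≠ 0 := by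
  have hnorm : ∀ u : ℝ, 0 ≤ u → ∀ a : Polynomial ℤ,
      0 ≤ pnorm (fun a : ℤ => |(a : ℝ)|) u a := fun u hu a =>
    Finset.sum_nonneg fun i _ => mul_nonneg (abs_nonneg _) (pow_nonneg hu i)
  set P : Polynomial ℤ := χ.map (Polynomial.evalRingHom (c : ℤ)) with hPdef
  have hcoeff : ∀ k, P.coeff k = Polynomial.eval (c : ℤ) (χ.coeff k) := by
    intro k
    rw [hPdef, Polynomial.coeff_map]
    rfl
  have hP : P ≠ 0 := by
    intro h0
    have hlead : χ.coeff χ.natDegree ≠ 0 := by
      rw [Polynomial.coeff_natDegree]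
      exact Polynomial.leadingCoeff_ne_zero.2 hχ
    have h1 : pnorm (fun a : ℤ => |(a : ℝ)|) 1 (χ.coeff χ.natDegree) ≤ c := by
      refine le_trans ?_ hc
      have h2 := Finset.single_le_sum (s := χ.support)
        (f := fun i => pnorm (fun a : ℤ => |(a : ℝ)|) 1 (χ.coeff i) * (1 : ℝ) ^ i)
        (fun i _ => mul_nonneg (hnorm 1 zero_le_one _) (pow_nonneg zero_le_one i))
        (Polynomial.natDegree_mem_support_of_nonzero hχ)
      simpa [pnorm] using h2
    refine gp_root_bound hlead h1 ?_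
    have h3 : Polynomial.eval (c : ℤ) (χ.coeff χ.natDegree) = 0 := by
      rw [← hcoeff, h0, Polynomial.coeff_zero]
    have h4 := congrArg (Int.castRingHom ℝ) h3
    rw [map_zero, ← Polynomial.eval_map_apply] at h4
    simpa using h4
  have hPn : pnorm (fun a : ℤ => |(a : ℝ)|) 1 P ≤ x := by
    refine le_trans ?_ hx
    have h1 : P.support ⊆ χ.support := Polynomial.support_map_subset _ _
    calc pnorm (fun a : ℤ => |(a : ℝ)|) 1 P = ∑ i ∈ P.support, |((P.coeff i : ℤ) : ℝ)| := by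
          simp [pnorm]
      _ ≤ ∑ i ∈ χ.support, |((P.coeff i : ℤ) : ℝ)| :=
          Finset.sum_le_sum_of_subset_of_nonneg h1 fun i _ _ => abs_nonneg _
      _ ≤ ∑ i ∈ χ.support, pnorm (fun a : ℤ => |(a : ℝ)|) (c : ℝ) (χ.coeff i) * (1 : ℝ) ^ i := by
          refine Finset.sum_le_sum fun i _ => ?_
          rw [hcoeff, one_pow, mul_one]
          exact gp_abs_eval_le _ _
      _ = pnorm (pnorm (fun a : ℤ => |(a : ℝ)|) (c : ℝ)) 1 χ := rfl
  have hroot := gp_root_bound hP hPn
  intro h0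
  refine hroot ?_
  have h1 : (χ.map (Polynomial.mapRingHom (Int.castRingHom ℝ))).map
      (Polynomial.evalRingHom (c : ℝ)) = P.map (Int.castRingHom ℝ) := by
    rw [hPdef, Polynomial.map_map, Polynomial.map_map]
    congr 1
    refine Polynomial.ringHom_ext (fun a => by simp) (by simp)
  rw [← h1]
  have h2 : Polynomial.eval (Polynomial.evalRingHom (c : ℝ) (Polynomial.C x))
      ((χ.map (Polynomial.mapRingHom (Int.castRingHom ℝ))).map
        (Polynomial.evalRingHom (c : ℝ))) = 0 := by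
    rw [Polynomial.eval_map_apply]
    exact h0
  simpa using h2

/-- value of the perturbed function -/
private theorem gp_eval_gG (e : ℕ) (L : ℝ) (p : MvPolynomial (Fin N) ℝ) (x : Fin N → ℝ) :
    eval x (gG e L 0 p) = 2 * e * L * eval x p + ∑ i, x i ^ (2 * e) := by
  simp [gG]

/-- no small values without zeros -/
theorem gap_pos {e : ℕ} (he : 2 ≤ e) {p : MvPolynomial (Fin N) ℤ} (hp : p.totalDegree < 2 * e)
    {Q : ℕ} (hQ : l1 p ≤ Q) (hpos : ∀ x, 0 ≤ eval x (toR p)) {c : ℕ}
    (hc : (1 + thU N e Q 1 0) ^ ((2 * e - 1) ^ N) + 1 < c) {L : ℝ}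
    (hL : (((c + thU N e Q 1 0) ^ ((2 * e - 1) ^ N) + 1 : ℕ) : ℝ) < L) (x : Fin N → ℝ)
    (hx : 2 * e * L * eval x (toR p) + ∑ i, x i ^ (2 * e) < c) : ∃ z, eval z (toR p) = 0 := by
  by_contra hno
  push Not at hno
  have hpos' : ∀ x, 0 < eval x (toR p) := fun x => lt_of_le_of_ne (hpos x) (Ne.symm (hno x))
  obtain ⟨χ, hχ0, hχn, hχ⟩ := exists_gapPoly he hp hQ
  have hL1 : 1 < L := by
    refine lt_of_le_of_lt ?_ hL
    push_cast
    have : (0 : ℝ) ≤ ((c : ℝ) + (thU N e Q 1 0 : ℕ)) ^ ((2 * e - 1) ^ N) := by positivity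
    linarith
  have he0 : (0 : ℝ) < e := by
    have : 0 < e := by omega
    exact_mod_cast this
  -- the minimisers
  have hmin : ∀ l : ℝ, ∃ ξ : Fin N → ℝ, 0 ≤ l →
      ((∀ x, eval ξ (gG e l 0 (toR p)) ≤ eval x (gG e l 0 (toR p))) ∧
      ∀ i, eval ξ (Fs (2 * e - 1) (gH l 0 (toR p)) i) = 0) := by
    intro l
    by_cases hl : 0 ≤ l
    · obtain ⟨ξ, h⟩ := exists_min he hpos hl 0
      exact ⟨ξ, fun _ => h⟩
    · exact ⟨0, fun h => absurd h hl⟩
  choose ξ hξ using hmin
  set m : ℝ → ℝ := fun l => 2 * e * l * eval (ξ l) (toR p) + ∑ i, ξ l i ^ (2 * e) with hm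
  have hsum : ∀ y : Fin N → ℝ, 0 ≤ ∑ i, y i ^ (2 * e) := fun y =>
    Finset.sum_nonneg fun i _ => by
      rw [pow_mul]
      positivity
  have hmle : ∀ l, 0 ≤ l → ∀ y, m l ≤ 2 * e * l * eval y (toR p) + ∑ i, y i ^ (2 * e) := by
    intro l hl y
    have h := (hξ l hl).1 y
    rw [gp_eval_gG, gp_eval_gG] at h
    exact h
  have hm0 : ∀ l, 0 ≤ l → 0 ≤ m l := by
    intro l hl
    have h1 := hsum (ξ l)
    have h2 := hpos (ξ l)
    have h3 : 0 ≤ 2 * e * l * eval (ξ l) (toR p) := by positivity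
    show 0 ≤ 2 * e * l * eval (ξ l) (toR p) + ∑ i, ξ l i ^ (2 * e)
    linarith
  have hmono : ∀ l l', 0 ≤ l → l ≤ l' → m l ≤ m l' := by
    intro l l' hl hll
    refine (hmle l hl (ξ l')).trans ?_
    show _ ≤ 2 * e * l' * eval (ξ l') (toR p) + ∑ i, ξ l' i ^ (2 * e)
    have h1 : 2 * e * l * eval (ξ l') (toR p) ≤ 2 * e * l' * eval (ξ l') (toR p) :=
      mul_le_mul_of_nonneg_right (mul_le_mul_of_nonneg_left hll (by positivity)) (hpos _)
    linarith
  have hlip : ∀ l l', 1 ≤ l → l ≤ l' → m l' ≤ m l + (l' - l) * m l := by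
    intro l l' hl hll
    refine (hmle l' (by linarith) (ξ l)).trans ?_
    have h1 := hsum (ξ l)
    have h2 := hpos (ξ l)
    have h3 : 2 * e * eval (ξ l) (toR p) ≤ m l := by
      show _ ≤ 2 * e * l * eval (ξ l) (toR p) + ∑ i, ξ l i ^ (2 * e)
      have h4 : 2 * e * eval (ξ l) (toR p) * 1 ≤ 2 * e * eval (ξ l) (toR p) * l :=
        mul_le_mul_of_nonneg_left hl (by positivity)
      linarith
    have h5 : (l' - l) * (2 * e * eval (ξ l) (toR p)) ≤ (l' - l) * m l :=
      mul_le_mul_of_nonneg_left h3 (by linarith)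
    show _ ≤ (2 * e * l * eval (ξ l) (toR p) + ∑ i, ξ l i ^ (2 * e)) + (l' - l) * m l
    linarith
  -- the values tend to infinity
  obtain ⟨L1, hLL1, hbig⟩ : ∃ L1, L ≤ L1 ∧ (c : ℝ) ≤ m L1 := by
    have hcomp : IsCompact {y : Fin N → ℝ | ∑ i, y i ^ (2 * e) ≤ c} := by
      refine IsCompact.of_isClosed_subset
        (isCompact_Icc (a := fun _ : Fin N => -((c : ℝ) + 1)) (b := fun _ : Fin N => (c : ℝ) + 1))
        ?_ ?_
      · exact isClosed_le (by fun_prop) continuous_const
      · intro y hy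
        have hy' : ∑ i, y i ^ (2 * e) ≤ (c : ℝ) := hy
        have hyi : ∀ i, |y i| ≤ (c : ℝ) + 1 := by
          intro i
          by_contra hcon
          push Not at hcon
          have h1 : y i ^ (2 * e) ≤ ∑ i, y i ^ (2 * e) :=
            Finset.single_le_sum (f := fun i => y i ^ (2 * e)) (fun j _ => by
              show 0 ≤ y j ^ (2 * e)
              rw [pow_mul]
              positivity) (Finset.mem_univ i)
          have h2 : |y i| ≤ y i ^ (2 * e) := by
            have h3 : y i ^ (2 * e) = |y i| ^ (2 * e) := by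
              rw [pow_mul, pow_mul, sq_abs]
            rw [h3]
            have h4 : (1 : ℝ) ≤ |y i| := by
              have : (0 : ℝ) ≤ c := Nat.cast_nonneg c
              linarith
            exact le_self_pow₀ h4 (by omega)
          linarith
        exact ⟨fun i => (abs_le.1 (hyi i)).1, fun i => (abs_le.1 (hyi i)).2⟩
    have hne : {y : Fin N → ℝ | ∑ i, y i ^ (2 * e) ≤ c}.Nonempty := by
      refine ⟨0, ?_⟩
      show ∑ i, (0 : Fin N → ℝ) i ^ (2 * e) ≤ c
      have h1 : 2 * e ≠ 0 := by omega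
      simp [h1]
    obtain ⟨y0, _, hy0⟩ := hcomp.exists_isMinOn hne
      (f := fun y => eval y (toR p)) (MvPolynomial.continuous_eval _).continuousOn
    set δ := eval y0 (toR p) with hδ
    have hδ0 : 0 < δ := hpos' y0
    refine ⟨max L (c / (2 * e * δ)), le_max_left _ _, ?_⟩
    set L1 := max L (c / (2 * e * δ)) with hL1def
    have hL1' : (c : ℝ) ≤ 2 * e * L1 * δ := by
      have h1 : c / (2 * e * δ) ≤ L1 := le_max_right _ _
      rw [div_le_iff₀ (by positivity)] at h1
      linarith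
    have hL10 : 0 ≤ L1 := le_trans (by linarith) (le_max_left L (c / (2 * e * δ)))
    show (c : ℝ) ≤ 2 * e * L1 * eval (ξ L1) (toR p) + ∑ i, ξ L1 i ^ (2 * e)
    by_cases hin : ∑ i, ξ L1 i ^ (2 * e) ≤ c
    · have h1 : δ ≤ eval (ξ L1) (toR p) := hy0 hin
      have h2 : 2 * e * L1 * δ ≤ 2 * e * L1 * eval (ξ L1) (toR p) :=
        mul_le_mul_of_nonneg_left h1 (by positivity)
      have h3 := hsum (ξ L1)
      linarith
    · push Not at hin
      have h2 := hpos (ξ L1)
      have h3 : 0 ≤ 2 * e * L1 * eval (ξ L1) (toR p) := by positivity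
      linarith
  -- continuity and the intermediate value theorem
  have hcont : ContinuousOn m (Set.Icc L L1) := by
    have hK : LipschitzOnWith (Real.toNNReal (m L1)) m (Set.Icc L L1) := by
      refine LipschitzOnWith.of_dist_le_mul ?_
      have key : ∀ a b, a ∈ Set.Icc L L1 → b ∈ Set.Icc L L1 → a ≤ b →
          |m b - m a| ≤ m L1 * |b - a| := by
        intro a b ha hb hab
        have h1 := hmono a b (by linarith [ha.1]) hab
        have h2 := hlip a b (by linarith [ha.1]) hab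
        have h3 := hmono a L1 (by linarith [ha.1]) ha.2
        rw [abs_of_nonneg (by linarith), abs_of_nonneg (by linarith)]
        have h4 : (b - a) * m a ≤ (b - a) * m L1 := mul_le_mul_of_nonneg_left h3 (by linarith)
        linarith
      intro a ha b hb
      rw [Real.dist_eq, Real.dist_eq, Real.coe_toNNReal _ (hm0 L1 (by linarith))]
      rcases le_total a b with hab | hab
      · rw [abs_sub_comm, abs_sub_comm a b]
        exact key a b ha hb hab
      · exact key b a hb ha hab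
    exact hK.continuousOn
  have hmL : m L ≤ c := ((hmle L (by linarith) x).trans hx.le)
  obtain ⟨l, hl, hml⟩ := intermediate_value_Icc hLL1 hcont ⟨hmL, hbig⟩
  have hl0 : 0 ≤ l := by linarith [hl.1]
  have hrel := hχ l (ξ l) (hξ l hl0).2
  have hval : eval (ξ l) (gG e l 0 (toR p)) = (c : ℝ) := by
    rw [gp_eval_gG]
    exact hml
  rw [hval] at hrel
  refine gp_relation_ne hχ0 ?_ ?_ hrel
  · refine (hχn 1 zero_le_one).trans ?_
    have h1 : ((1 + thU N e Q 1 0) ^ ((2 * e - 1) ^ N) : ℕ) ≤ c := by omega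
    have h2 : (((1 + thU N e Q 1 0) ^ ((2 * e - 1) ^ N) : ℕ) : ℝ) ≤ c := by exact_mod_cast h1
    push_cast at h2
    exact h2
  · refine (hχn c (Nat.cast_nonneg c)).trans ?_
    push_cast at hL
    linarith [hl.1]

end Vale.Agent.P337

end

section

/-!
P337, real side: bounded zeros.
-/

namespace Vale.Agent.P337

open MvPolynomial Filter Topology

variable {N : ℕ}

/-- Cauchy bound for real roots of integer polynomials -/
theorem gapZero_root_le {a : Polynomial ℤ} (ha : a ≠ 0) {c V : ℝ}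
    (hV : pnorm (fun a : ℤ => |(a : ℝ)|) 1 a ≤ V)
    (hc : Polynomial.eval c (a.map (Int.castRingHom ℝ)) = 0) : c ≤ V + 1 := by
  by_contra hcon
  have hcon : V + 1 < c := not_le.mp hcon
  have hpn : 0 ≤ pnorm (fun a : ℤ => |(a : ℝ)|) 1 a := by
    unfold pnorm
    exact Finset.sum_nonneg fun i _ => by positivity
  have hc1 : 1 < c := by linarith
  have hc0 : 0 < c := by linarith
  set m := a.natDegree with hm
  have hev : ∑ i ∈ Finset.range (m + 1), (a.coeff i : ℝ) * c ^ i = 0 := by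
    rw [Polynomial.eval_map, Polynomial.eval₂_eq_sum_range] at hc
    simpa using hc
  rw [Finset.sum_range_succ] at hev
  have hlead : (1 : ℝ) ≤ |(a.coeff m : ℝ)| := by
    have h1 : a.coeff m ≠ 0 := by
      rw [hm]
      exact Polynomial.leadingCoeff_ne_zero.mpr ha
    have h2 : 1 ≤ |a.coeff m| := Int.one_le_abs h1
    exact_mod_cast h2
  have hsupp : ∑ i ∈ Finset.range (m + 1), |(a.coeff i : ℝ)| =
      pnorm (fun a : ℤ => |(a : ℝ)|) 1 a := by
    unfold pnorm
    have hsub : a.support ⊆ Finset.range (m + 1) := by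
      rw [hm]
      exact Polynomial.supp_subset_range (Nat.lt_succ_self _)
    rw [← Finset.sum_subset hsub]
    · simp
    · intro i _ hi
      rw [Polynomial.notMem_support_iff] at hi
      simp [hi]
  rw [Finset.sum_range_succ] at hsupp
  rcases Nat.eq_zero_or_pos m with h0 | hpos
  · rw [h0] at hev hlead
    simp only [Finset.range_zero, Finset.sum_empty, pow_zero, mul_one, zero_add] at hev
    rw [hev] at hlead
    simp at hlead
    linarith
  · have hbd : c ^ m ≤ V * c ^ (m - 1) := by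
      have h1 : |(a.coeff m : ℝ) * c ^ m| =
          |∑ i ∈ Finset.range m, (a.coeff i : ℝ) * c ^ i| := by
        have : (a.coeff m : ℝ) * c ^ m = -(∑ i ∈ Finset.range m, (a.coeff i : ℝ) * c ^ i) := by
          linarith
        rw [this, abs_neg]
      have h2 : |∑ i ∈ Finset.range m, (a.coeff i : ℝ) * c ^ i| ≤
          ∑ i ∈ Finset.range m, |(a.coeff i : ℝ)| * c ^ (m - 1) := by
        refine (Finset.abs_sum_le_sum_abs _ _).trans (Finset.sum_le_sum fun i hi => ?_)
        rw [abs_mul, abs_of_pos (pow_pos hc0 i)]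
        refine mul_le_mul_of_nonneg_left ?_ (abs_nonneg _)
        refine pow_le_pow_right₀ hc1.le ?_
        have := Finset.mem_range.mp hi
        omega
      rw [abs_mul, abs_of_pos (pow_pos hc0 m)] at h1
      rw [← Finset.sum_mul] at h2
      have h3 : c ^ m ≤ |(a.coeff m : ℝ)| * c ^ m :=
        le_mul_of_one_le_left (pow_pos hc0 m).le hlead
      have h4 : (∑ i ∈ Finset.range m, |(a.coeff i : ℝ)|) * c ^ (m - 1) ≤ V * c ^ (m - 1) := by
        refine mul_le_mul_of_nonneg_right ?_ (pow_pos hc0 _).le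
        have := abs_nonneg ((a.coeff m : ℝ))
        linarith
      linarith
    have hpw : c ^ m = c * c ^ (m - 1) := by
      rw [← pow_succ']
      congr 1
      omega
    rw [hpw] at hbd
    have := le_of_mul_le_mul_right hbd (pow_pos hc0 (m - 1))
    linarith

/-- the leading coefficient vanishes at the limit -/
theorem gapZero_lead {P : Polynomial (Polynomial ℝ)} {k : ℕ} (hk : P.natDegree ≤ k)
    {L c : ℕ → ℝ} {c₀ : ℝ} (hL : Tendsto L atTop atTop) (hc : Tendsto c atTop (𝓝 c₀))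
    (h0 : ∀ n, Polynomial.eval (c n) (Polynomial.eval (Polynomial.C (L n)) P) = 0) :
    (P.coeff k).eval c₀ = 0 := by
  have hexp : ∀ n, ∑ i ∈ Finset.range (k + 1), (P.coeff i).eval (c n) * L n ^ i = 0 := by
    intro n
    have h := h0 n
    rw [Polynomial.eval_eq_sum_range' (Nat.lt_succ_of_le hk), Polynomial.eval_finsetSum] at h
    simpa using h
  have hlim : Tendsto (fun n => ∑ i ∈ Finset.range (k + 1),
      (P.coeff i).eval (c n) * (L n ^ i / L n ^ k)) atTop
      (𝓝 (∑ i ∈ Finset.range (k + 1), if i = k then (P.coeff k).eval c₀ else 0)) := by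
    refine tendsto_finsetSum _ fun i hi => ?_
    have hci : Tendsto (fun n => (P.coeff i).eval (c n)) atTop (𝓝 ((P.coeff i).eval c₀)) :=
      ((P.coeff i).continuous.tendsto c₀).comp hc
    have hik : i ≤ k := Nat.lt_succ_iff.mp (Finset.mem_range.mp hi)
    rcases hik.lt_or_eq with h | h
    · rw [if_neg h.ne]
      have h2 : Tendsto (fun n => L n ^ i / L n ^ k) atTop (𝓝 0) :=
        (tendsto_pow_div_pow_atTop_zero h).comp hL
      simpa using hci.mul h2
    · subst h
      rw [if_pos rfl]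
      have h2 : Tendsto (fun n => L n ^ i / L n ^ i) atTop (𝓝 1) := by
        refine Tendsto.congr' ?_ tendsto_const_nhds
        filter_upwards [hL.eventually_gt_atTop 0] with n hn
        exact (div_self (pow_pos hn i).ne').symm
      simpa using hci.mul h2
  have hz : (fun n => ∑ i ∈ Finset.range (k + 1),
      (P.coeff i).eval (c n) * (L n ^ i / L n ^ k)) = fun _ => (0 : ℝ) := by
    funext n
    have h := hexp n
    have : ∑ i ∈ Finset.range (k + 1), (P.coeff i).eval (c n) * (L n ^ i / L n ^ k) =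
        (∑ i ∈ Finset.range (k + 1), (P.coeff i).eval (c n) * L n ^ i) / L n ^ k := by
      rw [Finset.sum_div]
      exact Finset.sum_congr rfl fun i _ => by ring
    rw [this, h, zero_div]
  rw [hz] at hlim
  have := tendsto_nhds_unique hlim tendsto_const_nhds
  rw [Finset.sum_ite_eq'] at this
  simpa using this

theorem gapZero_eval_gG (e : ℕ) (L : ℝ) (p : MvPolynomial (Fin N) ℝ) (x : Fin N → ℝ) :
    eval x (gG e L 0 p) = 2 * e * L * eval x p + ∑ i, x i ^ (2 * e) := by
  simp [gG]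

/-- a bounded zero -/
theorem gap_zero {e : ℕ} (he : 2 ≤ e) {p : MvPolynomial (Fin N) ℤ} (hp : p.totalDegree < 2 * e)
    {Q : ℕ} (hQ : l1 p ≤ Q) (hpos : ∀ x, 0 ≤ eval x (toR p)) (hz : ∃ x, eval x (toR p) = 0) :
    ∃ x : Fin N → ℝ, eval x (toR p) = 0 ∧
      ∑ i, x i ^ (2 * e) ≤ ((1 + thU N e Q 1 0) ^ ((2 * e - 1) ^ N) + 1 : ℕ) := by
  obtain ⟨χ, hχ0, hχn, hχ⟩ := exists_gapPoly he hp hQ
  obtain ⟨z, hz⟩ := hz
  have hmin : ∀ n : ℕ, ∃ ξ : Fin N → ℝ,
      (∀ x, eval ξ (gG e (n : ℝ) 0 (toR p)) ≤ eval x (gG e (n : ℝ) 0 (toR p))) ∧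
      ∀ i, eval ξ (Fs (2 * e - 1) (gH (n : ℝ) 0 (toR p)) i) = 0 := fun n =>
    exists_min he hpos (Nat.cast_nonneg n) 0
  choose ξ hξ1 hξ2 using hmin
  have hev : Even (2 * e) := even_two_mul e
  have hterm : ∀ (x : Fin N → ℝ) (i : Fin N), 0 ≤ x i ^ (2 * e) := fun x i => hev.pow_nonneg _
  set M : ℝ := ∑ i, z i ^ (2 * e) with hM
  have hM0 : 0 ≤ M := Finset.sum_nonneg fun i _ => hterm z i
  have hup : ∀ n : ℕ, 2 * e * (n : ℝ) * eval (ξ n) (toR p) + ∑ i, ξ n i ^ (2 * e) ≤ M := by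
    intro n
    have h := hξ1 n z
    rw [gapZero_eval_gG, gapZero_eval_gG, hz, mul_zero, zero_add] at h
    exact h
  have hfirst : ∀ n : ℕ, 0 ≤ 2 * e * (n : ℝ) * eval (ξ n) (toR p) := fun n =>
    mul_nonneg (by positivity) (hpos _)
  have hsum : ∀ n : ℕ, ∑ i, ξ n i ^ (2 * e) ≤ M := fun n => by
    have := hup n
    have := hfirst n
    linarith
  have hcoord : ∀ n i, ξ n i ∈ Set.Icc (-(1 + M)) (1 + M) := by
    intro n i
    have h1 : ξ n i ^ (2 * e) ≤ M :=
      (Finset.single_le_sum (fun j _ => hterm (ξ n) j) (Finset.mem_univ i)).trans (hsum n)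
    have h2 : |ξ n i| ≤ 1 + M := by
      rcases le_or_gt |ξ n i| 1 with h | h
      · linarith
      · have h3 : |ξ n i| ≤ |ξ n i| ^ (2 * e) := le_self_pow₀ h.le (by omega)
        rw [hev.pow_abs] at h3
        linarith
    exact abs_le.mp h2
  have hcomp : IsCompact (Set.pi Set.univ fun _ : Fin N => Set.Icc (-(1 + M)) (1 + M)) :=
    isCompact_univ_pi fun _ => isCompact_Icc
  obtain ⟨x, -, φ, hφ, hlim⟩ := hcomp.tendsto_subseq (x := ξ) fun n i _ => hcoord n i
  have hφt : Tendsto (fun n => ((φ n : ℕ) : ℝ)) atTop atTop :=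
    tendsto_natCast_atTop_atTop.comp hφ.tendsto_atTop
  have hpc : Tendsto (fun n => eval (ξ (φ n)) (toR p)) atTop (𝓝 (eval x (toR p))) :=
    ((MvPolynomial.continuous_eval (toR p)).tendsto x).comp hlim
  have hfc : Tendsto (fun n => ∑ i, ξ (φ n) i ^ (2 * e)) atTop (𝓝 (∑ i, x i ^ (2 * e))) := by
    have hcont : Continuous fun y : Fin N → ℝ => ∑ i, y i ^ (2 * e) := by fun_prop
    exact (hcont.tendsto x).comp hlim
  have hpz : eval x (toR p) = 0 := by
    refine le_antisymm ?_ (hpos x)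
    have hle : ∀ᶠ n in atTop, eval (ξ (φ n)) (toR p) ≤ M / ((φ n : ℕ) : ℝ) := by
      filter_upwards [hφt.eventually_gt_atTop 0] with n hn
      rw [le_div_iff₀ hn]
      have h1 := hup (φ n)
      have h2 : 0 ≤ ∑ i, ξ (φ n) i ^ (2 * e) := Finset.sum_nonneg fun i _ => hterm _ i
      have h3 : (1 : ℝ) ≤ 2 * e := by
        have : (2 : ℝ) ≤ e := by exact_mod_cast he
        linarith
      have h4 : 0 ≤ ((φ n : ℕ) : ℝ) * eval (ξ (φ n)) (toR p) := mul_nonneg hn.le (hpos _)
      nlinarith [mul_le_mul_of_nonneg_right h3 h4]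
    have hlim0 : Tendsto (fun n => M / ((φ n : ℕ) : ℝ)) atTop (𝓝 0) :=
      tendsto_const_nhds.div_atTop hφt
    exact le_of_tendsto_of_tendsto hpc hlim0 hle
  have hup2 : ∀ n : ℕ, eval (ξ n) (gG e (n : ℝ) 0 (toR p)) ≤ ∑ i, x i ^ (2 * e) := by
    intro n
    have h := hξ1 n x
    rw [gapZero_eval_gG e _ _ x, hpz, mul_zero, zero_add] at h
    exact h
  have hclim : Tendsto (fun n => eval (ξ (φ n)) (gG e ((φ n : ℕ) : ℝ) 0 (toR p))) atTop
      (𝓝 (∑ i, x i ^ (2 * e))) := by
    refine tendsto_of_tendsto_of_tendsto_of_le_of_le hfc tendsto_const_nhds ?_ ?_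
    · intro n
      have := hfirst (φ n)
      simp only [gapZero_eval_gG]
      linarith
    · intro n
      exact hup2 (φ n)
  have hdeg : (χ.map (Polynomial.mapRingHom (Int.castRingHom ℝ))).natDegree ≤ χ.natDegree :=
    Polynomial.natDegree_map_le
  have hroot := gapZero_lead hdeg hφt hclim fun n => hχ _ _ (hξ2 (φ n))
  rw [Polynomial.coeff_map] at hroot
  refine ⟨x, hpz, ?_⟩
  have hlc : χ.coeff χ.natDegree ≠ 0 := Polynomial.leadingCoeff_ne_zero.mpr hχ0
  have hpn : pnorm (fun a : ℤ => |(a : ℝ)|) 1 (χ.coeff χ.natDegree) ≤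
      (1 + (thU N e Q 1 0 : ℕ) : ℝ) ^ ((2 * e - 1) ^ N) := by
    refine le_trans ?_ (hχn 1 zero_le_one)
    have houter : pnorm (pnorm (fun a : ℤ => |(a : ℝ)|) 1) 1 χ =
        ∑ i ∈ χ.support, pnorm (fun a : ℤ => |(a : ℝ)|) 1 (χ.coeff i) * 1 ^ i := rfl
    rw [houter]
    simp only [one_pow, mul_one]
    refine Finset.single_le_sum (f := fun i => pnorm (fun a : ℤ => |(a : ℝ)|) 1 (χ.coeff i))
      (fun i _ => ?_) ?_
    · unfold pnorm
      exact Finset.sum_nonneg fun j _ => by positivity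
    · rw [Polynomial.mem_support_iff]
      exact hlc
  have := gapZero_root_le hlc hpn hroot
  push_cast
  exact this

end Vale.Agent.P337

end

section

/-!
P337, real side: sums over roots of unity.
-/

namespace Vale.Agent.P337

variable {N : ℕ}

private theorem om_pow_sub {a b : ℂ} (ha : ‖a‖ = 1) (hb : ‖b‖ = 1) (m : ℕ) :
    ‖a ^ m - b ^ m‖ ≤ m * ‖a - b‖ := by
  rw [← (Commute.all a b).geom_sum₂_mul m, norm_mul]
  refine mul_le_mul_of_nonneg_right ?_ (norm_nonneg _)
  refine (norm_sum_le _ _).trans ?_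
  have h : ∀ i ∈ Finset.range m, ‖a ^ i * b ^ (m - 1 - i)‖ ≤ 1 := by
    intro i _
    rw [norm_mul, norm_pow, norm_pow, ha, hb, one_pow, one_pow, one_mul]
  refine (Finset.sum_le_sum h).trans ?_
  simp

private theorem om_gap {d : ℕ} (hd : 1 ≤ d) {a b : ℂ} (ha : a ^ d = 1) (hb : b ^ d = 1)
    (hab : a ≠ b) : 1 ≤ d * ‖a - b‖ := by
  have ha1 : ‖a‖ = 1 := Complex.norm_eq_one_of_pow_eq_one ha (by omega)
  have hb1 : ‖b‖ = 1 := Complex.norm_eq_one_of_pow_eq_one hb (by omega)
  have h0 : ∑ i ∈ Finset.range d, a ^ i * b ^ (d - 1 - i) = 0 := by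
    have h1 := (Commute.all a b).geom_sum₂_mul d
    rw [ha, hb, sub_self] at h1
    exact (mul_eq_zero.1 h1).resolve_right (sub_ne_zero.2 hab)
  have h2 : (d : ℂ) * a ^ (d - 1) =
      ∑ i ∈ Finset.range d, a ^ i * (a ^ (d - 1 - i) - b ^ (d - 1 - i)) := by
    have h3 : ∀ i ∈ Finset.range d, a ^ i * (a ^ (d - 1 - i) - b ^ (d - 1 - i)) =
        a ^ (d - 1) - a ^ i * b ^ (d - 1 - i) := by
      intro i hi
      rw [Finset.mem_range] at hi
      rw [mul_sub, ← pow_add]
      congr 2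
      omega
    rw [Finset.sum_congr rfl h3, Finset.sum_sub_distrib, h0, sub_zero]
    simp
  have h4 : (d : ℝ) ≤ d * (d * ‖a - b‖) := by
    have h5 : ‖(d : ℂ) * a ^ (d - 1)‖ = d := by
      rw [norm_mul, norm_pow, ha1, one_pow, mul_one]
      simp
    have h8 : (d : ℝ) ≤ ∑ i ∈ Finset.range d,
        ‖a ^ i * (a ^ (d - 1 - i) - b ^ (d - 1 - i))‖ := by
      calc (d : ℝ) = ‖(d : ℂ) * a ^ (d - 1)‖ := h5.symm
        _ = ‖∑ i ∈ Finset.range d, a ^ i * (a ^ (d - 1 - i) - b ^ (d - 1 - i))‖ := by rw [h2]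
        _ ≤ _ := norm_sum_le _ _
    refine h8.trans ?_
    have h6 : ∀ i ∈ Finset.range d, ‖a ^ i * (a ^ (d - 1 - i) - b ^ (d - 1 - i))‖ ≤
        d * ‖a - b‖ := by
      intro i hi
      rw [norm_mul, norm_pow, ha1, one_pow, one_mul]
      refine (om_pow_sub ha1 hb1 _).trans ?_
      refine mul_le_mul_of_nonneg_right ?_ (norm_nonneg _)
      have : d - 1 - i ≤ d := by omega
      exact_mod_cast this
    refine (Finset.sum_le_sum h6).trans ?_
    rw [Finset.sum_const, Finset.card_range, nsmul_eq_mul]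
  have hd0 : (0 : ℝ) < d := by exact_mod_cast hd
  have h7 : (d : ℝ) * 1 ≤ d * (d * ‖a - b‖) := by linarith
  exact le_of_mul_le_mul_left h7 hd0

/-- sums `∑ 2 ^ (i (d+1)) ω_i` over `d`-th roots of unity are distinct -/
theorem omega_inj {d : ℕ} (hd : 1 ≤ d) (w w' : Fin N → ℂ) (hw : ∀ i, w i ^ d = 1)
    (hw' : ∀ i, w' i ^ d = 1)
    (h : ∑ i : Fin N, (2 : ℂ) ^ ((i : ℕ) * (d + 1)) * w i =
      ∑ i : Fin N, (2 : ℂ) ^ ((i : ℕ) * (d + 1)) * w' i) : w = w' := by
  induction N with
  | zero => exact funext fun i => i.elim0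
  | succ n ih =>
    rw [Fin.sum_univ_castSucc, Fin.sum_univ_castSucc] at h
    by_cases hl : w (Fin.last n) = w' (Fin.last n)
    · rw [hl] at h
      have h1 := ih (fun i => w i.castSucc) (fun i => w' i.castSucc) (fun i => hw _)
        (fun i => hw' _) (by simpa using h)
      funext i
      refine Fin.lastCases hl (fun j => ?_) i
      exact congrFun h1 j
    · exfalso
      have hgap := om_gap hd (hw (Fin.last n)) (hw' (Fin.last n)) hl
      set δ := ‖w (Fin.last n) - w' (Fin.last n)‖ with hδ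
      set B : ℝ := 2 ^ (d + 1) with hB
      have heq : (2 : ℂ) ^ (n * (d + 1)) * (w (Fin.last n) - w' (Fin.last n)) =
          ∑ i : Fin n, (2 : ℂ) ^ ((i : ℕ) * (d + 1)) * (w' i.castSucc - w i.castSucc) := by
        simp only [mul_sub, Finset.sum_sub_distrib]
        simp only [Fin.val_last, Fin.val_castSucc] at h
        linear_combination h
      have h1 : B ^ n * δ ≤ ∑ i : Fin n, B ^ (i : ℕ) * 2 := by
        have h2 : B ^ n * δ =
            ‖(2 : ℂ) ^ (n * (d + 1)) * (w (Fin.last n) - w' (Fin.last n))‖ := by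
          rw [norm_mul, norm_pow, ← hδ, hB, ← pow_mul, mul_comm (d + 1) n]
          simp
        rw [h2, heq]
        refine (norm_sum_le _ _).trans (Finset.sum_le_sum fun i _ => ?_)
        rw [norm_mul, norm_pow]
        have h3 : ‖(2 : ℂ)‖ ^ ((i : ℕ) * (d + 1)) = B ^ (i : ℕ) := by
          rw [hB, ← pow_mul, mul_comm (d + 1) (i : ℕ)]
          simp
        rw [h3]
        refine mul_le_mul_of_nonneg_left ?_ (by positivity)
        refine (norm_sub_le _ _).trans ?_
        rw [Complex.norm_eq_one_of_pow_eq_one (hw' i.castSucc) (by omega),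
          Complex.norm_eq_one_of_pow_eq_one (hw i.castSucc) (by omega)]
        norm_num
      have h2 : (∑ i : Fin n, B ^ (i : ℕ) * 2) * (B - 1) = 2 * (B ^ n - 1) := by
        rw [Fin.sum_univ_eq_sum_range (fun i => B ^ i * 2) n, ← Finset.sum_mul,
          mul_assoc, mul_comm (2 : ℝ), ← mul_assoc, geom_sum_mul]
        ring
      have hBd : 2 * (d : ℝ) + 2 ≤ B := by
        have h3 : d + 1 ≤ 2 ^ d := Nat.lt_two_pow_self
        have h4 : ((d + 1 : ℕ) : ℝ) ≤ ((2 ^ d : ℕ) : ℝ) := by exact_mod_cast h3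
        push_cast at h4
        rw [hB, pow_succ]
        linarith
      have hd0 : (1 : ℝ) ≤ d := by exact_mod_cast hd
      have hBn : 0 < B ^ n := by positivity
      have h5 : B ^ n * δ * (B - 1) ≤ 2 * (B ^ n - 1) := by
        rw [← h2]
        exact mul_le_mul_of_nonneg_right h1 (by linarith)
      have h6 : δ * (B - 1) < 2 := by
        have h7 : B ^ n * (δ * (B - 1)) < B ^ n * 2 := by linarith
        exact lt_of_mul_lt_mul_left h7 hBn.le
      have hδ0 : 0 ≤ δ := norm_nonneg _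
      have h8 : δ * (2 * d + 1) ≤ δ * (B - 1) := mul_le_mul_of_nonneg_left (by linarith) hδ0
      linarith

end Vale.Agent.P337

end

section

/-!
P337, real side: Hankel matrices of power sums.
-/

namespace Vale.Agent.P337

/-- Hankel matrix of the power sums of a matrix -/
def hank {R n : Type} [CommRing R] [Fintype n] [DecidableEq n] (D : ℕ) (M : Matrix n n R) :
    Matrix (Fin D) (Fin D) R := Matrix.of fun i j => (M ^ ((i : ℕ) + j)).trace

section Hank

open Polynomial

variable {n : Type} [Fintype n] [DecidableEq n]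

theorem hank_card_roots (M : Matrix n n ℂ) :
    Multiset.card M.charpoly.roots = Fintype.card n := by
  rw [IsAlgClosed.card_roots_eq_natDegree, Matrix.charpoly_natDegree_eq_dim]

theorem hank_eval_charpoly (M : Matrix n n ℂ) (a : ℂ) :
    M.charpoly.eval a = (M.charpoly.roots.map fun b => a - b).prod := by
  have h := (IsAlgClosed.splits M.charpoly).eq_prod_roots_of_monic M.charpoly_monic
  conv_lhs => rw [h]
  rw [eval_multiset_prod, Multiset.map_map]
  congr 1
  apply Multiset.map_congr rfl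
  intro b _
  simp

theorem hank_det_sub (M : Matrix n n ℂ) (a : ℂ) :
    (aeval M (X - C a)).det = (M.charpoly.roots.map fun b => b - a).prod := by
  have h1 : aeval M (X - C a) = -(Matrix.scalar n a - M) := by
    rw [map_sub, aeval_X, aeval_C, neg_sub]
    rfl
  rw [h1, Matrix.det_neg, ← Matrix.eval_charpoly, hank_eval_charpoly, ← hank_card_roots M,
    ← Multiset.prod_replicate, ← Multiset.map_const', ← Multiset.prod_map_mul]
  congr 1
  apply Multiset.map_congr rfl
  intro b _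
  ring

theorem hank_det_aeval (M : Matrix n n ℂ) (q : ℂ[X]) :
    (aeval M q).det = (M.charpoly.roots.map fun b => q.eval b).prod := by
  have key : ∀ s : Multiset ℂ, (aeval M ((s.map fun a => X - C a).prod)).det =
      (M.charpoly.roots.map fun b => ((s.map fun a => X - C a).prod).eval b).prod := by
    intro s
    induction s using Multiset.induction with
    | empty => simp
    | cons a s ih =>
      rw [Multiset.map_cons, Multiset.prod_cons, map_mul, Matrix.det_mul, ih, hank_det_sub,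
        ← Multiset.prod_map_mul]
      congr 1
      apply Multiset.map_congr rfl
      intro b _
      rw [eval_mul]
      simp
  have h := (IsAlgClosed.splits q).eq_prod_roots
  rw [h, map_mul, Matrix.det_mul, key, aeval_C]
  have h2 : (algebraMap ℂ (Matrix n n ℂ) q.leadingCoeff).det =
      (M.charpoly.roots.map fun _ => q.leadingCoeff).prod := by
    rw [Multiset.map_const', Multiset.prod_replicate, hank_card_roots,
      Matrix.algebraMap_eq_diagonal, Matrix.det_diagonal]
    simp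
  rw [h2, ← Multiset.prod_map_mul]
  congr 1
  apply Multiset.map_congr rfl
  intro b _
  rw [eval_mul, eval_C]

theorem hank_charpoly_pow (M : Matrix n n ℂ) (k : ℕ) :
    (M ^ k).charpoly = ((M.charpoly.roots.map fun b => b ^ k).map fun a => X - C a).prod := by
  apply Polynomial.funext
  intro x
  rw [Matrix.eval_charpoly, eval_multiset_prod, Multiset.map_map, Multiset.map_map]
  have h1 : Matrix.scalar n x - M ^ k = aeval M (C x - X ^ k) := by
    rw [map_sub, map_pow, aeval_X, aeval_C]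
    rfl
  rw [h1, hank_det_aeval]
  congr 1
  apply Multiset.map_congr rfl
  intro b _
  simp

theorem hank_trace_pow (M : Matrix n n ℂ) (k : ℕ) :
    (M ^ k).trace = (M.charpoly.roots.map fun b => b ^ k).sum := by
  rw [Matrix.trace_eq_sum_roots_charpoly, hank_charpoly_pow, roots_multiset_prod_X_sub_C]

theorem hank_list_sum (l : List ℂ) (m : ℕ) :
    (l.map fun b => b ^ m).sum = ∑ k, l.get k ^ m := by
  have h : l.map (fun b => b ^ m) = List.ofFn fun k => l.get k ^ m := by
    conv_lhs => rw [← List.ofFn_get l]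
    rw [List.map_ofFn]
    rfl
  rw [h, List.sum_ofFn]

end Hank

theorem hank_det_ne_zero_iff {n : Type} [Fintype n] [DecidableEq n] {D : ℕ}
    (hD : Fintype.card n = D) (M : Matrix n n ℂ) :
    (hank D M).det ≠ 0 ↔ M.charpoly.roots.Nodup := by
  obtain ⟨l, hl⟩ := Quot.exists_rep M.charpoly.roots
  have hl' : (l : Multiset ℂ) = M.charpoly.roots := hl
  have hlen : l.length = D := by
    rw [← hD, ← hank_card_roots M, ← hl', Multiset.coe_card]
  subst hlen
  have hh : hank l.length M = (Matrix.vandermonde l.get).transpose * Matrix.vandermonde l.get := by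
    ext i j
    rw [Matrix.vandermonde_transpose_mul_vandermonde]
    show (M ^ ((i : ℕ) + j)).trace = _
    rw [hank_trace_pow, ← hl', Multiset.map_coe, Multiset.sum_coe]
    exact hank_list_sum l _
  rw [hh, Matrix.det_mul, Matrix.det_transpose, mul_self_ne_zero,
    Matrix.det_vandermonde_ne_zero_iff, ← hl', Multiset.coe_nodup, List.nodup_iff_injective_get]

end Vale.Agent.P337

end

section

/-!
P337, real side: the critical values are distinct for `L = 0`, `s = 1`.
-/

namespace Vale.Agent.P337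

open MvPolynomial

variable {N : ℕ}

/-- coefficients of the linear perturbation -/
def bs (s e : ℕ) (i : ℕ) : ℕ := s * 2 ^ (i * (2 * e - 1))

/-- a map with distinct values among the roots of a characteristic polynomial of matching size -/
theorem ndz_nodup_of_inj {n : Type} [Fintype n] [DecidableEq n] (M : Matrix n n ℂ)
    (v : n → ℂ) (hv : Function.Injective v) (hr : ∀ a, M.charpoly.eval (v a) = 0) :
    M.charpoly.roots.Nodup := by
  classical
  have hne : M.charpoly ≠ 0 := (Matrix.charpoly_monic M).ne_zero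
  have h1 : Finset.univ.image v ⊆ M.charpoly.roots.toFinset := by
    intro z hz
    obtain ⟨a, -, rfl⟩ := Finset.mem_image.mp hz
    rw [Multiset.mem_toFinset, Polynomial.mem_roots hne]
    exact hr a
  have h2 := Finset.card_le_card h1
  rw [Finset.card_image_of_injective _ hv, Finset.card_univ] at h2
  have h3 : Multiset.card M.charpoly.roots ≤ Fintype.card n := by
    have := Polynomial.card_roots' M.charpoly
    rwa [Matrix.charpoly_natDegree_eq_dim] at this
  have h4 := Multiset.toFinset_card_le M.charpoly.roots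
  exact Multiset.toFinset_card_eq_card_iff_nodup.mp (by omega)

/-- for `L = 0`, `s = 1` the characteristic polynomial has distinct roots -/
theorem nodup_zero {e : ℕ} (he : 2 ≤ e) (hd : 1 ≤ 2 * e - 1) (p : MvPolynomial (Fin N) ℂ)
    (hH : ∀ i, (gH (0 : ℂ) (fun i : Fin N => ((bs 1 e i : ℕ) : ℂ)) p i).totalDegree < 2 * e - 1) :
    (mmat hd hH (gG e (0 : ℂ) (fun i : Fin N => ((bs 1 e i : ℕ) : ℂ)) p)).charpoly.roots.Nodup := by
  obtain ⟨d, hde⟩ : ∃ d, 2 * e = d + 1 := ⟨2 * e - 1, by omega⟩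
  have hd2 : 2 * e - 1 = d := by omega
  have hd0 : d ≠ 0 := by omega
  have hodd : Odd d := ⟨e - 1, by omega⟩
  have hζ : IsPrimitiveRoot (Complex.exp (2 * Real.pi * Complex.I / d)) d :=
    Complex.isPrimitiveRoot_exp d hd0
  set ζ : ℂ := Complex.exp (2 * Real.pi * Complex.I / d) with hζdef
  -- roots of unity and the points
  let w : (Fin N → Fin (2 * e - 1)) → Fin N → ℂ := fun a i => ζ ^ (a i : ℕ)
  let ξ : (Fin N → Fin (2 * e - 1)) → Fin N → ℂ := fun a i => -((2 : ℂ) ^ (i : ℕ) * w a i)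
  have hw : ∀ a i, w a i ^ d = 1 := by
    intro a i
    show (ζ ^ (a i : ℕ)) ^ d = 1
    rw [← pow_mul, mul_comm, pow_mul, hζ.pow_eq_one, one_pow]
  have hξ : ∀ a i, ξ a i ^ d = -((2 : ℂ) ^ ((i : ℕ) * d)) := by
    intro a i
    show (-((2 : ℂ) ^ (i : ℕ) * w a i)) ^ d = _
    rw [hodd.neg_pow, mul_pow, hw, mul_one, ← pow_mul]
  have hb : ∀ i : Fin N, (((bs 1 e i : ℕ) : ℂ)) = (2 : ℂ) ^ ((i : ℕ) * d) := by
    intro i
    simp [bs, hd2]
  -- the values of `g`
  have hval : ∀ a, eval (ξ a) (gG e (0 : ℂ) (fun i : Fin N => ((bs 1 e i : ℕ) : ℂ)) p) =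
      -(d : ℂ) * ∑ i : Fin N, (2 : ℂ) ^ ((i : ℕ) * (d + 1)) * w a i := by
    intro a
    have h2e : (2 * (e : ℂ)) = (d : ℂ) + 1 := by exact_mod_cast hde
    simp only [gG, map_add, map_mul, map_sum, map_pow, eval_X, eval_C, mul_zero, zero_mul,
      zero_add, hb, hde, h2e]
    rw [← Finset.sum_add_distrib, Finset.mul_sum]
    refine Finset.sum_congr rfl fun i _ => ?_
    rw [pow_succ, hξ a i]
    show -(2 : ℂ) ^ ((i : ℕ) * d) * (-((2 : ℂ) ^ (i : ℕ) * w a i)) +
      ((d : ℂ) + 1) * (2 : ℂ) ^ ((i : ℕ) * d) * (-((2 : ℂ) ^ (i : ℕ) * w a i)) = _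
    rw [mul_add, mul_one, pow_add]
    ring
  refine ndz_nodup_of_inj _ (fun a => eval (ξ a)
    (gG e (0 : ℂ) (fun i : Fin N => ((bs 1 e i : ℕ) : ℂ)) p)) ?_ ?_
  · intro a a' haa
    simp only [hval] at haa
    have hdc : -(d : ℂ) ≠ 0 := by
      rw [neg_ne_zero]
      exact_mod_cast hd0
    have h1 := mul_left_cancel₀ hdc haa
    have h2 := omega_inj (d := d) (by omega) (w a) (w a') (hw a) (hw a') h1
    funext i
    have h3 : ζ ^ (a i : ℕ) = ζ ^ (a' i : ℕ) := congrFun h2 i
    apply Fin.ext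
    have ha : (a i : ℕ) < d := by have := (a i).2; omega
    have ha' : (a' i : ℕ) < d := by have := (a' i).2; omega
    exact hζ.pow_inj ha ha' h3
  · intro a
    refine mmat_eigen hd hH _ (ξ a) fun i => ?_
    simp only [Fs, gH, map_sub, map_neg, map_mul, map_pow, eval_X, eval_C, zero_mul, neg_zero,
      hb, hd2, map_zero]
    rw [hξ a i]
    ring

end Vale.Agent.P337

end

section

/-!
P337, real side: for large parameters the critical values are distinct.
-/

namespace Vale.Agent.P337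

open MvPolynomial

variable {N : ℕ}

/-- threshold for `s` -/
def thS (N e Q : ℕ) : ℕ :=
  ((2 * e - 1) ^ N * ((2 * e - 1) ^ N * thU N e Q 1 (2 ^ (N * (2 * e - 1))) ^
    (2 * (2 * e - 1) ^ N))) ^ ((2 * e - 1) ^ N) + 1

/-- threshold for `L` -/
def thL1 (N e Q s : ℕ) : ℕ :=
  ((2 * e - 1) ^ N * ((2 * e - 1) ^ N * thU N e Q 1 (s * 2 ^ (N * (2 * e - 1))) ^
    (2 * (2 * e - 1) ^ N))) ^ ((2 * e - 1) ^ N) + 1

/-! ### integer polynomials at large integers -/

theorem generic_eval_ne_zero (f : Polynomial ℤ) (hf : f ≠ 0) {V : ℕ}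
    (hV : pnorm (fun a : ℤ => |(a : ℝ)|) 1 f ≤ V) {x : ℤ} (hx : (V : ℤ) < x) :
    f.eval x ≠ 0 := by
  intro h0
  have hVn : (0 : ℤ) ≤ V := Int.natCast_nonneg V
  have hx0 : 0 < x := lt_of_le_of_lt hVn hx
  have hxr : (0 : ℝ) < x := by exact_mod_cast hx0
  have hx1 : (1 : ℝ) ≤ x := by exact_mod_cast hx0
  set n := f.natDegree with hn
  have hlead : (1 : ℝ) ≤ |((f.coeff n : ℤ) : ℝ)| := by
    have h1 : f.coeff n ≠ 0 := by
      rw [hn, Polynomial.coeff_natDegree]
      exact Polynomial.leadingCoeff_ne_zero.mpr hf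
    have h2 : (1 : ℤ) ≤ |f.coeff n| := Int.one_le_abs h1
    have h3 : ((1 : ℤ) : ℝ) ≤ ((|f.coeff n| : ℤ) : ℝ) := by exact_mod_cast h2
    rw [Int.cast_abs] at h3
    simpa using h3
  have hsum : pnorm (fun a : ℤ => |(a : ℝ)|) 1 f =
      ∑ i ∈ Finset.range (n + 1), |((f.coeff i : ℤ) : ℝ)| := by
    unfold pnorm
    simp only [one_pow, mul_one]
    apply Finset.sum_subset
    · intro i hi
      rw [Finset.mem_range]
      have := Polynomial.le_natDegree_of_mem_supp i hi
      omega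
    · intro i _ hi
      rw [Polynomial.notMem_support_iff.mp hi]
      simp
  have h1 : (f.eval x : ℤ) = ∑ i ∈ Finset.range (n + 1), f.coeff i * x ^ i :=
    Polynomial.eval_eq_sum_range x
  rw [h0, Finset.sum_range_succ] at h1
  have h2 : ((f.coeff n : ℤ) : ℝ) * (x : ℝ) ^ n =
      - ∑ i ∈ Finset.range n, ((f.coeff i : ℤ) : ℝ) * (x : ℝ) ^ i := by
    have h3 := congrArg (fun z : ℤ => (z : ℝ)) h1
    push_cast at h3
    linarith
  have h3 : (x : ℝ) ^ n * |((f.coeff n : ℤ) : ℝ)| ≤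
      ∑ i ∈ Finset.range n, |((f.coeff i : ℤ) : ℝ)| * (x : ℝ) ^ i := by
    have h4 : |((f.coeff n : ℤ) : ℝ) * (x : ℝ) ^ n| ≤
        ∑ i ∈ Finset.range n, |((f.coeff i : ℤ) : ℝ) * (x : ℝ) ^ i| := by
      rw [h2, abs_neg]
      exact Finset.abs_sum_le_sum_abs _ _
    rw [abs_mul, abs_of_pos (pow_pos hxr n)] at h4
    calc (x : ℝ) ^ n * |((f.coeff n : ℤ) : ℝ)| = |((f.coeff n : ℤ) : ℝ)| * (x : ℝ) ^ n := by ring
      _ ≤ _ := h4
      _ = _ := by
        apply Finset.sum_congr rfl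
        intro i _
        rw [abs_mul, abs_of_pos (pow_pos hxr i)]
  rcases Nat.eq_zero_or_pos n with hn0 | hn0
  · rw [hn0, pow_zero, one_mul, Finset.range_zero, Finset.sum_empty] at h3
    rw [hn0] at hlead
    linarith
  · obtain ⟨k, hk⟩ : ∃ k, n = k + 1 := ⟨n - 1, by omega⟩
    have h5 : ∑ i ∈ Finset.range n, |((f.coeff i : ℤ) : ℝ)| * (x : ℝ) ^ i ≤
        ∑ i ∈ Finset.range n, |((f.coeff i : ℤ) : ℝ)| * (x : ℝ) ^ k := by
      apply Finset.sum_le_sum
      intro i hi
      apply mul_le_mul_of_nonneg_left _ (abs_nonneg _)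
      apply pow_le_pow_right₀ hx1
      rw [Finset.mem_range] at hi
      omega
    rw [← Finset.sum_mul] at h5
    have h6 : ∑ i ∈ Finset.range n, |((f.coeff i : ℤ) : ℝ)| ≤ V := by
      refine le_trans ?_ hV
      rw [hsum, Finset.sum_range_succ]
      have := abs_nonneg ((f.coeff n : ℤ) : ℝ)
      linarith
    have h7 : (V : ℝ) < x := by exact_mod_cast hx
    have h8 : (0 : ℝ) < (x : ℝ) ^ k := pow_pos hxr k
    have h9 : (x : ℝ) ^ n ≤ (x : ℝ) ^ n * |((f.coeff n : ℤ) : ℝ)| :=
      le_mul_of_one_le_right (pow_pos hxr n).le hlead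
    have h10 : (x : ℝ) ^ n ≤ V * (x : ℝ) ^ k :=
      calc (x : ℝ) ^ n ≤ _ := h9
        _ ≤ _ := h3
        _ ≤ _ := h5
        _ ≤ V * (x : ℝ) ^ k := mul_le_mul_of_nonneg_right h6 h8.le
    rw [hk, pow_succ'] at h10
    have h11 := le_of_mul_le_mul_right h10 h8
    linarith

/-! ### base change -/

theorem generic_map {R R' : Type} [CommRing R] [CommRing R'] (φ : R →+* R') {e : ℕ}
    (hd : 1 ≤ 2 * e - 1) {D : ℕ} {L : R} {b : Fin N → R} {p : MvPolynomial (Fin N) R}
    {L' : R'} {b' : Fin N → R'} {p' : MvPolynomial (Fin N) R'} (hL : φ L = L')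
    (hb : ∀ i, φ (b i) = b' i) (hp : map φ p = p')
    (hH : ∀ i, (gH L b p i).totalDegree < 2 * e - 1)
    (hH' : ∀ i, (gH L' b' p' i).totalDegree < 2 * e - 1) :
    φ (hank D (mmat hd hH (gG e L b p))).det = (hank D (mmat hd hH' (gG e L' b' p'))).det := by
  have hb' : (fun i => φ (b i)) = b' := funext hb
  subst hL hp
  subst hb'
  have key : ∀ (H' : Fin N → MvPolynomial (Fin N) R') (hH'' : ∀ i, (H' i).totalDegree < 2 * e - 1)
      (_ : H' = fun i => map φ (gH L b p i)),
      mmat hd hH'' (map φ (gG e L b p)) = (mmat hd hH (gG e L b p)).map φ := by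
    intro H' hH'' hEq
    subst hEq
    exact mmat_map φ hd hH hH'' _
  have h1 := key (gH (φ L) (fun i => φ (b i)) (map φ p)) hH'
    (funext fun i => (gH_map φ L b p i).symm)
  rw [gG_map] at h1
  rw [h1, RingHom.map_det]
  congr 1
  ext i j
  simp only [RingHom.mapMatrix_apply, Matrix.map_apply, hank, Matrix.of_apply]
  have h2 : (mmat hd hH (gG e L b p)).map φ = φ.mapMatrix (mmat hd hH (gG e L b p)) := rfl
  rw [h2, ← map_pow]
  simp only [Matrix.trace, Matrix.diag_apply, RingHom.mapMatrix_apply, Matrix.map_apply, map_sum]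

/-! ### norms -/

theorem generic_wnorm_pow {R : Type} [CommRing R] {ν : R → ℝ} (hν : IsNrm ν) {t : ℝ}
    (ht : 0 ≤ t) (g : MvPolynomial (Fin N) R) (k : ℕ) :
    wnorm ν t (g ^ k) ≤ wnorm ν t g ^ k := by
  induction k with
  | zero =>
    rw [pow_zero, pow_zero]
    have h1 := wnorm_monomial_le hν ht (0 : Fin N →₀ ℕ) (1 : R)
    have h2 : (monomial (0 : Fin N →₀ ℕ) (1 : R)) = 1 := rfl
    rw [h2] at h1
    refine h1.trans ?_
    simpa using hν.one
  | succ k ih =>
    rw [pow_succ, pow_succ]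
    refine (wnorm_mul_le hν ht _ _).trans ?_
    exact mul_le_mul_of_nonneg_right ih (wnorm_nonneg hν ht g)

theorem generic_mmat_pow {R : Type} [CommRing R] {d : ℕ} (hd : 1 ≤ d)
    {H : Fin N → MvPolynomial (Fin N) R} (hH : ∀ i, (H i).totalDegree < d)
    (g : MvPolynomial (Fin N) R) (k : ℕ) : mmat hd hH (g ^ k) = mmat hd hH g ^ k := by
  simp [mmat]

theorem one_le_thU (N e Q lam B : ℕ) : 1 ≤ thU N e Q lam B := by
  unfold thU
  apply Nat.mul_pos
  · omega
  · apply pow_pos
    omega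

theorem generic_norm_le {R : Type} [CommRing R] {ν : R → ℝ} (hν : IsNrm ν) (φ : ℤ →+* R)
    (hφ : ∀ n : ℤ, ν (φ n) ≤ |(n : ℝ)|) {e : ℕ} (he : 2 ≤ e) (hd : 1 ≤ 2 * e - 1)
    {p : MvPolynomial (Fin N) ℤ} (hp : p.totalDegree < 2 * e) {Q B : ℕ} (hQ : l1 p ≤ Q)
    {L : R} (hL : ν L ≤ 1) {b : Fin N → R} (hb : ∀ i, ν (b i) ≤ B)
    (hH : ∀ i, (gH L b (map φ p) i).totalDegree < 2 * e - 1) :
    ν (hank ((2 * e - 1) ^ N) (mmat hd hH (gG e L b (map φ p)))).det ≤
      ((((2 * e - 1) ^ N * ((2 * e - 1) ^ N * thU N e Q 1 B ^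
        (2 * (2 * e - 1) ^ N))) ^ ((2 * e - 1) ^ N) : ℕ) : ℝ) := by
  set D : ℕ := (2 * e - 1) ^ N with hD
  set t : ℝ := ((2 * e * Q * 1 + B + 1 : ℕ) : ℝ) with ht
  have ht1 : 1 ≤ t := by
    rw [ht]
    exact_mod_cast Nat.le_add_left 1 _
  have hL' : ν L ≤ ((1 : ℕ) : ℝ) := by simpa using hL
  have hw := wnorm_gH_le hν φ hφ he hp hQ hL' hb
  have hg := wnorm_gG_le hν φ hφ he hp hQ hL' hb
  have ht0 : 0 ≤ t := by linarith
  set g := gG e L b (map φ p) with hgdef
  have hU1 : (1 : ℝ) ≤ (thU N e Q 1 B : ℕ) := by exact_mod_cast one_le_thU N e Q 1 B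
  have hentry : ∀ i j : Fin D, ν (hank D (mmat hd hH g) i j) ≤
      (D : ℝ) * ((thU N e Q 1 B : ℕ) : ℝ) ^ (2 * D) := by
    intro i j
    have h1 : hank D (mmat hd hH g) i j = (mmat hd hH (g ^ ((i : ℕ) + j))).trace := by
      rw [generic_mmat_pow]
      rfl
    rw [h1]
    refine (mmat_trace_le hν ht1 hd hH hw _).trans ?_
    apply mul_le_mul_of_nonneg_left _ (Nat.cast_nonneg _)
    refine (generic_wnorm_pow hν ht0 g _).trans ?_
    refine (pow_le_pow_left₀ (wnorm_nonneg hν ht0 g) hg _).trans ?_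
    apply pow_le_pow_right₀ hU1
    omega
  refine (det_le_prod hν _ (fun _ => 1) (fun _ => one_pos)).trans ?_
  have h2 : ∀ b : Fin D, ∑ a : Fin D, ν (hank D (mmat hd hH g) a b) * 1 / 1 ≤
      (D : ℝ) * ((D : ℝ) * ((thU N e Q 1 B : ℕ) : ℝ) ^ (2 * D)) := by
    intro b
    calc ∑ a : Fin D, ν (hank D (mmat hd hH g) a b) * 1 / 1
        ≤ ∑ a : Fin D, (D : ℝ) * ((thU N e Q 1 B : ℕ) : ℝ) ^ (2 * D) := by
          apply Finset.sum_le_sum
          intro a _
          rw [mul_one, div_one]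
          exact hentry a b
      _ = _ := by
          rw [Finset.sum_const, Finset.card_univ, Fintype.card_fin, nsmul_eq_mul]
  calc ∏ b : Fin D, ∑ a : Fin D, ν (hank D (mmat hd hH g) a b) * 1 / 1
      ≤ ∏ b : Fin D, (D : ℝ) * ((D : ℝ) * ((thU N e Q 1 B : ℕ) : ℝ) ^ (2 * D)) := by
        apply Finset.prod_le_prod
        · intro b _
          apply Finset.sum_nonneg
          intro a _
          rw [mul_one, div_one]
          exact hν.nonneg _
        · intro b _
          exact h2 b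
    _ = _ := by
        rw [Finset.prod_const, Finset.card_univ, Fintype.card_fin]
        push_cast
        rfl

theorem generic_pnorm_monomial {R : Type} [CommRing R] {ν : R → ℝ} (hν : IsNrm ν) (k : ℕ)
    (c : R) : pnorm ν 1 (Polynomial.monomial k c) ≤ ν c := by
  unfold pnorm
  by_cases hc : c = 0
  · rw [hc]
    simp [hν.nonneg]
  · rw [Polynomial.support_monomial k hc]
    simp

theorem generic_pnorm_C {R : Type} [CommRing R] {ν : R → ℝ} (hν : IsNrm ν) (c : R) :
    pnorm ν 1 (Polynomial.C c) ≤ ν c := generic_pnorm_monomial hν 0 c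

theorem generic_pnorm_X {R : Type} [CommRing R] {ν : R → ℝ} (hν : IsNrm ν) :
    pnorm ν 1 (Polynomial.X : Polynomial R) ≤ 1 :=
  (generic_pnorm_monomial hν 1 1).trans hν.one

theorem generic_coeff_le {R : Type} [CommRing R] {ν : R → ℝ} (hν : IsNrm ν) (G : Polynomial R)
    (k : ℕ) : ν (G.coeff k) ≤ pnorm ν 1 G := by
  unfold pnorm
  by_cases hk : k ∈ G.support
  · have h1 : ν (G.coeff k) = ν (G.coeff k) * 1 ^ k := by simp
    rw [h1]
    exact Finset.single_le_sum (f := fun i => ν (G.coeff i) * 1 ^ i)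
      (fun i _ => mul_nonneg (hν.nonneg _) (by simp)) hk
  · rw [Polynomial.notMem_support_iff.mp hk, hν.zero]
    exact Finset.sum_nonneg fun i _ => mul_nonneg (hν.nonneg _) (by simp)

theorem generic_nodup {e : ℕ} (he : 2 ≤ e) (hd : 1 ≤ 2 * e - 1) {p : MvPolynomial (Fin N) ℤ}
    (hp : p.totalDegree < 2 * e) {Q : ℕ} (hQ : l1 p ≤ Q) {s L : ℕ} (hs : thS N e Q < s)
    (hL : thL1 N e Q s < L)
    (hH : ∀ i, (gH (L : ℂ) (fun i : Fin N => ((bs s e i : ℕ) : ℂ))
      (map (Int.castRingHom ℂ) p) i).totalDegree < 2 * e - 1) :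
    (mmat hd hH (gG e (L : ℂ) (fun i : Fin N => ((bs s e i : ℕ) : ℂ))
      (map (Int.castRingHom ℂ) p))).charpoly.roots.Nodup := by
  set D : ℕ := (2 * e - 1) ^ N with hD
  have hcard : Fintype.card (Fin N → Fin (2 * e - 1)) = D := by simp [hD]
  -- norms
  set ν0 : ℤ → ℝ := fun a : ℤ => |(a : ℝ)| with hν0
  have h0 : IsNrm ν0 := isNrm_int
  have h1 : IsNrm (pnorm ν0 1) := isNrm_pnorm h0 zero_le_one
  have h2 : IsNrm (pnorm (pnorm ν0 1) 1) := isNrm_pnorm h1 zero_le_one
  -- degrees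
  have hdeg : ∀ (R : Type) [CommRing R] (φ : ℤ →+* R), (map φ p).totalDegree < 2 * e := by
    intro R _ φ
    refine lt_of_le_of_lt ?_ hp
    exact Finset.sup_mono (support_map_subset _ _)
  -- the ring of polynomials in s and L
  set bA : Fin N → Polynomial (Polynomial ℤ) := fun i =>
    Polynomial.C (Polynomial.monomial 1 ((2 : ℤ) ^ ((i : ℕ) * (2 * e - 1)))) with hbA
  set φA : ℤ →+* Polynomial (Polynomial ℤ) := Polynomial.C.comp Polynomial.C with hφA
  have hHA : ∀ i, (gH (Polynomial.X : Polynomial (Polynomial ℤ)) bA (map φA p) i).totalDegree < 2 * e - 1 :=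
    gH_totalDegree he _ _ (hdeg _ φA)
  set G : Polynomial (Polynomial ℤ) := (hank D (mmat hd hHA (gG e (Polynomial.X : Polynomial (Polynomial ℤ)) bA (map φA p)))).det with hG
  -- the polynomial does not vanish
  have hG0 : G ≠ 0 := by
    intro hG'
    set φ : Polynomial (Polynomial ℤ) →+* ℂ := Polynomial.eval₂RingHom
      (Polynomial.eval₂RingHom (Int.castRingHom ℂ) 1) 0 with hφ
    have hH1 : ∀ i, (gH (0 : ℂ) (fun i : Fin N => ((bs 1 e i : ℕ) : ℂ))
        (map (Int.castRingHom ℂ) p) i).totalDegree < 2 * e - 1 :=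
      gH_totalDegree he _ _ (hdeg ℂ _)
    have h3 := nodup_zero he hd (map (Int.castRingHom ℂ) p) hH1
    have h4 := (hank_det_ne_zero_iff hcard _).mpr h3
    apply h4
    have h5 := generic_map (D := D) φ hd (L := (Polynomial.X : Polynomial (Polynomial ℤ))) (b := bA) (p := map φA p)
      (L' := (0 : ℂ)) (b' := fun i : Fin N => ((bs 1 e i : ℕ) : ℂ))
      (p' := map (Int.castRingHom ℂ) p) (by simp [hφ])
      (by
        intro i
        simp [hφ, hbA, bs, Polynomial.eval₂_monomial])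
      (by
        rw [map_map, RingHom.ext_int (φ.comp φA) (Int.castRingHom ℂ)]) hHA hH1
    rw [← h5, ← hG, hG', map_zero]
  -- norm of the polynomial
  have hGn := generic_norm_le (B := 2 ^ (N * (2 * e - 1))) h2 φA
    (by
      intro n
      exact (generic_pnorm_C h1 _).trans (generic_pnorm_C h0 _)) he hd hp hQ
    (L := (Polynomial.X : Polynomial (Polynomial ℤ))) (generic_pnorm_X h1) (b := bA)
    (by
      intro i
      refine (generic_pnorm_C h1 _).trans ((generic_pnorm_monomial h0 _ _).trans ?_)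
      have h3 : ν0 ((2 : ℤ) ^ ((i : ℕ) * (2 * e - 1))) = (2 : ℝ) ^ ((i : ℕ) * (2 * e - 1)) := by
        simp [hν0]
      rw [h3]
      push_cast
      apply pow_le_pow_right₀ (by norm_num)
      exact Nat.mul_le_mul_right _ i.2.le) hHA
  rw [← hG] at hGn
  -- the polynomial in L
  set ψ : Polynomial (Polynomial ℤ) →+* Polynomial ℤ := Polynomial.mapRingHom (Polynomial.evalRingHom (s : ℤ)) with hψ
  have hψG : ψ G ≠ 0 := by
    intro hz
    have h3 : G.leadingCoeff ≠ 0 := Polynomial.leadingCoeff_ne_zero.mpr hG0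
    have h4 : pnorm ν0 1 G.leadingCoeff ≤
        ((((2 * e - 1) ^ N * ((2 * e - 1) ^ N * thU N e Q 1 (2 ^ (N * (2 * e - 1))) ^
        (2 * (2 * e - 1) ^ N))) ^ ((2 * e - 1) ^ N) : ℕ) : ℝ) :=
      (generic_coeff_le h1 G G.natDegree).trans hGn
    have h5 := generic_eval_ne_zero G.leadingCoeff h3 h4 (x := (s : ℤ)) (by
      have h6 : ((2 * e - 1) ^ N * ((2 * e - 1) ^ N * thU N e Q 1 (2 ^ (N * (2 * e - 1))) ^
        (2 * (2 * e - 1) ^ N))) ^ ((2 * e - 1) ^ N) < s := by
        unfold thS at hs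
        omega
      exact_mod_cast h6)
    apply h5
    have h6 := congrArg (fun f : Polynomial ℤ => f.coeff G.natDegree) hz
    simpa [hψ, Polynomial.coeff_map] using h6
  set b1 : Fin N → Polynomial ℤ := fun i => Polynomial.C ((bs s e i : ℕ) : ℤ) with hb1
  have hH1 : ∀ i, (gH (Polynomial.X : Polynomial ℤ) b1 (map Polynomial.C p) i).totalDegree <
      2 * e - 1 := gH_totalDegree he _ _ (hdeg _ _)
  have hP := generic_map (D := D) ψ hd (L := (Polynomial.X : Polynomial (Polynomial ℤ))) (b := bA) (p := map φA p)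
      (L' := (Polynomial.X : Polynomial ℤ)) (b' := b1)
      (p' := map Polynomial.C p) (by simp [hψ])
      (by
        intro i
        simp only [hψ, hbA, hb1, bs, Polynomial.coe_mapRingHom, Polynomial.map_C,
          Polynomial.coe_evalRingHom, Polynomial.eval_monomial]
        rw [pow_one]
        congr 1
        push_cast
        ring)
      (by
        rw [map_map, RingHom.ext_int (ψ.comp φA) Polynomial.C]) hHA hH1
  rw [← hG] at hP
  have hPn := generic_norm_le (B := s * 2 ^ (N * (2 * e - 1))) h1 Polynomial.C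
    (by
      intro n
      exact generic_pnorm_C h0 _) he hd hp hQ
    (L := (Polynomial.X : Polynomial ℤ)) (generic_pnorm_X h0) (b := b1)
    (by
      intro i
      refine (generic_pnorm_C h0 _).trans ?_
      have h3 : ν0 ((bs s e i : ℕ) : ℤ) = (s : ℝ) * (2 : ℝ) ^ ((i : ℕ) * (2 * e - 1)) := by
        simp only [hν0, bs]
        push_cast
        rw [abs_of_nonneg (by positivity)]
      rw [h3]
      push_cast
      apply mul_le_mul_of_nonneg_left _ (Nat.cast_nonneg _)
      apply pow_le_pow_right₀ (by norm_num)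
      exact Nat.mul_le_mul_right _ i.2.le) hH1
  rw [← hD, ← hP] at hPn
  have h3 := generic_eval_ne_zero (ψ G) hψG hPn (x := (L : ℤ)) (by
      have h6 : (D * (D * thU N e Q 1 (s * 2 ^ (N * (2 * e - 1))) ^ (2 * D))) ^ D < L := by
        unfold thL1 at hL
        rw [← hD] at hL
        omega
      exact_mod_cast h6)
  -- complex numbers
  apply (hank_det_ne_zero_iff hcard _).mp
  set χ : Polynomial ℤ →+* ℂ := Polynomial.eval₂RingHom (Int.castRingHom ℂ) (L : ℂ) with hχ
  have h5 := generic_map (D := D) χ hd (L := (Polynomial.X : Polynomial ℤ)) (b := b1)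
      (p := map Polynomial.C p)
      (L' := (L : ℂ)) (b' := fun i : Fin N => ((bs s e i : ℕ) : ℂ))
      (p' := map (Int.castRingHom ℂ) p) (by simp [hχ])
      (by
        intro i
        simp [hχ, hb1])
      (by
        rw [map_map, RingHom.ext_int (χ.comp Polynomial.C) (Int.castRingHom ℂ)]) hH1 hH
  rw [← h5, ← hP]
  have h6 : χ (ψ G) = (((ψ G).eval (L : ℤ) : ℤ) : ℂ) := by
    simp [hχ]
  rw [h6]
  exact_mod_cast h3

end Vale.Agent.P337

end
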