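import Mathlib

section

/-!
P337, univariate criterion: definitions.

For a monic integer polynomial `f` the polynomial `UP.PP` has the property that
`∏ PP(α) < 0` (product over the complex roots of `f`) for suitable parameters iff `f` has a real
root below the threshold `C`.
-/

namespace Vale.Agent.P337

/-- parameters of the criterion -/
structure UP where
  D : ℕ
  C : ℕ
  S : ℕ
  M : ℕ
  kap : ℕ
  a : ℕ
  a' : ℕ
  Z : ℕ
  Th : ℕ
  w0 : ℕ
  rho : ℕ
  q : ℕ

namespace UP

open Polynomial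

variable (U : UP) {R : Type} [CommRing R]

/-- weights -/
def w (k : ℕ) : ℕ := if k = 0 then U.w0 else if U.q = 0 then 0 else U.rho ^ k % U.q

/-- the polynomials whose signs are used -/
noncomputable def y (f : R[X]) (k : ℕ) : R[X] :=
  Polynomial.C (U.S : R) *
    (if k = 0 then Polynomial.C (U.C : R) - X else derivative^[k] f)

/-- Newman type products -/
noncomputable def Pm (g : R[X]) : R[X] := ∏ i ∈ Finset.range (U.M + 1), (g - 2 ^ i) ^ (2 * U.kap)

/-- Newman type products -/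
noncomputable def Pp (g : R[X]) : R[X] := ∏ i ∈ Finset.range (U.M + 1), (g + 2 ^ i) ^ (2 * U.kap)

/-- denominators -/
noncomputable def B (f : R[X]) (k : ℕ) : R[X] :=
  (U.a : R[X]) * U.Pm (U.y f k) + (U.a' : R[X]) * U.Pp (U.y f k)

/-- the isolating polynomial -/
noncomputable def PP (f : R[X]) : R[X] :=
  (∑ k ∈ Finset.range U.D, ((U.Z * U.w k * U.a : ℕ) : R[X]) * U.Pm (U.y f k) *
    ∏ j ∈ Finset.range U.D, if j = k then 1 else U.B f j) -
    (U.Th : R[X]) * ∏ j ∈ Finset.range U.D, U.B f j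

theorem y_map {R' : Type} [CommRing R'] (φ : R →+* R') (f : R[X]) (k : ℕ) :
    (U.y f k).map φ = U.y (f.map φ) k := by
  unfold y
  rw [Polynomial.map_mul, Polynomial.map_C, map_natCast]
  congr 1
  split_ifs
  · rw [Polynomial.map_sub, Polynomial.map_C, Polynomial.map_X, map_natCast]
  · rw [← Polynomial.iterate_derivative_map]

theorem Pm_map {R' : Type} [CommRing R'] (φ : R →+* R') (g : R[X]) :
    (U.Pm g).map φ = U.Pm (g.map φ) := by
  unfold Pm
  rw [Polynomial.map_prod]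
  simp

theorem Pp_map {R' : Type} [CommRing R'] (φ : R →+* R') (g : R[X]) :
    (U.Pp g).map φ = U.Pp (g.map φ) := by
  unfold Pp
  rw [Polynomial.map_prod]
  simp

theorem B_map {R' : Type} [CommRing R'] (φ : R →+* R') (f : R[X]) (k : ℕ) :
    (U.B f k).map φ = U.B (f.map φ) k := by
  unfold B
  rw [Polynomial.map_add, Polynomial.map_mul, Polynomial.map_mul, Polynomial.map_natCast,
    Polynomial.map_natCast, Pm_map, Pp_map, y_map]

theorem PP_map {R' : Type} [CommRing R'] (φ : R →+* R') (f : R[X]) :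
    (U.PP f).map φ = U.PP (f.map φ) := by
  unfold PP
  rw [Polynomial.map_sub, Polynomial.map_sum, Polynomial.map_mul, Polynomial.map_prod,
    Polynomial.map_natCast]
  congr 1
  · apply Finset.sum_congr rfl
    intro k _
    rw [Polynomial.map_mul, Polynomial.map_mul, Polynomial.map_prod, Polynomial.map_natCast,
      Pm_map, y_map]
    congr 1
    apply Finset.prod_congr rfl
    intro j _
    split_ifs
    · rw [Polynomial.map_one]
    · rw [B_map]
  · simp only [B_map]

/-! ### scalar versions -/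

/-- Newman type product at a number -/
noncomputable def pm (x : R) : R := ∏ i ∈ Finset.range (U.M + 1), (x - 2 ^ i) ^ (2 * U.kap)

/-- Newman type product at a number -/
noncomputable def pp (x : R) : R := ∏ i ∈ Finset.range (U.M + 1), (x + 2 ^ i) ^ (2 * U.kap)

theorem eval_Pm (g : R[X]) (x : R) : (U.Pm g).eval x = U.pm (g.eval x) := by
  unfold Pm pm
  rw [Polynomial.eval_prod]
  apply Finset.prod_congr rfl
  intro i _
  simp

theorem eval_Pp (g : R[X]) (x : R) : (U.Pp g).eval x = U.pp (g.eval x) := by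
  unfold Pp pp
  rw [Polynomial.eval_prod]
  apply Finset.prod_congr rfl
  intro i _
  simp

theorem eval_B (f : R[X]) (k : ℕ) (x : R) : (U.B f k).eval x =
    (U.a : R) * U.pm ((U.y f k).eval x) + (U.a' : R) * U.pp ((U.y f k).eval x) := by
  unfold B
  rw [Polynomial.eval_add, Polynomial.eval_mul, Polynomial.eval_mul, Polynomial.eval_natCast,
    Polynomial.eval_natCast, eval_Pm, eval_Pp]

theorem eval_PP (f : R[X]) (x : R) : (U.PP f).eval x =
    (∑ k ∈ Finset.range U.D, ((U.Z * U.w k * U.a : ℕ) : R) * U.pm ((U.y f k).eval x) *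
      ∏ j ∈ Finset.range U.D, if j = k then 1 else
        ((U.a : R) * U.pm ((U.y f j).eval x) + (U.a' : R) * U.pp ((U.y f j).eval x))) -
      (U.Th : R) * ∏ j ∈ Finset.range U.D,
        ((U.a : R) * U.pm ((U.y f j).eval x) + (U.a' : R) * U.pp ((U.y f j).eval x)) := by
  unfold PP
  rw [Polynomial.eval_sub, Polynomial.eval_mul, Polynomial.eval_finsetSum, Polynomial.eval_prod,
    Polynomial.eval_natCast]
  congr 1
  · apply Finset.sum_congr rfl
    intro k _
    rw [Polynomial.eval_mul, Polynomial.eval_mul, Polynomial.eval_natCast, eval_Pm,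
      Polynomial.eval_prod]
    congr 1
    apply Finset.prod_congr rfl
    intro j _
    split_ifs
    · rw [Polynomial.eval_one]
    · rw [eval_B]
  · simp only [eval_B]

end UP

/-- bound for the values -/
def thY (D C u : ℕ) : ℕ := (D * (2 * u + 1)) ^ D + C + u

end Vale.Agent.P337

end

section

/-!
P337, univariate criterion: degree of the isolating polynomial.
-/

namespace Vale.Agent.P337

open Polynomial

theorem dg_natCast_mul_le {R : Type} [CommRing R] (n : ℕ) (g : R[X]) :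
    ((n : R[X]) * g).natDegree ≤ g.natDegree := by
  refine le_trans natDegree_mul_le ?_
  rw [natDegree_natCast, zero_add]

theorem dg_iterate_derivative {R : Type} [CommRing R] (f : R[X]) (k : ℕ) :
    (derivative^[k] f).natDegree ≤ f.natDegree := by
  induction k with
  | zero => simp
  | succ k ih =>
    rw [Function.iterate_succ_apply']
    exact le_trans (natDegree_derivative_le _) (le_trans (Nat.sub_le _ _) ih)

theorem dg_y (U : UP) {R : Type} [CommRing R] (f : R[X]) (hf : f.natDegree ≤ U.D)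
    (hD : 1 ≤ U.D) (k : ℕ) : (U.y f k).natDegree ≤ U.D := by
  unfold UP.y
  refine le_trans natDegree_mul_le ?_
  rw [natDegree_C, zero_add]
  split_ifs
  · refine le_trans (natDegree_sub_le _ _) ?_
    rw [natDegree_C]
    exact max_le (Nat.zero_le _) (le_trans natDegree_X_le hD)
  · exact le_trans (dg_iterate_derivative f k) hf

theorem dg_prod_pow {R : Type} [CommRing R] (M kap d : ℕ) (g : ℕ → R[X])
    (hg : ∀ i, (g i).natDegree ≤ d) :
    (∏ i ∈ Finset.range (M + 1), (g i) ^ (2 * kap)).natDegree ≤ d * (2 * kap * (M + 1)) := by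
  refine le_trans (natDegree_prod_le _ _) ?_
  calc ∑ i ∈ Finset.range (M + 1), ((g i) ^ (2 * kap)).natDegree
      ≤ ∑ _i ∈ Finset.range (M + 1), (2 * kap) * d := by
        refine Finset.sum_le_sum fun i _ => ?_
        exact le_trans natDegree_pow_le (Nat.mul_le_mul le_rfl (hg i))
    _ = d * (2 * kap * (M + 1)) := by
        rw [Finset.sum_const, Finset.card_range, smul_eq_mul]; ring

theorem dg_two_pow {R : Type} [CommRing R] (i : ℕ) : ((2 : R[X]) ^ i).natDegree = 0 := by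
  have h : ((2 : R[X]) ^ i) = (((2 ^ i : ℕ)) : R[X]) := by push_cast; rfl
  rw [h, natDegree_natCast]

theorem dg_Pm (U : UP) {R : Type} [CommRing R] {g : R[X]} (hg : g.natDegree ≤ U.D) :
    (U.Pm g).natDegree ≤ U.D * (2 * U.kap * (U.M + 1)) := by
  unfold UP.Pm
  refine dg_prod_pow U.M U.kap U.D (fun i => g - 2 ^ i) fun i => ?_
  refine le_trans (natDegree_sub_le _ _) ?_
  rw [dg_two_pow]
  exact max_le hg (Nat.zero_le _)

theorem dg_Pp (U : UP) {R : Type} [CommRing R] {g : R[X]} (hg : g.natDegree ≤ U.D) :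
    (U.Pp g).natDegree ≤ U.D * (2 * U.kap * (U.M + 1)) := by
  unfold UP.Pp
  refine dg_prod_pow U.M U.kap U.D (fun i => g + 2 ^ i) fun i => ?_
  refine le_trans (natDegree_add_le _ _) ?_
  rw [dg_two_pow]
  exact max_le hg (Nat.zero_le _)

theorem dg_B (U : UP) {R : Type} [CommRing R] (f : R[X]) (hf : f.natDegree ≤ U.D)
    (hD : 1 ≤ U.D) (k : ℕ) : (U.B f k).natDegree ≤ U.D * (2 * U.kap * (U.M + 1)) := by
  unfold UP.B
  refine le_trans (natDegree_add_le _ _) (max_le ?_ ?_)
  · exact le_trans (dg_natCast_mul_le _ _) (dg_Pm U (dg_y U f hf hD k))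
  · exact le_trans (dg_natCast_mul_le _ _) (dg_Pp U (dg_y U f hf hD k))

theorem dg_prod_ite {R : Type} [CommRing R] (D E k : ℕ) (hk : k ∈ Finset.range D)
    (b : ℕ → R[X]) (hb : ∀ j, (b j).natDegree ≤ E) :
    (∏ j ∈ Finset.range D, if j = k then 1 else b j).natDegree + E ≤ D * E := by
  rw [← Finset.mul_prod_erase _ _ hk, if_pos rfl, one_mul]
  have h1 : (∏ j ∈ (Finset.range D).erase k, if j = k then 1 else b j).natDegree
      ≤ ((Finset.range D).erase k).card * E := by
    refine le_trans (natDegree_prod_le _ _) ?_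
    refine le_trans (Finset.sum_le_card_nsmul _ _ E fun j hj => ?_) (le_of_eq (by simp))
    rw [if_neg (Finset.ne_of_mem_erase hj)]
    exact hb j
  rw [Finset.card_erase_of_mem hk, Finset.card_range] at h1
  have hD : 1 ≤ D := by
    have := Finset.mem_range.1 hk
    omega
  have h2 : D * E = (D - 1) * E + E := by
    obtain ⟨d, rfl⟩ := Nat.exists_eq_add_of_le' hD
    simp [Nat.add_mul]
  rw [h2]
  exact Nat.add_le_add_right h1 E

/-- degree of the isolating polynomial -/
theorem PP_natDegree_le (U : UP) {R : Type} [CommRing R] (f : R[X]) (hf : f.natDegree ≤ U.D)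
    (hD : 1 ≤ U.D) : (U.PP f).natDegree ≤ U.D * (U.D * (2 * U.kap * (U.M + 1))) := by
  unfold UP.PP
  refine le_trans (natDegree_sub_le _ _) (max_le ?_ ?_)
  · refine natDegree_sum_le_of_forall_le _ _ fun k hk => ?_
    refine le_trans natDegree_mul_le ?_
    have h1 : (((U.Z * U.w k * U.a : ℕ) : R[X]) * U.Pm (U.y f k)).natDegree
        ≤ U.D * (2 * U.kap * (U.M + 1)) :=
      le_trans (dg_natCast_mul_le _ _) (dg_Pm U (dg_y U f hf hD k))
    have h2 := dg_prod_ite U.D (U.D * (2 * U.kap * (U.M + 1))) k hk (U.B f) (dg_B U f hf hD)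
    omega
  · refine le_trans (dg_natCast_mul_le _ _) ?_
    refine le_trans (natDegree_prod_le _ _) ?_
    refine le_trans (Finset.sum_le_card_nsmul _ _ _ fun j _ => dg_B U f hf hD j) ?_
    rw [Finset.card_range, smul_eq_mul]

end Vale.Agent.P337

end

section

/-!
P337, univariate criterion: derivatives are bounded in a disc containing the roots.
-/

namespace Vale.Agent.P337

open Polynomial

theorem derBound_mul (g : ℂ[X]) (a : ℂ) (k : ℕ) :
    derivative^[k + 1] ((X - C a) * g) =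
      (X - C a) * derivative^[k + 1] g + ((k : ℂ[X]) + 1) * derivative^[k] g := by
  induction k with
  | zero => simp [derivative_mul]; ring
  | succ k ih =>
    rw [Function.iterate_succ_apply', ih, Function.iterate_succ_apply' derivative (k + 1) g,
      Function.iterate_succ_apply' derivative k g]
    simp only [derivative_add, derivative_mul, derivative_sub, derivative_X, derivative_C,
      derivative_natCast, derivative_one]
    push_cast
    ring

theorem derBound_multiset {u : ℝ} (hu : 0 ≤ u) {z : ℂ} (hz : ‖z‖ ≤ u) (S : Multiset ℂ)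
    (hS : ∀ a ∈ S, ‖a‖ ≤ u) (k : ℕ) :
    ‖(derivative^[k] (S.map fun a => X - C a).prod).eval z‖ ≤
      (S.card.descFactorial k : ℝ) * (2 * u + 1) ^ S.card := by
  induction S using Multiset.induction_on generalizing k with
  | empty =>
    cases k with
    | zero => simp
    | succ k => simp
  | cons a S ih =>
    have hS' : ∀ b ∈ S, ‖b‖ ≤ u := fun b hb => hS b (Multiset.mem_cons_of_mem hb)
    have ha : ‖z - a‖ ≤ 2 * u := by
      calc ‖z - a‖ ≤ ‖z‖ + ‖a‖ := norm_sub_le _ _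
        _ ≤ 2 * u := by linarith [hS a (Multiset.mem_cons_self a S)]
    have hM : (1 : ℝ) ≤ 2 * u + 1 := by linarith
    have hM' : 2 * u ≤ 2 * u + 1 := by linarith
    rw [Multiset.map_cons, Multiset.prod_cons, Multiset.card_cons]
    cases k with
    | zero =>
      have h := ih hS' 0
      simp only [Function.iterate_zero, id_eq, Nat.descFactorial_zero, Nat.cast_one, one_mul]
        at h ⊢
      rw [eval_mul, norm_mul, pow_succ, mul_comm]
      refine mul_le_mul h ?_ (norm_nonneg _) (by positivity)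
      simp only [eval_sub, eval_X, eval_C]
      exact ha.trans hM'
    | succ k =>
      have h1 := ih hS' (k + 1)
      have h2 := ih hS' k
      obtain ⟨n, hn⟩ : ∃ n, n = S.card := ⟨_, rfl⟩
      rw [← hn] at h1 h2 ⊢
      obtain ⟨F, hF⟩ : ∃ F, F = n.descFactorial k := ⟨_, rfl⟩
      obtain ⟨A, hA⟩ : ∃ A : ℝ, A = (2 * u + 1) ^ n := ⟨_, rfl⟩
      have hA0 : 0 ≤ A := by rw [hA]; positivity
      rw [Nat.descFactorial_succ, ← hF, ← hA] at h1
      rw [← hF, ← hA] at h2
      rw [Nat.succ_descFactorial_succ, ← hF, pow_succ, ← hA, derBound_mul, eval_add, eval_mul,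
        eval_mul]
      have h3 : ‖eval z (X - C a)‖ ≤ 2 * u + 1 := by
        simp only [eval_sub, eval_X, eval_C]
        exact ha.trans hM'
      have h4 : ‖eval z ((k : ℂ[X]) + 1)‖ ≤ ((k : ℝ) + 1) * (2 * u + 1) := by
        have : eval z ((k : ℂ[X]) + 1) = ((k + 1 : ℕ) : ℂ) := by simp
        rw [this, Complex.norm_natCast]
        push_cast
        have : (0 : ℝ) ≤ (k : ℝ) + 1 := by positivity
        nlinarith
      have h5 : ((n - k : ℕ) : ℝ) * F + (k + 1) * F ≤ (n + 1) * F := by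
        rcases Nat.lt_or_ge n k with h | h
        · have : F = 0 := by rw [hF]; exact Nat.descFactorial_eq_zero_iff_lt.2 h
          simp [this]
        · rw [Nat.cast_sub h]
          linarith
      calc ‖eval z (X - C a) * eval z (derivative^[k + 1] (S.map fun a => X - C a).prod) +
            eval z ((k : ℂ[X]) + 1) * eval z (derivative^[k] (S.map fun a => X - C a).prod)‖
          ≤ ‖eval z (X - C a) * eval z (derivative^[k + 1] (S.map fun a => X - C a).prod)‖ +
            ‖eval z ((k : ℂ[X]) + 1) * eval z (derivative^[k] (S.map fun a => X - C a).prod)‖ :=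
            norm_add_le _ _
        _ = ‖eval z (X - C a)‖ * ‖eval z (derivative^[k + 1] (S.map fun a => X - C a).prod)‖ +
            ‖eval z ((k : ℂ[X]) + 1)‖ *
              ‖eval z (derivative^[k] (S.map fun a => X - C a).prod)‖ := by
            rw [norm_mul, norm_mul]
        _ ≤ (2 * u + 1) * (((n - k) * F : ℕ) * A) + ((k : ℝ) + 1) * (2 * u + 1) * (F * A) := by
            gcongr
        _ = (((n - k : ℕ) : ℝ) * F + (k + 1) * F) * (A * (2 * u + 1)) := by
            push_cast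
            ring
        _ ≤ ((n + 1) * F) * (A * (2 * u + 1)) := by gcongr
        _ = (((n + 1) * F : ℕ) : ℝ) * (A * (2 * u + 1)) := by push_cast; ring

/-- derivatives of a monic polynomial are bounded in a disc containing its roots -/
theorem derivative_bound {f : ℂ[X]} (hf : f.Monic) {D : ℕ} (hD : f.natDegree = D) {u : ℝ}
    (hu : 0 ≤ u) (hr : ∀ z ∈ f.roots, ‖z‖ ≤ u) (k : ℕ) {z : ℂ} (hz : ‖z‖ ≤ u) :
    ‖(derivative^[k] f).eval z‖ ≤ (D * (2 * u + 1)) ^ D := by
  have hsplit : f.Splits := IsAlgClosed.splits f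
  have hcard : f.roots.card = D := by rw [← hD]; exact hsplit.natDegree_eq_card_roots.symm
  have hprod : (f.roots.map fun a => X - C a).prod = f := by
    have := hsplit.eq_prod_roots
    rw [hf.leadingCoeff, C_1, one_mul] at this
    exact this.symm
  have h := derBound_multiset hu hz f.roots hr k
  rw [hprod, hcard] at h
  refine h.trans ?_
  rw [mul_pow]
  refine mul_le_mul_of_nonneg_right ?_ (by positivity)
  have hnat : D.descFactorial k ≤ D ^ D := by
    rcases Nat.lt_or_ge D k with h1 | h1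
    · rw [Nat.descFactorial_eq_zero_iff_lt.2 h1]
      exact Nat.zero_le _
    · rcases Nat.eq_zero_or_pos D with h2 | h2
      · subst h2
        have : k = 0 := by omega
        subst this
        simp
      · exact (Nat.descFactorial_le_pow D k).trans (Nat.pow_le_pow_right h2 h1)
  exact_mod_cast hnat

end Vale.Agent.P337

end

section

/-!
P337, univariate criterion: size of the isolating polynomial.
-/

namespace Vale.Agent.P337

open Polynomial

private theorem bnd_two_pow (i : ℕ) : ‖((2 : ℂ) ^ i)‖ = 2 ^ i := by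
  rw [norm_pow]
  norm_num

private theorem bnd_pm (U : UP) {x : ℂ} {Y : ℝ} (hx : ‖x‖ ≤ Y) :
    ‖U.pm x‖ ≤ (Y + 2 ^ U.M + 1) ^ (2 * U.kap * (U.M + 1)) := by
  unfold UP.pm
  rw [norm_prod]
  refine (Finset.prod_le_prod (g := fun _ => (Y + 2 ^ U.M + 1) ^ (2 * U.kap))
    (fun i _ => norm_nonneg _) fun i hi => ?_).trans (le_of_eq ?_)
  · rw [norm_pow]
    refine pow_le_pow_left₀ (norm_nonneg _) ?_ _
    refine (norm_sub_le _ _).trans ?_
    rw [bnd_two_pow]
    have h2 : (2 : ℝ) ^ i ≤ 2 ^ U.M :=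
      pow_le_pow_right₀ (by norm_num) (by rw [Finset.mem_range] at hi; omega)
    linarith
  · rw [Finset.prod_const, Finset.card_range, ← pow_mul]

private theorem bnd_pp (U : UP) {x : ℂ} {Y : ℝ} (hx : ‖x‖ ≤ Y) :
    ‖U.pp x‖ ≤ (Y + 2 ^ U.M + 1) ^ (2 * U.kap * (U.M + 1)) := by
  unfold UP.pp
  rw [norm_prod]
  refine (Finset.prod_le_prod (g := fun _ => (Y + 2 ^ U.M + 1) ^ (2 * U.kap))
    (fun i _ => norm_nonneg _) fun i hi => ?_).trans (le_of_eq ?_)
  · rw [norm_pow]
    refine pow_le_pow_left₀ (norm_nonneg _) ?_ _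
    refine (norm_add_le _ _).trans ?_
    rw [bnd_two_pow]
    have h2 : (2 : ℝ) ^ i ≤ 2 ^ U.M :=
      pow_le_pow_right₀ (by norm_num) (by rw [Finset.mem_range] at hi; omega)
    linarith
  · rw [Finset.prod_const, Finset.card_range, ← pow_mul]

private theorem bnd_w (U : UP) (hq : 0 < U.q) (k : ℕ) : U.w k ≤ U.w0 + U.q := by
  unfold UP.w
  by_cases hk : k = 0
  · rw [if_pos hk]
    exact Nat.le_add_right _ _
  · rw [if_neg hk, if_neg hq.ne']
    exact (Nat.mod_lt _ hq).le.trans (Nat.le_add_left _ _)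

private theorem bnd_y (U : UP) {f : ℂ[X]} (hf : f.Monic) (hfD : f.natDegree = U.D) {u : ℕ}
    (hu : ∀ z ∈ f.roots, ‖z‖ ≤ u) {z : ℂ} (hz : ‖z‖ ≤ u) (k : ℕ) :
    ‖(U.y f k).eval z‖ ≤ (U.S : ℝ) * (thY U.D U.C u : ℕ) := by
  unfold UP.y
  rw [eval_mul, eval_C, norm_mul, Complex.norm_natCast]
  refine mul_le_mul_of_nonneg_left ?_ (Nat.cast_nonneg _)
  have hth : ((thY U.D U.C u : ℕ) : ℝ) = (U.D * (2 * u + 1)) ^ U.D + U.C + u := by
    unfold thY
    push_cast
    rfl
  rw [hth]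
  by_cases hk : k = 0
  · rw [if_pos hk, eval_sub, eval_C, eval_X]
    refine (norm_sub_le _ _).trans ?_
    rw [Complex.norm_natCast]
    have h1 : (0 : ℝ) ≤ (U.D * (2 * u + 1)) ^ U.D := by positivity
    linarith
  · rw [if_neg hk]
    refine (derivative_bound hf hfD (Nat.cast_nonneg u) hu k hz).trans ?_
    have h1 : (0 : ℝ) ≤ (U.C : ℝ) + u := by positivity
    linarith

/-- size of the isolating polynomial -/
theorem PP_bound (U : UP) {f : ℂ[X]} (hf : f.Monic) (hfD : f.natDegree = U.D) (hD : 1 ≤ U.D)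
    (hq : 0 < U.q) {u : ℕ} (hu : ∀ z ∈ f.roots, ‖z‖ ≤ u) (haa : U.a ≤ U.a') (haa' : U.a' ≤ 2 * U.a) {z : ℂ}
    (hz : ‖z‖ ≤ u) :
    ‖(U.PP f).eval z‖ ≤ (U.D * U.Z * (U.w0 + U.q) * U.a + U.Th) *
      (3 * U.a * (U.S * thY U.D U.C u + 2 ^ U.M + 1) ^ (2 * U.kap * (U.M + 1)) + 1) ^ (U.D + 1) := by
  set W : ℝ := (U.S * thY U.D U.C u + 2 ^ U.M + 1) ^ (2 * U.kap * (U.M + 1)) with hW
  have hW0 : 0 ≤ W := by positivity
  have hpm : ∀ k, ‖U.pm ((U.y f k).eval z)‖ ≤ W := fun k => bnd_pm U (bnd_y U hf hfD hu hz k)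
  have hpp : ∀ k, ‖U.pp ((U.y f k).eval z)‖ ≤ W := fun k => bnd_pp U (bnd_y U hf hfD hu hz k)
  set E : ℝ := 3 * U.a * W + 1 with hE
  have hE1 : 1 ≤ E := by
    have : (0 : ℝ) ≤ 3 * U.a * W := by positivity
    linarith
  have hE0 : 0 ≤ E := by linarith
  have hB : ∀ j, ‖(U.a : ℂ) * U.pm ((U.y f j).eval z) + (U.a' : ℂ) * U.pp ((U.y f j).eval z)‖ ≤
      E := by
    intro j
    refine (norm_add_le _ _).trans ?_
    rw [norm_mul, norm_mul, Complex.norm_natCast, Complex.norm_natCast]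
    have h1 : (U.a : ℝ) * ‖U.pm ((U.y f j).eval z)‖ ≤ U.a * W :=
      mul_le_mul_of_nonneg_left (hpm j) (Nat.cast_nonneg _)
    have h2 : (U.a' : ℝ) * ‖U.pp ((U.y f j).eval z)‖ ≤ U.a' * W :=
      mul_le_mul_of_nonneg_left (hpp j) (Nat.cast_nonneg _)
    have h3 : (U.a' : ℝ) ≤ 2 * U.a := by exact_mod_cast haa'
    have h4 : (U.a' : ℝ) * W ≤ 2 * U.a * W := mul_le_mul_of_nonneg_right h3 hW0
    rw [hE]
    linarith
  have hprod1 : ∀ k, ‖∏ j ∈ Finset.range U.D, (if j = k then (1 : ℂ) else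
      ((U.a : ℂ) * U.pm ((U.y f j).eval z) + (U.a' : ℂ) * U.pp ((U.y f j).eval z)))‖ ≤
      E ^ U.D := by
    intro k
    rw [norm_prod]
    refine (Finset.prod_le_prod (g := fun _ => E) (fun i _ => norm_nonneg _) fun i _ => ?_).trans
      (le_of_eq ?_)
    · by_cases hik : i = k
      · rw [if_pos hik, norm_one]
        exact hE1
      · rw [if_neg hik]
        exact hB i
    · rw [Finset.prod_const, Finset.card_range]
  have hprod2 : ‖∏ j ∈ Finset.range U.D,
      ((U.a : ℂ) * U.pm ((U.y f j).eval z) + (U.a' : ℂ) * U.pp ((U.y f j).eval z))‖ ≤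
      E ^ U.D := by
    rw [norm_prod]
    refine (Finset.prod_le_prod (g := fun _ => E) (fun i _ => norm_nonneg _) fun i _ => hB i).trans
      (le_of_eq ?_)
    rw [Finset.prod_const, Finset.card_range]
  rw [U.eval_PP]
  refine (norm_sub_le _ _).trans ?_
  have hT2 : ‖(U.Th : ℂ) * ∏ j ∈ Finset.range U.D,
      ((U.a : ℂ) * U.pm ((U.y f j).eval z) + (U.a' : ℂ) * U.pp ((U.y f j).eval z))‖ ≤
      U.Th * E ^ (U.D + 1) := by
    rw [norm_mul, Complex.norm_natCast]
    refine mul_le_mul_of_nonneg_left (hprod2.trans ?_) (Nat.cast_nonneg _)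
    exact pow_le_pow_right₀ hE1 (Nat.le_succ _)
  have hT1 : ‖∑ k ∈ Finset.range U.D, ((U.Z * U.w k * U.a : ℕ) : ℂ) * U.pm ((U.y f k).eval z) *
      ∏ j ∈ Finset.range U.D, (if j = k then (1 : ℂ) else
        ((U.a : ℂ) * U.pm ((U.y f j).eval z) + (U.a' : ℂ) * U.pp ((U.y f j).eval z)))‖ ≤
      (U.D * U.Z * (U.w0 + U.q) * U.a) * E ^ (U.D + 1) := by
    refine (norm_sum_le _ _).trans ?_
    have hk : ∀ k ∈ Finset.range U.D,
        ‖((U.Z * U.w k * U.a : ℕ) : ℂ) * U.pm ((U.y f k).eval z) *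
          ∏ j ∈ Finset.range U.D, (if j = k then (1 : ℂ) else
            ((U.a : ℂ) * U.pm ((U.y f j).eval z) + (U.a' : ℂ) * U.pp ((U.y f j).eval z)))‖ ≤
        (U.Z * (U.w0 + U.q) * U.a) * E ^ (U.D + 1) := by
      intro k _
      rw [norm_mul, norm_mul, Complex.norm_natCast]
      have h1 : (((U.Z * U.w k * U.a : ℕ) : ℝ)) * ‖U.pm ((U.y f k).eval z)‖ ≤
          (U.Z * (U.w0 + U.q) * U.a) * E := by
        have hw : (U.w k : ℝ) ≤ U.w0 + U.q := by exact_mod_cast bnd_w U hq k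
        have h2 : (((U.Z * U.w k * U.a : ℕ) : ℝ)) * ‖U.pm ((U.y f k).eval z)‖ ≤
            ((U.Z * U.w k * U.a : ℕ) : ℝ) * W :=
          mul_le_mul_of_nonneg_left (hpm k) (Nat.cast_nonneg _)
        refine h2.trans ?_
        push_cast
        have h3 : (U.a : ℝ) * W ≤ U.a * E := by
          rcases Nat.eq_zero_or_pos U.a with h0 | h0
          · rw [h0]
            simp
          · refine mul_le_mul_of_nonneg_left ?_ (Nat.cast_nonneg _)
            have h4 : (1 : ℝ) ≤ U.a := by exact_mod_cast h0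
            have h5 : 1 * W ≤ U.a * W := mul_le_mul_of_nonneg_right h4 hW0
            rw [hE]
            linarith
        have h6 : (U.Z : ℝ) * U.w k ≤ U.Z * (U.w0 + U.q) :=
          mul_le_mul_of_nonneg_left hw (Nat.cast_nonneg _)
        calc (U.Z : ℝ) * U.w k * U.a * W = (U.Z * U.w k) * (U.a * W) := by ring
          _ ≤ (U.Z * (U.w0 + U.q)) * (U.a * E) :=
            mul_le_mul h6 h3 (by positivity) (by positivity)
          _ = (U.Z * (U.w0 + U.q) * U.a) * E := by ring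
      calc _ ≤ ((U.Z * (U.w0 + U.q) * U.a) * E) * E ^ U.D :=
            mul_le_mul h1 (hprod1 k) (norm_nonneg _) (by positivity)
        _ = (U.Z * (U.w0 + U.q) * U.a) * E ^ (U.D + 1) := by ring
    refine (Finset.sum_le_sum hk).trans (le_of_eq ?_)
    rw [Finset.sum_const, Finset.card_range, nsmul_eq_mul]
    ring
  rw [add_mul]
  exact add_le_add hT1 hT2

end Vale.Agent.P337

end

section

/-!
P337: determinant of a polynomial in a matrix.
-/

namespace Vale.Agent.P337

open Polynomial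

theorem detAeval_card_roots {n : Type} [Fintype n] [DecidableEq n] (M : Matrix n n ℂ) :
    Multiset.card M.charpoly.roots = Fintype.card n := by
  rw [← (IsAlgClosed.splits M.charpoly).natDegree_eq_card_roots, Matrix.charpoly_natDegree_eq_dim]

theorem detAeval_mul {n : Type} [Fintype n] [DecidableEq n] (M : Matrix n n ℂ) {P Q : ℂ[X]}
    (hP : (aeval M P).det = (M.charpoly.roots.map fun z => P.eval z).prod)
    (hQ : (aeval M Q).det = (M.charpoly.roots.map fun z => Q.eval z).prod) :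
    (aeval M (P * Q)).det = (M.charpoly.roots.map fun z => (P * Q).eval z).prod := by
  rw [map_mul, Matrix.det_mul, hP, hQ, ← Multiset.prod_map_mul]
  simp only [eval_mul]

theorem detAeval_C {n : Type} [Fintype n] [DecidableEq n] (M : Matrix n n ℂ) (c : ℂ) :
    (aeval M (C c)).det = (M.charpoly.roots.map fun z => (C c).eval z).prod := by
  simp only [eval_C, Multiset.map_const', Multiset.prod_replicate, detAeval_card_roots]
  rw [aeval_C, Matrix.algebraMap_eq_diagonal, Matrix.det_diagonal]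
  simp

theorem detAeval_X_sub_C {n : Type} [Fintype n] [DecidableEq n] (M : Matrix n n ℂ) (b : ℂ) :
    (aeval M (X - C b)).det = (M.charpoly.roots.map fun z => (X - C b).eval z).prod := by
  have h1 : aeval M (X - C b) = -(Matrix.scalar n b - M) := by
    rw [map_sub, aeval_X, aeval_C, neg_sub]
    rfl
  rw [h1, Matrix.det_neg, ← Matrix.eval_charpoly,
    (IsAlgClosed.splits M.charpoly).eval_eq_prod_roots_of_monic M.charpoly_monic,
    ← detAeval_card_roots M]
  have h2 : ((-1 : ℂ)) ^ Multiset.card M.charpoly.roots =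
      (M.charpoly.roots.map fun _ => (-1 : ℂ)).prod := by
    rw [Multiset.map_const', Multiset.prod_replicate]
  rw [h2, ← Multiset.prod_map_mul]
  congr 1
  apply Multiset.map_congr rfl
  intro z _
  simp

/-- determinant of a polynomial in a matrix -/
theorem det_aeval_eq_prod {n : Type} [Fintype n] [DecidableEq n] (M : Matrix n n ℂ) (P : ℂ[X]) :
    (aeval M P).det = (M.charpoly.roots.map fun z => P.eval z).prod := by
  rw [(IsAlgClosed.splits P).eq_prod_roots]
  refine detAeval_mul M (detAeval_C M _) ?_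
  generalize P.roots = s
  induction s using Multiset.induction_on with
  | empty =>
    rw [Multiset.map_zero, Multiset.prod_zero]
    have h := detAeval_C M 1
    rwa [C_1] at h
  | cons b s ih =>
    rw [Multiset.map_cons, Multiset.prod_cons]
    exact detAeval_mul M (detAeval_X_sub_C M b) ih

end Vale.Agent.P337

end

section

/-!
P337, univariate criterion: the Newman type quotient `u = a pm / (a pm + a' pp)` approximates a
step function.
-/

namespace Vale.Agent.P337

namespace UP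

variable (U : UP)

theorem pm_nonneg (x : ℝ) : 0 ≤ U.pm x :=
  Finset.prod_nonneg fun _ _ => (even_two_mul _).pow_nonneg _

theorem pp_nonneg (x : ℝ) : 0 ≤ U.pp x :=
  Finset.prod_nonneg fun _ _ => (even_two_mul _).pow_nonneg _

theorem pp_neg {R : Type} [CommRing R] (x : R) : U.pp (-x) = U.pm x := by
  unfold pp pm
  refine Finset.prod_congr rfl fun i _ => ?_
  have h : -x + 2 ^ i = -(x - 2 ^ i) := by ring
  rw [h, (even_two_mul _).neg_pow]

theorem newman_pp_pos {x : ℝ} (hx : 0 ≤ x) : 0 < U.pp x := by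
  unfold pp
  refine Finset.prod_pos fun i _ => pow_pos ?_ _
  have : (0 : ℝ) < 2 ^ i := by positivity
  linarith

theorem newman_pm_pos {x : ℝ} (hx : x ≤ 0) : 0 < U.pm x := by
  rw [← pp_neg]
  exact U.newman_pp_pos (by linarith)

theorem den_pos (ha : 0 < U.a) (ha' : 0 < U.a') (x : ℝ) :
    0 < (U.a : ℝ) * U.pm x + (U.a' : ℝ) * U.pp x := by
  have h1 : (0 : ℝ) < U.a := by exact_mod_cast ha
  have h2 : (0 : ℝ) < U.a' := by exact_mod_cast ha'
  rcases le_total 0 x with hx | hx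
  · exact add_pos_of_nonneg_of_pos (mul_nonneg h1.le (U.pm_nonneg x))
      (mul_pos h2 (U.newman_pp_pos hx))
  · exact add_pos_of_pos_of_nonneg (mul_pos h1 (U.newman_pm_pos hx))
      (mul_nonneg h2.le (U.pp_nonneg x))

theorem newman_factor {x y : ℝ} (hx : 0 ≤ x) (hy : 0 ≤ y) (k : ℕ) :
    (x - y) ^ (2 * k) ≤ (x + y) ^ (2 * k) := by
  rw [pow_mul, pow_mul]
  refine pow_le_pow_left₀ (sq_nonneg _) ?_ k
  nlinarith [mul_nonneg hx hy]

theorem newman_pm_le_pp {x : ℝ} (hx : 0 ≤ x) : U.pm x ≤ U.pp x := by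
  unfold pm pp
  refine Finset.prod_le_prod (fun i _ => (even_two_mul _).pow_nonneg _) fun i _ => ?_
  exact newman_factor hx (by positivity) _

/-- `u` is at least `a / (a + a')` for nonpositive arguments -/
theorem u_ge_of_nonpos (ha : 0 < U.a) (ha' : 0 < U.a') {x : ℝ} (hx : x ≤ 0) :
    (U.a : ℝ) / (U.a + U.a') ≤
      (U.a : ℝ) * U.pm x / ((U.a : ℝ) * U.pm x + (U.a' : ℝ) * U.pp x) := by
  have h1 : (0 : ℝ) < U.a := by exact_mod_cast ha
  have h2 : (0 : ℝ) < U.a' := by exact_mod_cast ha'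
  rw [div_le_div_iff₀ (by linarith) (U.den_pos ha ha' x)]
  have h3 : U.pp x ≤ U.pm x := by
    have h4 := U.newman_pm_le_pp (x := -x) (by linarith)
    rw [pp_neg] at h4
    have h5 := U.pp_neg (-x)
    rw [neg_neg] at h5
    rw [h5]
    exact h4
  have h4 := mul_le_mul_of_nonneg_left h3 (mul_pos h1 h2).le
  nlinarith

theorem newman_exists {x : ℝ} (hx : 1 ≤ x) (M : ℕ) (hx' : x ≤ 2 ^ (M + 1)) :
    ∃ i ≤ M, (2 : ℝ) ^ i ≤ x ∧ x ≤ 2 ^ (i + 1) := by
  induction M with
  | zero => exact ⟨0, le_rfl, by simpa using hx, hx'⟩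
  | succ M ih =>
    rcases le_total x (2 ^ (M + 1)) with h | h
    · obtain ⟨i, hi, h1, h2⟩ := ih h
      exact ⟨i, by omega, h1, h2⟩
    · exact ⟨M + 1, le_rfl, h, hx'⟩

theorem newman_pm_le {x : ℝ} (hx : 1 ≤ x) (hx' : x ≤ 2 ^ (U.M + 1)) :
    U.pm x ≤ (1 / 9 : ℝ) ^ U.kap * U.pp x := by
  obtain ⟨i, hi, h1, h2⟩ := newman_exists hx U.M hx'
  have hmem : i ∈ Finset.range (U.M + 1) := Finset.mem_range.2 (by omega)
  have h3 : (1 / 9 : ℝ) ^ U.kap * U.pp x = ∏ j ∈ Finset.range (U.M + 1),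
      ((if j = i then (1 / 9 : ℝ) ^ U.kap else 1) * (x + 2 ^ j) ^ (2 * U.kap)) := by
    rw [Finset.prod_mul_distrib, Finset.prod_ite_eq' (Finset.range (U.M + 1)) i, if_pos hmem]
    rfl
  rw [h3]
  unfold pm
  refine Finset.prod_le_prod (fun j _ => (even_two_mul _).pow_nonneg _) fun j _ => ?_
  by_cases hj : j = i
  · rw [if_pos hj, hj, pow_mul, pow_mul, ← mul_pow]
    refine pow_le_pow_left₀ (sq_nonneg _) ?_ _
    rw [pow_succ] at h2
    have h4 : (0 : ℝ) < 2 ^ i := by positivity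
    nlinarith
  · rw [if_neg hj, one_mul]
    exact newman_factor (by linarith) (by positivity) _

/-- `u` is small for `1 ≤ x ≤ 2 ^ (M + 1)` -/
theorem u_le_of_pos (ha : 0 < U.a) (haa : U.a ≤ U.a') {x : ℝ} (hx : 1 ≤ x)
    (hx' : x ≤ 2 ^ (U.M + 1)) :
    (U.a : ℝ) * U.pm x / ((U.a : ℝ) * U.pm x + (U.a' : ℝ) * U.pp x) ≤ (1 / 9 : ℝ) ^ U.kap := by
  have h1 : (0 : ℝ) < U.a := by exact_mod_cast ha
  have h2 : (U.a : ℝ) ≤ U.a' := by exact_mod_cast haa
  rw [div_le_iff₀ (U.den_pos ha (lt_of_lt_of_le ha haa) x)]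
  have h3 := U.newman_pm_le hx hx'
  have h4 := U.pm_nonneg x
  have h5 := U.pp_nonneg x
  have h6 : (0 : ℝ) ≤ (1 / 9 : ℝ) ^ U.kap := by positivity
  calc (U.a : ℝ) * U.pm x ≤ U.a * ((1 / 9 : ℝ) ^ U.kap * U.pp x) :=
        mul_le_mul_of_nonneg_left h3 h1.le
    _ = (1 / 9 : ℝ) ^ U.kap * (U.a * U.pp x) := by ring
    _ ≤ (1 / 9 : ℝ) ^ U.kap * (U.a * U.pm x + U.a' * U.pp x) := by
        refine mul_le_mul_of_nonneg_left ?_ h6
        have h7 := mul_le_mul_of_nonneg_right h2 h5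
        have h8 := mul_nonneg h1.le h4
        linarith

/-- `u` is close to `1` for `-2 ^ (M + 1) ≤ x ≤ -1` -/
theorem one_sub_u_le_of_neg (ha : 0 < U.a) (haa : U.a ≤ U.a') (haa' : U.a' ≤ 2 * U.a) {x : ℝ}
    (hx : x ≤ -1) (hx' : -2 ^ (U.M + 1) ≤ x) :
    1 - (U.a : ℝ) * U.pm x / ((U.a : ℝ) * U.pm x + (U.a' : ℝ) * U.pp x) ≤
      2 * (1 / 9 : ℝ) ^ U.kap := by
  have h1 : (0 : ℝ) < U.a := by exact_mod_cast ha
  have h2 : (U.a' : ℝ) ≤ 2 * U.a := by exact_mod_cast haa'
  have hd := U.den_pos ha (lt_of_lt_of_le ha haa) x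
  have h3 := U.newman_pm_le (x := -x) (by linarith) (by linarith)
  rw [pp_neg] at h3
  have h5 := U.pp_neg (-x)
  rw [neg_neg] at h5
  rw [← h5] at h3
  rw [one_sub_div hd.ne', div_le_iff₀ hd]
  have h4 := U.pm_nonneg x
  have h6 := U.pp_nonneg x
  have h7 : (0 : ℝ) ≤ (1 / 9 : ℝ) ^ U.kap := by positivity
  calc (U.a : ℝ) * U.pm x + U.a' * U.pp x - U.a * U.pm x = U.a' * U.pp x := by ring
    _ ≤ (2 * U.a) * ((1 / 9 : ℝ) ^ U.kap * U.pm x) := by
        refine mul_le_mul h2 h3 h6 (by linarith)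
    _ = 2 * (1 / 9 : ℝ) ^ U.kap * (U.a * U.pm x) := by ring
    _ ≤ 2 * (1 / 9 : ℝ) ^ U.kap * (U.a * U.pm x + U.a' * U.pp x) := by
        refine mul_le_mul_of_nonneg_left ?_ (by positivity)
        have h8 : (0 : ℝ) ≤ U.a' * U.pp x := mul_nonneg (Nat.cast_nonneg _) h6
        linarith

theorem u_zero (ha : 0 < U.a) (ha' : 0 < U.a') :
    (U.a : ℝ) * U.pm (0 : ℝ) / ((U.a : ℝ) * U.pm 0 + (U.a' : ℝ) * U.pp 0) =
      (U.a : ℝ) / (U.a + U.a') := by
  have h1 : (0 : ℝ) < U.a := by exact_mod_cast ha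
  have h2 : (0 : ℝ) < U.a' := by exact_mod_cast ha'
  have h3 := U.pp_neg (0 : ℝ)
  rw [neg_zero] at h3
  have h4 := U.newman_pm_pos (x := 0) le_rfl
  rw [h3, ← add_mul, mul_div_mul_right _ _ h4.ne']

end UP

end Vale.Agent.P337

end

section

/-!
P337, univariate criterion: soundness.
-/

namespace Vale.Agent.P337

open Polynomial

/-- soundness -/
theorem uni_sound (U : UP) (hD : 1 ≤ U.D) (ha : 0 < U.a) (haa : U.a ≤ U.a') (haa' : U.a' ≤ 2 * U.a)
    (hTh : 3 * U.Th < U.Z * U.w0) (f : ℝ[X]) (x : ℝ) (hx : (U.PP f).eval x < 0) : x < U.C := by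
  by_contra hxC
  push Not at hxC
  have ha' : 0 < U.a' := lt_of_lt_of_le ha haa
  have haR : (0 : ℝ) < (U.a : ℝ) := by exact_mod_cast ha
  have haR' : (0 : ℝ) < (U.a' : ℝ) := by exact_mod_cast ha'
  rw [UP.eval_PP] at hx
  set Bv : ℕ → ℝ := fun j =>
    (U.a : ℝ) * U.pm ((U.y f j).eval x) + (U.a' : ℝ) * U.pp ((U.y f j).eval x) with hBv
  have hB : ∀ j, 0 < Bv j := fun j => U.den_pos ha ha' _
  have hprod : 0 < ∏ j ∈ Finset.range U.D, Bv j := Finset.prod_pos fun j _ => hB j
  have hy0 : (U.y f 0).eval x ≤ 0 := by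
    have h1 : (U.y f 0).eval x = (U.S : ℝ) * ((U.C : ℝ) - x) := by
      simp [UP.y]
    rw [h1]
    exact mul_nonpos_of_nonneg_of_nonpos (Nat.cast_nonneg _) (by linarith)
  have hu0 := U.u_ge_of_nonpos ha ha' hy0
  have hthird : (1 : ℝ) / 3 ≤ (U.a : ℝ) / (U.a + U.a') := by
    rw [div_le_div_iff₀ (by norm_num) (by positivity)]
    have : (U.a' : ℝ) ≤ 2 * U.a := by exact_mod_cast haa'
    linarith
  have hkey : Bv 0 / 3 ≤ (U.a : ℝ) * U.pm ((U.y f 0).eval x) := by
    have h2 : (1 : ℝ) / 3 ≤ (U.a : ℝ) * U.pm ((U.y f 0).eval x) / Bv 0 := hthird.trans hu0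
    rw [le_div_iff₀ (hB 0)] at h2
    linarith
  have h0mem : 0 ∈ Finset.range U.D := Finset.mem_range.mpr hD
  have hterm : ∀ k ∈ Finset.range U.D, 0 ≤ ((U.Z * U.w k * U.a : ℕ) : ℝ) *
      U.pm ((U.y f k).eval x) * ∏ j ∈ Finset.range U.D, if j = k then 1 else Bv j := by
    intro k _
    refine mul_nonneg (mul_nonneg (Nat.cast_nonneg _) (U.pm_nonneg _)) ?_
    refine Finset.prod_nonneg fun j _ => ?_
    split_ifs
    · exact zero_le_one
    · exact (hB j).le
  have hsum := Finset.single_le_sum hterm h0mem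
  have hsplit : ∏ j ∈ Finset.range U.D, Bv j
      = Bv 0 * ∏ j ∈ Finset.range U.D, (if j = 0 then 1 else Bv j) := by
    rw [← Finset.mul_prod_erase _ _ h0mem, ← Finset.mul_prod_erase _
      (fun j => if j = 0 then (1 : ℝ) else Bv j) h0mem]
    simp only [if_true, one_mul]
    congr 1
    refine Finset.prod_congr rfl fun j hj => ?_
    rw [if_neg (Finset.ne_of_mem_erase hj)]
  set P0 : ℝ := ∏ j ∈ Finset.range U.D, (if j = 0 then 1 else Bv j) with hP0
  have hP0pos : 0 < P0 := by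
    refine Finset.prod_pos fun j _ => ?_
    split_ifs
    · exact one_pos
    · exact hB j
  have hw0 : U.w 0 = U.w0 := by simp [UP.w]
  have hfirst : (U.Z : ℝ) * U.w0 * (Bv 0 / 3) * P0 ≤ ((U.Z * U.w 0 * U.a : ℕ) : ℝ) *
      U.pm ((U.y f 0).eval x) * P0 := by
    rw [hw0]
    push_cast
    have h3 : (U.Z : ℝ) * U.w0 * (Bv 0 / 3) ≤
        (U.Z : ℝ) * U.w0 * ((U.a : ℝ) * U.pm ((U.y f 0).eval x)) :=
      mul_le_mul_of_nonneg_left hkey (by positivity)
    have h4 := mul_le_mul_of_nonneg_right h3 hP0pos.le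
    calc _ ≤ _ := h4
      _ = _ := by ring
  have hThR : 3 * (U.Th : ℝ) < (U.Z : ℝ) * U.w0 := by exact_mod_cast hTh
  have hpos : 0 < ((U.Z : ℝ) * U.w0 / 3 - U.Th) * (Bv 0 * P0) := by
    refine mul_pos (by linarith) ?_
    exact mul_pos (hB 0) hP0pos
  rw [hsplit] at hx
  have h5 : (U.Z : ℝ) * U.w0 * (Bv 0 / 3) * P0 - (U.Th : ℝ) * (Bv 0 * P0) =
      ((U.Z : ℝ) * U.w0 / 3 - U.Th) * (Bv 0 * P0) := by ring
  linarith

end Vale.Agent.P337

end

section

/-!
P337, univariate criterion: choice of parameters without zeros at the roots.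
-/

namespace Vale.Agent.P337

open Polynomial

/-- pigeonhole: every index excludes at most one number -/
theorem uni_nonzero_pigeon {ι : Type} (s : Finset ι) (bad : ι → ℕ → Prop)
    (hbad : ∀ i ∈ s, ∀ n n', bad i n → bad i n' → n = n') (A N : ℕ) (hN : s.card < N + 1) :
    ∃ n, A ≤ n ∧ n ≤ A + N ∧ ∀ i ∈ s, ¬ bad i n := by
  classical
  by_contra hcon
  have h1 : ∀ n ∈ Finset.Icc A (A + N), ∃ i ∈ s, bad i n := by
    intro n hn
    by_contra h2
    rw [Finset.mem_Icc] at hn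
    refine hcon ⟨n, hn.1, hn.2, fun i hi hb => h2 ⟨i, hi, hb⟩⟩
  have : Nonempty ι := ⟨(h1 A (Finset.mem_Icc.2 ⟨le_rfl, Nat.le_add_right _ _⟩)).choose⟩
  choose! φ hφ1 hφ2 using h1
  have hcard : s.card < (Finset.Icc A (A + N)).card := by
    rw [Nat.card_Icc]
    omega
  obtain ⟨n, hn, n', hn', hne, heq⟩ :=
    Finset.exists_ne_map_eq_of_card_lt_of_maps_to hcard (f := φ) hφ1
  refine hne (hbad (φ n) (hφ1 n hn) n n' (hφ2 n hn) ?_)
  rw [heq]
  exact hφ2 n' hn'

/-- the two products have no common zero -/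
theorem uni_nonzero_pm {M kap : ℕ} {y : ℂ}
    (h : ∏ i ∈ Finset.range (M + 1), (y + 2 ^ i) ^ (2 * kap) = 0) :
    ∏ i ∈ Finset.range (M + 1), (y - 2 ^ i) ^ (2 * kap) ≠ 0 := by
  obtain ⟨i, -, hi⟩ := Finset.prod_eq_zero_iff.1 h
  have hy : y = -2 ^ i := by
    have hk : 2 * kap ≠ 0 := by
      intro h0
      rw [h0, pow_zero] at hi
      exact one_ne_zero hi
    exact eq_neg_of_add_eq_zero_left ((pow_eq_zero_iff hk).1 hi)
  rw [Finset.prod_ne_zero_iff]
  intro j _
  apply pow_ne_zero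
  rw [hy]
  have h1 : (-2 ^ i - 2 ^ j : ℂ) = -(((2 ^ i + 2 ^ j : ℕ)) : ℂ) := by
    push_cast
    ring
  rw [h1, neg_ne_zero, Nat.cast_ne_zero]
  positivity

/-- the parameters `a'`, `Th` can be chosen such that there are no zeros at the complex roots -/
theorem uni_nonzero {f : ℂ[X]} {D : ℕ} (hfD : f.natDegree = D) (C S M kap a Z w0 rho q T0 : ℕ)
    (ha : 0 < a) (s : Finset ℂ) (hs : s.card ≤ D) :
    ∃ a' Th : ℕ, a ≤ a' ∧ a' ≤ a + D ^ 2 ∧ T0 ≤ Th ∧ Th ≤ T0 + 2 * (D + 2) ∧
      ∀ z ∈ s, (UP.PP ⟨D, C, S, M, kap, a, a', Z, Th, w0, rho, q⟩ f).eval z ≠ 0 := by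
  set p0 : ℂ → ℂ := fun y => ∏ i ∈ Finset.range (M + 1), (y - 2 ^ i) ^ (2 * kap) with hp0
  set p1 : ℂ → ℂ := fun y => ∏ i ∈ Finset.range (M + 1), (y + 2 ^ i) ^ (2 * kap) with hp1
  set Y : ℂ → ℕ → ℂ := fun z k => (Polynomial.C (S : ℂ) *
    (if k = 0 then Polynomial.C (C : ℂ) - X else derivative^[k] f)).eval z with hY
  have haC : (a : ℂ) ≠ 0 := Nat.cast_ne_zero.2 ha.ne'
  -- choice of `a'`
  obtain ⟨a', ha1, ha2, ha3⟩ := uni_nonzero_pigeon (s ×ˢ Finset.range D)
    (fun i n => (a : ℂ) * p0 (Y i.1 i.2) + (n : ℂ) * p1 (Y i.1 i.2) = 0)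
    (fun i _ n n' h1 h2 => by
      have h3 : p1 (Y i.1 i.2) ≠ 0 := by
        intro h0
        rw [h0, mul_zero, add_zero] at h1
        exact (mul_ne_zero haC (uni_nonzero_pm h0)) h1
      have h4 : ((n : ℂ) - n') * p1 (Y i.1 i.2) = 0 := by linear_combination h1 - h2
      have h5 := (mul_eq_zero.1 h4).resolve_right h3
      exact_mod_cast sub_eq_zero.1 h5) a (D ^ 2) (by
      rw [Finset.card_product, Finset.card_range]
      have := Nat.mul_le_mul_right D hs
      rw [← sq] at this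
      omega)
  have hB : ∀ z ∈ s, ∏ j ∈ Finset.range D,
      ((a : ℂ) * p0 (Y z j) + (a' : ℂ) * p1 (Y z j)) ≠ 0 := by
    intro z hz
    rw [Finset.prod_ne_zero_iff]
    intro j hj
    exact ha3 (z, j) (Finset.mem_product.2 ⟨hz, hj⟩)
  -- choice of `Th`
  set W : ℕ → ℕ := fun k => if k = 0 then w0 else if q = 0 then 0 else rho ^ k % q with hW
  obtain ⟨Th, hT1, hT2, hT3⟩ := uni_nonzero_pigeon s
    (fun z n => (∑ k ∈ Finset.range D, ((Z * W k * a : ℕ) : ℂ) * p0 (Y z k) *
      ∏ j ∈ Finset.range D, if j = k then 1 else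
        ((a : ℂ) * p0 (Y z j) + (a' : ℂ) * p1 (Y z j))) -
      (n : ℂ) * ∏ j ∈ Finset.range D, ((a : ℂ) * p0 (Y z j) + (a' : ℂ) * p1 (Y z j)) = 0)
    (fun z hz n n' h1 h2 => by
      have h4 : ((n : ℂ) - n') *
          ∏ j ∈ Finset.range D, ((a : ℂ) * p0 (Y z j) + (a' : ℂ) * p1 (Y z j)) = 0 := by
        linear_combination h2 - h1
      have h5 := (mul_eq_zero.1 h4).resolve_right (hB z hz)
      exact_mod_cast sub_eq_zero.1 h5) T0 (2 * (D + 2)) (by omega)
  refine ⟨a', Th, ha1, ha2, hT1, hT2, fun z hz h0 => hT3 z hz ?_⟩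
  rw [UP.eval_PP] at h0
  exact h0

end Vale.Agent.P337

end
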