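import Mathlib
import Vale.Agent.Lib.P337.M.Main
import Vale.Agent.Lib.Common.PolyTime.MA

section

/-!
P337, reduction of ETR: the parser.
-/

namespace Vale.Agent.P337

open Vale.Agent.Lib.Common.PolyTime

/-! ### chopping a bit string into blocks of four -/

/-- one step of chopping: finished blocks, current block -/
def chopStep (s : List (List Bool) × List Bool) (b : Bool) : List (List Bool) × List Bool :=
  if s.2.length = 3 then (s.1 ++ [s.2 ++ [b]], []) else (s.1, s.2 ++ [b])

/-- blocks of four bits -/
def chop (w : List Bool) : List (List Bool) := (w.foldl chopStep ([], [])).1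

theorem PT_chop : PT chop := by
  have h1 : PT (fun a : List Bool => a.foldl ((fun (_ : List Bool)
      (s : List (List Bool) × List Bool) (b : Bool) => chopStep s b) a) ([], [])) := by
    refine PT.foldl_add (l := fun a => a) (init := fun _ => ([], []))
      (h := fun (_ : List Bool) (_ : Bool) => (20 : ℕ)) ?_ PT.id (PT.const _) (PT.const _) ?_
    · unfold chopStep
      fun_prop
    · intro a s b _
      obtain ⟨B, p⟩ := s
      have hb := sz_bool_le b
      have e1 := sz_append p [b]
      have e2 : sz [b] = sz b + sz ([] : List Bool) + 1 := sz_cons _ _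
      have e3 : sz ([] : List Bool) = 1 := rfl
      have e4 := sz_nat 20
      simp only [chopStep]
      split_ifs with h
      · have e5 := sz_append B [p ++ [b]]
        have e6 : sz [p ++ [b]] = sz (p ++ [b]) + sz ([] : List (List Bool)) + 1 := sz_cons _ _
        have e7 : sz ([] : List (List Bool)) = 1 := rfl
        rw [sz_pair, sz_pair]
        omega
      · rw [sz_pair, sz_pair]
        omega
  exact PT.fst h1

theorem foldl_chop_code (k : Sym) (B : List (List Bool)) :
    (Sym.code k).foldl chopStep (B, []) = (B ++ [Sym.code k], []) := by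
  cases k <;> rfl

theorem foldl_chop (w : List Sym) : ∀ B : List (List Bool),
    (w.flatMap Sym.code).foldl chopStep (B, []) = (B ++ w.map Sym.code, []) := by
  induction w with
  | nil => intro B; simp
  | cons k w ih =>
    intro B
    rw [List.flatMap_cons, List.foldl_append, foldl_chop_code, ih, List.map_cons,
      List.append_assoc, List.singleton_append]

theorem chop_flatMap (w : List Sym) : chop (w.flatMap Sym.code) = w.map Sym.code := by
  unfold chop
  rw [foldl_chop, List.nil_append]

/-! ### the parser on symbols -/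

/-- state of the parser: tokens, polynomial; is there a current monomial, its sign, digits,
exponents, counter -/
abbrev PSt := (List Tok × RPoly) × ((Bool × Bool) × (List Bool × (List ℕ × ℕ)))

/-- the current polynomial with the current monomial -/
def pFlush (s : PSt) : RPoly :=
  bif s.2.1.1 then s.1.2 ++ [((s.2.1.2, s.2.2.1), s.2.2.2.1)] else s.1.2

/-- one step of the parser -/
def pStep (s : PSt) (k : List Bool) : PSt :=
  if k = [false, false, false, false] then ((s.1.1, pFlush s), ((true, false), ([], ([], 0))))
  else if k = [false, false, false, true] then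
    ((s.1.1, pFlush s), ((true, true), ([], ([], 0))))
  else if k = [false, false, true, false] then (s.1, (s.2.1, (s.2.2.1 ++ [false], s.2.2.2)))
  else if k = [false, false, true, true] then (s.1, (s.2.1, (s.2.2.1 ++ [true], s.2.2.2)))
  else if k = [false, true, false, false] then
    (s.1, (s.2.1, (s.2.2.1, (s.2.2.2.1, s.2.2.2.2 + 1))))
  else if k = [false, true, false, true] then
    (s.1, (s.2.1, (s.2.2.1, (s.2.2.2.1 ++ [s.2.2.2.2], 0))))
  else if k = [false, true, true, false] then
    ((s.1.1 ++ [(0, pFlush s)], []), ((false, false), ([], ([], 0))))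
  else if k = [false, true, true, true] then
    ((s.1.1 ++ [(1, pFlush s)], []), ((false, false), ([], ([], 0))))
  else if k = [true, false, false, false] then ((s.1.1 ++ [(2, [])], s.1.2), s.2)
  else if k = [true, false, false, true] then ((s.1.1 ++ [(3, [])], s.1.2), s.2)
  else ((s.1.1 ++ [(4, [])], s.1.2), s.2)

/-- start of the parser after the tokens `T` -/
def pIni (T : List Tok) : PSt := ((T, []), ((false, false), ([], ([], 0))))

theorem PT_pFlush : PT pFlush := by
  unfold pFlush
  fun_prop

theorem PT_pStep : PT (fun x : PSt × List Bool => pStep x.1 x.2) := by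
  have hf : PT (fun x : PSt × List Bool => pFlush x.1) := PT_pFlush.comp (PT.fst PT.id)
  unfold pStep
  fun_prop

theorem sz_snoc {α : Type} [TEnc α] (l : List α) (a : α) : sz (l ++ [a]) = sz l + sz a + 1 := by
  have e5 := sz_append l [a]
  have e6 : sz [a] = sz a + sz ([] : List α) + 1 := sz_cons _ _
  have e7 : sz ([] : List α) = 1 := rfl
  omega

theorem sz_pFlush (s : PSt) :
    sz (pFlush s) ≤ sz s.1.2 + sz s.2.1.2 + sz s.2.2.1 + sz s.2.2.2.1 + 3 := by
  unfold pFlush
  cases s.2.1.1
  · simp only [cond_false]
    omega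
  · simp only [cond_true]
    rw [sz_snoc, sz_pair, sz_pair]
    omega

theorem sz_st (T : List Tok) (P : RPoly) (pr sg : Bool) (dg : List Bool) (ex : List ℕ) (c : ℕ) :
    sz (((T, P), ((pr, sg), (dg, (ex, c)))) : PSt) =
      sz T + sz P + sz pr + sz sg + sz dg + sz ex + sz c + 6 := by
  rw [sz_pair, sz_pair, sz_pair, sz_pair, sz_pair, sz_pair]
  omega

theorem sz_fresh (T : List Tok) (P : RPoly) (b1 b2 : Bool) :
    sz (((T, P), ((b1, b2), ([], ([], 0)))) : PSt) ≤ sz T + sz P + 15 := by
  rw [sz_st]
  have h8 : sz ([] : List Bool) = 1 := rfl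
  have h9 : sz ([] : List ℕ) = 1 := rfl
  have h3 : sz (0 : ℕ) = 1 := rfl
  have h14 := sz_bool_le b1
  have h15 := sz_bool_le b2
  omega

theorem sz_pStep (s : PSt) (k : List Bool) : sz (pStep s k) ≤ sz s + 50 := by
  have hfl := sz_pFlush s
  obtain ⟨⟨T, P⟩, ⟨pr, sg⟩, dg, ex, c⟩ := s
  simp only at hfl
  have hs := sz_st T P pr sg dg ex c
  have h0 := sz_pos P
  have h10 : sz ([] : RPoly) = 1 := rfl
  unfold pStep
  split_ifs
  · have h := sz_fresh T (pFlush ((T, P), (pr, sg), dg, ex, c)) true false
    simp only at h ⊢
    omega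
  · have h := sz_fresh T (pFlush ((T, P), (pr, sg), dg, ex, c)) true true
    simp only at h ⊢
    omega
  · have h := sz_st T P pr sg (dg ++ [false]) ex c
    have h' := sz_snoc dg false
    have h'' := sz_bool_le false
    simp only at h ⊢
    omega
  · have h := sz_st T P pr sg (dg ++ [true]) ex c
    have h' := sz_snoc dg true
    have h'' := sz_bool_le true
    simp only at h ⊢
    omega
  · have h := sz_st T P pr sg dg ex (c + 1)
    have h' := sz_nat c
    have h'' := sz_nat (c + 1)
    simp only at h ⊢
    omega
  · have h := sz_st T P pr sg dg (ex ++ [c]) 0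
    have h' := sz_snoc ex c
    have h'' := sz_nat 0
    simp only at h ⊢
    omega
  · have h := sz_fresh (T ++ [(0, pFlush ((T, P), (pr, sg), dg, ex, c))]) [] false false
    have h' := sz_snoc T ((0, pFlush ((T, P), (pr, sg), dg, ex, c)) : Tok)
    have h'' := sz_pair 0 (pFlush ((T, P), (pr, sg), dg, ex, c))
    have h3 := sz_nat 0
    simp only at h ⊢
    omega
  · have h := sz_fresh (T ++ [(1, pFlush ((T, P), (pr, sg), dg, ex, c))]) [] false false
    have h' := sz_snoc T ((1, pFlush ((T, P), (pr, sg), dg, ex, c)) : Tok)
    have h'' := sz_pair 1 (pFlush ((T, P), (pr, sg), dg, ex, c))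
    have h3 := sz_nat 1
    simp only at h ⊢
    omega
  · have h := sz_st (T ++ [(2, [])]) P pr sg dg ex c
    have h' := sz_snoc T ((2, []) : Tok)
    have h'' := sz_pair 2 ([] : RPoly)
    have h3 := sz_nat 2
    simp only at h ⊢
    omega
  · have h := sz_st (T ++ [(3, [])]) P pr sg dg ex c
    have h' := sz_snoc T ((3, []) : Tok)
    have h'' := sz_pair 3 ([] : RPoly)
    have h3 := sz_nat 3
    simp only at h ⊢
    omega
  · have h := sz_st (T ++ [(4, [])]) P pr sg dg ex c
    have h' := sz_snoc T ((4, []) : Tok)
    have h'' := sz_pair 4 ([] : RPoly)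
    have h3 := sz_nat 4
    simp only at h ⊢
    omega

/-- the parser -/
def parse (w : List Bool) : List Tok := ((chop w).foldl pStep (pIni [])).1.1

theorem PT_parse : PT parse := by
  have h1 : PT (fun a : List Bool => (chop a).foldl ((fun (_ : List Bool)
      (s : PSt) (b : List Bool) => pStep s b) a) (pIni [])) := by
    refine PT.foldl_add (l := chop) (init := fun _ => pIni [])
      (h := fun (_ : List Bool) (_ : List Bool) => (50 : ℕ)) ?_ PT_chop (PT.const _)
      (PT.const _) ?_
    · have := PT_pStep.comp (g := fun x : List Bool × PSt × List Bool => x.2) (by fun_prop)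
      exact this
    · intro a s b _
      refine (sz_pStep s b).trans ?_
      have e4 := sz_nat 50
      omega
  exact PT.fst (PT.fst h1)

/-! ### correctness -/

/-- running the parser on a word -/
def pRun (s : PSt) (w : List Sym) : PSt := (w.map Sym.code).foldl pStep s

theorem pRun_append (s : PSt) (v w : List Sym) : pRun s (v ++ w) = pRun (pRun s v) w := by
  unfold pRun
  rw [List.map_append, List.foldl_append]

theorem pRun_cons (s : PSt) (k : Sym) (w : List Sym) :
    pRun s (k :: w) = pRun (pStep s (Sym.code k)) w := rfl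

theorem pRun_nil (s : PSt) : pRun s [] = s := rfl

theorem pRun_digits (T : List Tok) (P : RPoly) (x : Bool × Bool) (e : List ℕ × ℕ)
    (l : List Bool) : ∀ d : List Bool,
    pRun ((T, P), (x, (d, e))) (l.map fun b => if b then Sym.one else Sym.zero) =
      ((T, P), (x, (d ++ l, e))) := by
  induction l with
  | nil => intro d; simp [pRun_nil]
  | cons b l ih =>
    intro d
    rw [List.map_cons, pRun_cons]
    have : pStep ((T, P), (x, (d, e))) (Sym.code (if b then Sym.one else Sym.zero)) =
        ((T, P), (x, (d ++ [b], e))) := by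
      cases b <;> rfl
    rw [this, ih, List.append_assoc, List.singleton_append]

theorem pRun_ticks (T : List Tok) (P : RPoly) (x : Bool × Bool) (d : List Bool) (e : List ℕ)
    (n : ℕ) : ∀ c : ℕ, pRun ((T, P), (x, (d, (e, c)))) (List.replicate n Sym.tick) =
      ((T, P), (x, (d, (e, c + n)))) := by
  induction n with
  | zero => intro c; simp [pRun_nil]
  | succ n ih =>
    intro c
    rw [List.replicate_succ, pRun_cons]
    have : pStep ((T, P), (x, (d, (e, c)))) (Sym.code Sym.tick) =
        ((T, P), (x, (d, (e, c + 1)))) := rfl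
    rw [this, ih, add_assoc, add_comm 1 n]

theorem pRun_exps (T : List Tok) (P : RPoly) (x : Bool × Bool) (d : List Bool)
    (l : List ℕ) : ∀ e : List ℕ,
    pRun ((T, P), (x, (d, (e, 0)))) (l.flatMap fun n => List.replicate n Sym.tick ++ [Sym.sep]) =
      ((T, P), (x, (d, (e ++ l, 0)))) := by
  induction l with
  | nil => intro e; simp [pRun_nil]
  | cons n l ih =>
    intro e
    rw [List.flatMap_cons, pRun_append, pRun_append, pRun_ticks]
    have : pRun ((T, P), (x, (d, (e, 0 + n)))) [Sym.sep] =
        ((T, P), (x, (d, (e ++ [n], 0)))) := by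
      rw [zero_add]
      rfl
    rw [this, ih, List.append_assoc, List.singleton_append]

theorem pRun_mono (s : PSt) (m : Mono) :
    pRun s (Mono.word m) =
      ((s.1.1, pFlush s), ((true, m.neg), (m.coef, (m.exps, 0)))) := by
  obtain ⟨neg, coef, exps⟩ := m
  unfold Mono.word
  rw [pRun_append, pRun_cons]
  have : pStep s (Sym.code (if neg then Sym.minus else Sym.plus)) =
      ((s.1.1, pFlush s), ((true, neg), ([], ([], 0)))) := by
    cases neg <;> rfl
  simp only at this ⊢
  rw [this, pRun_digits, pRun_exps, List.nil_append, List.nil_append]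

theorem pRun_poly (p : Poly) : ∀ s : PSt,
    (pRun s (Poly.word p)).1.1 = s.1.1 ∧
      pFlush (pRun s (Poly.word p)) = pFlush s ++ List.map Mono.raw p := by
  induction p with
  | nil => intro s; exact ⟨rfl, (List.append_nil _).symm⟩
  | cons m p ih =>
    intro s
    have e : Poly.word (m :: p) = Mono.word m ++ Poly.word p := rfl
    rw [e, pRun_append, pRun_mono]
    obtain ⟨h1, h2⟩ := ih ((s.1.1, pFlush s), ((true, m.neg), (m.coef, (m.exps, 0))))
    refine ⟨h1, ?_⟩
    rw [h2, List.map_cons]
    simp [pFlush, Mono.raw]

theorem pRun_fml (φ : Fml) : ∀ T : List Tok, pRun (pIni T) φ.word = pIni (T ++ φ.toks) := by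
  induction φ with
  | eqz p =>
    intro T
    have e : (Fml.eqz p).word = Poly.word p ++ [Sym.eqz] := rfl
    rw [e, pRun_append]
    obtain ⟨h1, h2⟩ := pRun_poly p (pIni T)
    have : pRun (pRun (pIni T) (Poly.word p)) [Sym.eqz] =
        (((pRun (pIni T) (Poly.word p)).1.1 ++ [(0, pFlush (pRun (pIni T) (Poly.word p)))], []),
          ((false, false), ([], ([], 0)))) := rfl
    rw [this, h1, h2]
    rfl
  | pos p =>
    intro T
    have e : (Fml.pos p).word = Poly.word p ++ [Sym.pos] := rfl
    rw [e, pRun_append]
    obtain ⟨h1, h2⟩ := pRun_poly p (pIni T)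
    have : pRun (pRun (pIni T) (Poly.word p)) [Sym.pos] =
        (((pRun (pIni T) (Poly.word p)).1.1 ++ [(1, pFlush (pRun (pIni T) (Poly.word p)))], []),
          ((false, false), ([], ([], 0)))) := rfl
    rw [this, h1, h2]
    rfl
  | not φ ih =>
    intro T
    have e : (Fml.not φ).word = φ.word ++ [Sym.not] := rfl
    have e2 : (Fml.not φ).toks = φ.toks ++ [(2, [])] := rfl
    rw [e, pRun_append, ih, e2, ← List.append_assoc]
    rfl
  | and φ ψ ih1 ih2 =>
    intro T
    have e : (Fml.and φ ψ).word = φ.word ++ ψ.word ++ [Sym.and] := rfl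
    have e2 : (Fml.and φ ψ).toks = φ.toks ++ ψ.toks ++ [(3, [])] := rfl
    rw [e, pRun_append, pRun_append, ih1, ih2, e2, ← List.append_assoc, ← List.append_assoc]
    rfl
  | or φ ψ ih1 ih2 =>
    intro T
    have e : (Fml.or φ ψ).word = φ.word ++ ψ.word ++ [Sym.or] := rfl
    have e2 : (Fml.or φ ψ).toks = φ.toks ++ ψ.toks ++ [(4, [])] := rfl
    rw [e, pRun_append, pRun_append, ih1, ih2, e2, ← List.append_assoc, ← List.append_assoc]
    rfl

/-- a polynomial time parser, correct on the encodings of formulas -/
theorem exists_parse : ∃ parse : List Bool → List Tok, PT parse ∧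
    ∀ φ : Fml, parse φ.bits = φ.toks := by
  refine ⟨parse, PT_parse, fun φ => ?_⟩
  unfold parse Fml.bits
  rw [chop_flatMap]
  have h := pRun_fml φ []
  unfold pRun at h
  rw [h, List.nil_append]
  rfl

end Vale.Agent.P337

end

section

/-!
P337, reduction of ETR: serialization.
-/

namespace Vale.Agent.P337

open Vale.Agent.Lib.Common.PolyTime

/-- bits of an exponent -/
private def serExp (n : ℕ) : List Bool :=
  ((List.range n).flatMap fun _ => Sym.tick.code) ++ Sym.sep.code

/-- bits of a raw monomial -/
private def serMono (m : RMono) : List Bool :=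
  (bif m.1.1 then Sym.minus.code else Sym.plus.code) ++
    ((m.1.2.flatMap fun b => bif b then Sym.one.code else Sym.zero.code) ++ m.2.flatMap serExp)

/-- bits of the kind of a token -/
private def serKind (s : ℕ) : List Bool :=
  bif s == 0 then Sym.eqz.code else bif s == 1 then Sym.pos.code else bif s == 2 then Sym.not.code
    else bif s == 3 then Sym.and.code else Sym.or.code

/-- bits of a token -/
private def serTok (t : Tok) : List Bool := t.2.flatMap serMono ++ serKind t.1

private theorem serExp_eq (n : ℕ) :
    serExp n = (List.replicate n Sym.tick ++ [Sym.sep]).flatMap Sym.code := by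
  have h : ∀ n : ℕ, ((List.range n).flatMap fun _ => Sym.tick.code) =
      (List.replicate n Sym.tick).flatMap Sym.code := by
    intro n
    induction n with
    | zero => rfl
    | succ n ih =>
      rw [List.range_succ, List.flatMap_append, ih, List.replicate_succ', List.flatMap_append]
      rfl
  rw [serExp, h, List.flatMap_append]
  rfl

private theorem serMono_eq (m : Mono) : serMono m.raw = m.word.flatMap Sym.code := by
  have h1 : ∀ l : List Bool, (l.flatMap fun b => bif b then Sym.one.code else Sym.zero.code) =
      (l.map fun b => if b then Sym.one else Sym.zero).flatMap Sym.code := by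
    intro l
    induction l with
    | nil => rfl
    | cons b l ih =>
      rw [List.flatMap_cons, ih, List.map_cons, List.flatMap_cons]
      cases b <;> rfl
  have h2 : ∀ l : List ℕ, l.flatMap serExp =
      (l.flatMap fun n => List.replicate n Sym.tick ++ [Sym.sep]).flatMap Sym.code := by
    intro l
    induction l with
    | nil => rfl
    | cons n l ih =>
      rw [List.flatMap_cons, ih, List.flatMap_cons, List.flatMap_append, serExp_eq]
  obtain ⟨neg, coef, exps⟩ := m
  rw [Mono.word, List.cons_append, List.flatMap_cons, List.flatMap_append, ← h1, ← h2]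
  simp only [serMono, Mono.raw]
  cases neg <;> rfl

private theorem serPoly_eq (p : Poly) :
    (List.map Mono.raw p).flatMap serMono = (Poly.word p).flatMap Sym.code := by
  unfold Poly.word
  induction p with
  | nil => rfl
  | cons m p ih =>
    rw [List.map_cons, List.flatMap_cons, ih, List.flatMap_cons, List.flatMap_append, serMono_eq]

/-- the encoding can be recomputed from the tokens -/
theorem exists_ser : ∃ ser : List Tok → List Bool, PT ser ∧ ∀ φ : Fml, ser φ.toks = φ.bits := by
  refine ⟨fun T => T.flatMap serTok, ?_, ?_⟩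
  · have h1 : PT serExp := by
      unfold serExp
      fun_prop
    have h2 : PT serMono := by
      unfold serMono
      have h3 : PT (fun m : RMono => m.2.flatMap serExp) :=
        PT.flatMap (f := fun _ : RMono => serExp) (h1.comp (PT.snd PT.id)) (PT.snd PT.id)
      have h4 : PT (fun m : RMono =>
          m.1.2.flatMap fun b => bif b then Sym.one.code else Sym.zero.code) := by
        refine PT.flatMap (f := fun (_ : RMono) b => bif b then Sym.one.code else Sym.zero.code)
          ?_ (PT.snd (PT.fst PT.id))
        exact PT.bif (PT.snd PT.id) (PT.const _) (PT.const _)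
      have h5 : PT (fun m : RMono => bif m.1.1 then Sym.minus.code else Sym.plus.code) :=
        PT.bif (PT.fst (PT.fst PT.id)) (PT.const _) (PT.const _)
      exact PT.append h5 (PT.append h4 h3)
    have h6 : PT serKind := by
      unfold serKind
      fun_prop
    have h7 : PT serTok := by
      unfold serTok
      have h8 : PT (fun t : Tok => t.2.flatMap serMono) :=
        PT.flatMap (f := fun _ : Tok => serMono) (h2.comp (PT.snd PT.id)) (PT.snd PT.id)
      exact PT.append h8 (h6.comp (PT.fst PT.id))
    exact PT.flatMap (f := fun _ : List Tok => serTok) (h7.comp (PT.snd PT.id)) PT.id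
  · intro φ
    unfold Fml.bits
    induction φ with
    | eqz p =>
      change serTok (0, List.map Mono.raw p) ++ [] = (Poly.word p ++ [Sym.eqz]).flatMap Sym.code
      rw [List.append_nil, List.flatMap_append, serTok, serPoly_eq]
      rfl
    | pos p =>
      change serTok (1, List.map Mono.raw p) ++ [] = (Poly.word p ++ [Sym.pos]).flatMap Sym.code
      rw [List.append_nil, List.flatMap_append, serTok, serPoly_eq]
      rfl
    | not φ ih =>
      change (φ.toks ++ [(2, [])]).flatMap serTok = (φ.word ++ [Sym.not]).flatMap Sym.code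
      simp only at ih
      rw [List.flatMap_append, ih, List.flatMap_append]
      rfl
    | and φ ψ ih1 ih2 =>
      change (φ.toks ++ ψ.toks ++ [(3, [])]).flatMap serTok =
        (φ.word ++ ψ.word ++ [Sym.and]).flatMap Sym.code
      simp only at ih1 ih2
      rw [List.flatMap_append, List.flatMap_append, ih1, ih2, List.flatMap_append,
        List.flatMap_append]
      rfl
    | or φ ψ ih1 ih2 =>
      change (φ.toks ++ ψ.toks ++ [(4, [])]).flatMap serTok =
        (φ.word ++ ψ.word ++ [Sym.or]).flatMap Sym.code
      simp only at ih1 ih2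
      rw [List.flatMap_append, List.flatMap_append, ih1, ih2, List.flatMap_append,
        List.flatMap_append]
      rfl

end Vale.Agent.P337

end

section

/-!
P337, reduction of ETR: well-formed lists of tokens.
-/

namespace Vale.Agent.P337

open Vale.Agent.Lib.Common.PolyTime

/-- one step of the check: `0` means failure, otherwise height of the stack plus one -/
def wfStep (s : ℕ) (t : Tok) : ℕ :=
  if s = 0 then 0
  else if t.1 < 2 then s + 1
  else if t.2 = [] then
    (if t.1 = 2 then (if 2 ≤ s then s else 0)
      else if t.1 < 5 then (if 3 ≤ s then s - 1 else 0) else 0)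
  else 0

theorem wf_raw_mono (q : RPoly) : List.map Mono.raw (q.map RMono.mono) = q := by
  rw [List.map_map]
  have h : (Mono.raw ∘ RMono.mono) = id := by
    funext m
    rfl
  rw [h, List.map_id]

theorem wf_fold_toks (φ : Fml) : ∀ s, s ≠ 0 → φ.toks.foldl wfStep s = s + 1 := by
  induction φ with
  | eqz p =>
    intro s hs
    simp [Fml.toks, wfStep, hs]
  | pos p =>
    intro s hs
    simp [Fml.toks, wfStep, hs]
  | not φ ih =>
    intro s hs
    have h2 : 2 ≤ s + 1 := by omega
    simp [Fml.toks, ih s hs, wfStep, h2]
  | and φ ψ ih1 ih2 =>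
    intro s hs
    have h2 : 3 ≤ s + 1 + 1 := by omega
    simp [Fml.toks, ih1 s hs, ih2 (s + 1) (by omega), wfStep, h2]
  | or φ ψ ih1 ih2 =>
    intro s hs
    have h2 : 3 ≤ s + 1 + 1 := by omega
    simp [Fml.toks, ih1 s hs, ih2 (s + 1) (by omega), wfStep, h2]

theorem wf_fold_spec (T : List Tok) : T.foldl wfStep 1 ≠ 0 →
    ∃ l : List Fml, l.length + 1 = T.foldl wfStep 1 ∧ l.flatMap Fml.toks = T := by
  induction T using List.reverseRecOn with
  | nil =>
    intro _
    exact ⟨[], rfl, rfl⟩
  | append_singleton T t ih =>
    intro hne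
    rw [List.foldl_append, List.foldl_cons, List.foldl_nil] at hne ⊢
    set s := T.foldl wfStep 1 with hs
    have hs0 : s ≠ 0 := by
      intro h
      rw [h] at hne
      exact hne rfl
    obtain ⟨l, hl, hT⟩ := ih hs0
    obtain ⟨n, q⟩ := t
    unfold wfStep at hne ⊢
    rw [if_neg hs0] at hne ⊢
    dsimp only at hne ⊢
    by_cases h2 : n < 2
    · rw [if_pos h2]
      have h01 : n = 0 ∨ n = 1 := by omega
      rcases h01 with rfl | rfl
      · refine ⟨l ++ [Fml.eqz (q.map RMono.mono)], ?_, ?_⟩
        · rw [List.length_append, List.length_singleton]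
          omega
        · rw [List.flatMap_append, hT, List.flatMap_singleton, Fml.toks, wf_raw_mono]
      · refine ⟨l ++ [Fml.pos (q.map RMono.mono)], ?_, ?_⟩
        · rw [List.length_append, List.length_singleton]
          omega
        · rw [List.flatMap_append, hT, List.flatMap_singleton, Fml.toks, wf_raw_mono]
    · rw [if_neg h2] at hne ⊢
      by_cases hq : q = []
      · rw [if_pos hq] at hne ⊢
        subst hq
        by_cases h3 : n = 2
        · rw [if_pos h3] at hne ⊢
          subst h3
          by_cases h4 : 2 ≤ s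
          · rw [if_pos h4]
            rcases List.eq_nil_or_concat l with h | ⟨l', φ, h⟩
            · subst h
              rw [List.length_nil] at hl
              omega
            · subst h
              rw [List.concat_eq_append] at hT hl
              rw [List.length_append, List.length_singleton] at hl
              refine ⟨l' ++ [Fml.not φ], ?_, ?_⟩
              · rw [List.length_append, List.length_singleton]
                omega
              · rw [← hT, List.flatMap_append, List.flatMap_append, List.flatMap_singleton,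
                  List.flatMap_singleton, Fml.toks, List.append_assoc]
          · rw [if_neg h4] at hne
            exact absurd rfl hne
        · rw [if_neg h3] at hne ⊢
          by_cases h5 : n < 5
          · rw [if_pos h5] at hne ⊢
            by_cases h4 : 3 ≤ s
            · rw [if_pos h4]
              rcases List.eq_nil_or_concat l with h | ⟨l', ψ, h⟩
              · subst h
                rw [List.length_nil] at hl
                omega
              · subst h
                rw [List.concat_eq_append] at hT hl
                rw [List.length_append, List.length_singleton] at hl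
                rcases List.eq_nil_or_concat l' with h | ⟨l'', φ, h⟩
                · subst h
                  rw [List.length_nil] at hl
                  omega
                · subst h
                  rw [List.concat_eq_append] at hT hl
                  rw [List.length_append, List.length_singleton] at hl
                  have h34 : n = 3 ∨ n = 4 := by omega
                  rcases h34 with rfl | rfl
                  · refine ⟨l'' ++ [Fml.and φ ψ], ?_, ?_⟩
                    · rw [List.length_append, List.length_singleton]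
                      omega
                    · rw [← hT]
                      simp [List.flatMap_append, Fml.toks]
                  · refine ⟨l'' ++ [Fml.or φ ψ], ?_, ?_⟩
                    · rw [List.length_append, List.length_singleton]
                      omega
                    · rw [← hT]
                      simp [List.flatMap_append, Fml.toks]
            · rw [if_neg h4] at hne
              exact absurd rfl hne
          · rw [if_neg h5] at hne
            exact absurd rfl hne
      · rw [if_neg hq] at hne
        exact absurd rfl hne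

theorem wfStep_le (s : ℕ) (t : Tok) : wfStep s t ≤ s + 1 := by
  unfold wfStep
  split_ifs <;> omega

theorem PT_wf : PT (fun T : List Tok => decide (T.foldl wfStep 1 = 2)) := by
  apply PT.decide_eq _ (PT.const 2)
  refine PT.foldl_add (step := fun _ : List Tok => wfStep) (l := fun T : List Tok => T)
    (init := fun _ => 1) (h := fun (_ : List Tok) (_ : Tok) => (1 : ℕ)) ?_ PT.id (PT.const 1)
    (PT.const 1) ?_
  · unfold wfStep
    fun_prop
  · intro a s b _
    have h := wfStep_le s b
    rw [sz_nat, sz_nat, sz_nat]
    omega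

/-- well-formed lists of tokens can be recognized in polynomial time -/
theorem exists_wf : ∃ wf : List Tok → Bool, PT wf ∧
    ∀ T, (wf T = true ↔ ∃ φ : Fml, φ.toks = T) := by
  refine ⟨fun T => decide (T.foldl wfStep 1 = 2), PT_wf, fun T => ?_⟩
  rw [decide_eq_true_iff]
  constructor
  · intro h
    obtain ⟨l, hl, hT⟩ := wf_fold_spec T (by omega)
    have h1 : l.length = 1 := by omega
    obtain ⟨φ, rfl⟩ := List.length_eq_one_iff.mp h1
    refine ⟨φ, ?_⟩
    rw [← hT, List.flatMap_singleton]
  · rintro ⟨φ, rfl⟩
    exact wf_fold_toks φ 1 one_ne_zero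

end Vale.Agent.P337

end

section

/-!
P337, reduction of ETR: semantics.
-/

namespace Vale.Agent.P337

open Vale.Agent.Lib.Common.PolyTime

theorem Sem_atomsT_append (T T' : List Tok) : atomsT (T ++ T') = atomsT T ++ atomsT T' := by
  unfold atomsT
  rw [List.filter_append, List.map_append]

theorem Sem_atomsT_op (k : ℕ) (hk : 2 ≤ k) : atomsT [(k, [])] = [] := by
  unfold atomsT
  rw [List.filter_cons_of_neg]
  · rfl
  · simp only [decide_eq_true_eq, not_lt]
    exact hk

theorem Sem_foldl (φ : Fml) : ∀ (st : List Bool) (σ : List ℕ),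
    φ.toks.foldl evStep (st, σ) = (φ.evS σ :: st, σ.drop (atomsT φ.toks).length) := by
  induction φ with
  | eqz p =>
    intro st σ
    rfl
  | pos p =>
    intro st σ
    rfl
  | not φ ih =>
    intro st σ
    rw [Fml.toks, List.foldl_append, ih, Sem_atomsT_append, Sem_atomsT_op 2 le_rfl,
      List.append_nil]
    rfl
  | and φ ψ ih1 ih2 =>
    intro st σ
    rw [Fml.toks, List.foldl_append, List.foldl_append, ih1, ih2, Sem_atomsT_append,
      Sem_atomsT_append, Sem_atomsT_op 3 (by norm_num), List.append_nil, List.length_append,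
      List.drop_drop]
    rfl
  | or φ ψ ih1 ih2 =>
    intro st σ
    rw [Fml.toks, List.foldl_append, List.foldl_append, ih1, ih2, Sem_atomsT_append,
      Sem_atomsT_append, Sem_atomsT_op 4 (by norm_num), List.append_nil, List.length_append,
      List.drop_drop]
    rfl

theorem evT_toks (φ : Fml) (σ : List ℕ) (h : (atomsT φ.toks).length ≤ σ.length) :
    evT φ.toks σ = φ.evS σ := by
  unfold evT
  rw [Sem_foldl]
  rfl

theorem Sem_eval_raw (p : Poly) (x : ℕ → ℝ) :
    RPoly.eval (List.map Mono.raw p) x = Poly.eval p x := by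
  unfold RPoly.eval
  rw [List.map_map]
  have h : RMono.mono ∘ Mono.raw = id := by
    funext m
    rfl
  rw [h, List.map_id]

theorem Sem_getD_left {α : Type} (a b : List α) (i : ℕ) (hi : i < a.length) (d : α) :
    (a ++ b).getD i d = a.getD i d := by
  rw [List.getD_eq_getElem?_getD, List.getD_eq_getElem?_getD, List.getElem?_append_left hi]

theorem Sem_getD_right {α : Type} (a b : List α) (i : ℕ) (d : α) :
    (a ++ b).getD (a.length + i) d = b.getD i d := by
  rw [List.getD_eq_getElem?_getD, List.getD_eq_getElem?_getD,
    List.getElem?_append_right (Nat.le_add_right _ _), Nat.add_sub_cancel_left]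

theorem Sem_getD_drop {α : Type} (a : List α) (m i : ℕ) (d : α) :
    (a.drop m).getD i d = a.getD (m + i) d := by
  rw [List.getD_eq_getElem?_getD, List.getD_eq_getElem?_getD, List.getElem?_drop]

/-- the truth value given by the actual signs of the atoms is the truth value -/
theorem Sem_holds (x : ℕ → ℝ) (φ : Fml) : ∀ σ : List ℕ,
    (∀ i < (atomsT φ.toks).length,
      sgnOK (σ.getD i 0) (RPoly.eval ((atomsT φ.toks).getD i []) x)) →
    (φ.evS σ = true ↔ φ.holds x) := by
  induction φ with
  | eqz p =>
    intro σ h
    have h1 := h 0 (Nat.zero_lt_succ _)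
    have h2 : (atomsT (Fml.eqz p).toks).getD 0 [] = List.map Mono.raw p := rfl
    rw [h2, Sem_eval_raw] at h1
    simp only [Fml.evS, Fml.holds, beq_iff_eq]
    unfold sgnOK at h1
    split_ifs at h1 with h3 h4
    · exact ⟨fun _ => h1, fun _ => h3⟩
    · exact ⟨fun h => absurd h h3, fun h => absurd h h1.ne'⟩
    · exact ⟨fun h => absurd h h3, fun h => absurd h h1.ne⟩
  | pos p =>
    intro σ h
    have h1 := h 0 (Nat.zero_lt_succ _)
    have h2 : (atomsT (Fml.pos p).toks).getD 0 [] = List.map Mono.raw p := rfl
    rw [h2, Sem_eval_raw] at h1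
    simp only [Fml.evS, Fml.holds, beq_iff_eq]
    unfold sgnOK at h1
    split_ifs at h1 with h3 h4
    · rw [h3, h1]
      exact ⟨fun h => absurd h (by norm_num), fun h => absurd h (lt_irrefl _)⟩
    · exact ⟨fun _ => h1, fun _ => h4⟩
    · exact ⟨fun h => absurd h h4, fun h => absurd h (not_lt.mpr h1.le)⟩
  | not φ ih =>
    intro σ h
    have h1 : atomsT (Fml.not φ).toks = atomsT φ.toks := by
      rw [Fml.toks, Sem_atomsT_append, Sem_atomsT_op 2 le_rfl, List.append_nil]
    rw [h1] at h
    have h2 := ih σ h
    simp only [Fml.evS, Fml.holds, Bool.not_eq_true', ← h2, Bool.not_eq_true]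
  | and φ ψ ih1 ih2 =>
    intro σ h
    have h1 : atomsT (Fml.and φ ψ).toks = atomsT φ.toks ++ atomsT ψ.toks := by
      rw [Fml.toks, Sem_atomsT_append, Sem_atomsT_append, Sem_atomsT_op 3 (by norm_num),
        List.append_nil]
    rw [h1, List.length_append] at h
    have h2 := ih1 σ (fun i hi => by
      have := h i (by omega)
      rwa [Sem_getD_left _ _ _ hi] at this)
    have h3 := ih2 (σ.drop (atomsT φ.toks).length) (fun i hi => by
      have := h ((atomsT φ.toks).length + i) (by omega)
      rwa [Sem_getD_right, ← Sem_getD_drop] at this)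
    simp only [Fml.evS, Fml.holds, Bool.and_eq_true, h2, h3]
  | or φ ψ ih1 ih2 =>
    intro σ h
    have h1 : atomsT (Fml.or φ ψ).toks = atomsT φ.toks ++ atomsT ψ.toks := by
      rw [Fml.toks, Sem_atomsT_append, Sem_atomsT_append, Sem_atomsT_op 4 (by norm_num),
        List.append_nil]
    rw [h1, List.length_append] at h
    have h2 := ih1 σ (fun i hi => by
      have := h i (by omega)
      rwa [Sem_getD_left _ _ _ hi] at this)
    have h3 := ih2 (σ.drop (atomsT φ.toks).length) (fun i hi => by
      have := h ((atomsT φ.toks).length + i) (by omega)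
      rwa [Sem_getD_right, ← Sem_getD_drop] at this)
    simp only [Fml.evS, Fml.holds, Bool.or_eq_true, h2, h3]

/-- the code of the sign of a real number -/
noncomputable def Sem_code (v : ℝ) : ℕ := if v = 0 then 0 else if 0 < v then 1 else 2

theorem Sem_code_lt (v : ℝ) : Sem_code v < 3 := by
  unfold Sem_code
  split_ifs <;> norm_num

theorem Sem_code_ok (v : ℝ) : sgnOK (Sem_code v) v := by
  unfold Sem_code sgnOK
  by_cases h1 : v = 0
  · rw [if_pos h1, if_pos rfl]
    exact h1
  · by_cases h2 : 0 < v
    · rw [if_neg h1, if_pos h2, if_neg (by norm_num), if_pos rfl]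
      exact h2
    · rw [if_neg h1, if_neg h2, if_neg (by norm_num), if_neg (by norm_num)]
      exact lt_of_le_of_ne (not_lt.mp h2) h1

/-- satisfiability through sign conditions -/
theorem sat_iff (φ : Fml) : φ.Sat ↔ ∃ σ : List ℕ, σ.length = (atomsT φ.toks).length ∧
    (∀ s ∈ σ, s < 3) ∧ φ.evS σ = true ∧
      ∃ x : ℕ → ℝ, ∀ i < σ.length, sgnOK (σ.getD i 0) (RPoly.eval ((atomsT φ.toks).getD i []) x) := by
  constructor
  · rintro ⟨x, hx⟩
    have hok : ∀ i < (atomsT φ.toks).length,
        sgnOK (((atomsT φ.toks).map fun p => Sem_code (RPoly.eval p x)).getD i 0)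
          (RPoly.eval ((atomsT φ.toks).getD i []) x) := by
      intro i hi
      have h1 : ((atomsT φ.toks).map fun p => Sem_code (RPoly.eval p x)).getD i 0 =
          Sem_code (RPoly.eval ((atomsT φ.toks).getD i []) x) := by
        rw [List.getD_eq_getElem?_getD, List.getD_eq_getElem?_getD, List.getElem?_map,
          List.getElem?_eq_getElem hi]
        rfl
      rw [h1]
      exact Sem_code_ok _
    refine ⟨(atomsT φ.toks).map fun p => Sem_code (RPoly.eval p x), by rw [List.length_map],
      ?_, ?_, x, ?_⟩
    · intro s hs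
      rw [List.mem_map] at hs
      obtain ⟨p, _, rfl⟩ := hs
      exact Sem_code_lt _
    · rw [Sem_holds x φ _ hok]
      exact hx
    · rw [List.length_map]
      exact hok
  · rintro ⟨σ, hlen, _, hev, x, hx⟩
    refine ⟨x, ?_⟩
    rw [hlen] at hx
    rwa [Sem_holds x φ σ hx] at hev

end Vale.Agent.P337

end

section

/-!
P337, reduction of ETR: the system of equations.
-/

namespace Vale.Agent.P337

open Vale.Agent.Lib.Common.PolyTime

theorem sys_eval_mono (N : ℕ) (m : IMono) (x : Fin N → ℝ) (X : ℕ → ℝ)
    (hX : ∀ i : Fin N, X i = x i) :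
    MvPolynomial.eval x (toR (IMono.toMv N m))
      = (IMono.coef m : ℝ) * ∏ i ∈ Finset.range N, X i ^ m.2.getD i 0 := by
  unfold IMono.toMv toR
  rw [MvPolynomial.map_monomial, MvPolynomial.eval_monomial]
  rw [Finset.prod_range]
  congr 1
  rw [Finsupp.prod_fintype _ _ (fun i => pow_zero _)]
  exact Finset.prod_congr rfl fun i _ => by rw [hX i]; rfl

theorem sys_eval_poly (N : ℕ) (q : IPoly) (x : Fin N → ℝ) (X : ℕ → ℝ)
    (hX : ∀ i : Fin N, X i = x i) :
    MvPolynomial.eval x (toR (IPoly.toMv N q))
      = (q.map fun m => (IMono.coef m : ℝ) * ∏ i ∈ Finset.range N, X i ^ m.2.getD i 0).sum := by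
  unfold IPoly.toMv
  induction q with
  | nil => simp [toR]
  | cons m q ih =>
    rw [List.map_cons, List.sum_cons, List.map_cons, List.sum_cons, ← ih, ← sys_eval_mono N m x X hX]
    simp [toR]

theorem sys_prod_ext (X : ℕ → ℝ) (e : List ℕ) (N : ℕ) (h : e.length ≤ N) :
    ∏ i ∈ Finset.range N, X i ^ e.getD i 0 = ∏ i ∈ Finset.range e.length, X i ^ e.getD i 0 := by
  symm
  apply Finset.prod_subset
  · intro i hi
    rw [Finset.mem_range] at hi ⊢
    omega
  · intro i _ hi
    rw [Finset.mem_range, not_lt] at hi
    rw [List.getD_eq_default _ _ hi, pow_zero]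

theorem sys_mono_eval (m : RMono) (X : ℕ → ℝ) (N : ℕ) (h : m.2.length ≤ N) :
    Mono.eval (RMono.mono m) X
      = (if m.1.1 then -1 else 1) * (bval m.1.2 : ℝ) * ∏ i ∈ Finset.range N, X i ^ m.2.getD i 0 := by
  rw [sys_prod_ext X m.2 N h]
  rfl

theorem sys_poly_eval (p : RPoly) (X : ℕ → ℝ) (N : ℕ) (h : ∀ m ∈ p, m.2.length ≤ N) :
    RPoly.eval p X = (p.map fun m : RMono => (if m.1.1 then -1 else 1) * (bval m.1.2 : ℝ) *
      ∏ i ∈ Finset.range N, X i ^ m.2.getD i 0).sum := by
  unfold RPoly.eval Poly.eval
  rw [List.map_map]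
  congr 1
  apply List.map_congr_left
  intro m hm
  exact sys_mono_eval m X N (h m hm)

theorem sys_padE (n a : ℕ) (e : List ℕ) (h : e.length ≤ n) (i : ℕ) :
    (padE n a e).getD i 0 = if i < n then e.getD i 0 else if i = n + a then 2 else 0 := by
  unfold padE
  have hl : ((e ++ List.replicate n 0).take n).length = n := by
    rw [List.length_take, List.length_append, List.length_replicate]
    omega
  rw [List.append_assoc]
  by_cases hi : i < n
  · rw [if_pos hi, List.getD_append _ _ _ _ (by rw [hl]; exact hi)]
    rw [List.getD_eq_getElem?_getD, List.getElem?_take_of_lt hi, ← List.getD_eq_getElem?_getD]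
    by_cases h2 : i < e.length
    · rw [List.getD_append _ _ _ _ h2]
    · rw [not_lt] at h2
      rw [List.getD_append_right _ _ _ _ h2, List.getD_eq_default _ _ h2]
      rw [List.getD_eq_getElem?_getD, List.getElem?_replicate]
      split_ifs <;> rfl
  · rw [if_neg hi]
    rw [not_lt] at hi
    rw [List.getD_append_right _ _ _ _ (by rw [hl]; exact hi), hl]
    by_cases h2 : i = n + a
    · rw [if_pos h2, h2]
      rw [List.getD_append_right _ _ _ _ (by rw [List.length_replicate]; omega)]
      simp
    · rw [if_neg h2]
      by_cases h3 : i - n < a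
      · rw [List.getD_append _ _ _ _ (by rw [List.length_replicate]; exact h3)]
        rw [List.getD_eq_getElem?_getD, List.getElem?_replicate]
        split_ifs <;> rfl
      · rw [List.getD_eq_default]
        rw [List.length_append, List.length_replicate]
        simp only [List.length_cons, List.length_nil]
        omega

theorem sys_padE_prod (n a N : ℕ) (e : List ℕ) (h : e.length ≤ n) (hN : n + a < N) (X : ℕ → ℝ) :
    ∏ i ∈ Finset.range N, X i ^ (padE n a e).getD i 0
      = (∏ i ∈ Finset.range n, X i ^ e.getD i 0) * X (n + a) ^ 2 := by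
  have h1 : ∏ i ∈ Finset.range N, X i ^ (padE n a e).getD i 0
      = (∏ i ∈ Finset.range n, X i ^ (padE n a e).getD i 0)
        * ∏ i ∈ Finset.range (N - n), X (n + i) ^ (padE n a e).getD (n + i) 0 := by
    rw [← Finset.prod_range_add, Nat.add_sub_cancel' (by omega)]
  rw [h1]
  congr 1
  · apply Finset.prod_congr rfl
    intro i hi
    rw [sys_padE n a e h, if_pos (Finset.mem_range.mp hi)]
  · rw [Finset.prod_eq_single a]
    · rw [sys_padE n a e h, if_neg (by omega), if_pos rfl]
    · intro i _ hia
      rw [sys_padE n a e h, if_neg (by omega), if_neg (by omega), pow_zero]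
    · intro ha
      exact absurd (Finset.mem_range.mpr (by omega)) ha

theorem sys_le_nvars (ps : List RPoly) (p : RPoly) (hp : p ∈ ps) (m : RMono) (hm : m ∈ p) :
    m.2.length ≤ nvars ps := by
  unfold nvars
  have h1 : m.2.length ≤ (p.map fun m : RMono => m.2.length).sum :=
    List.single_le_sum (by intro x _; exact Nat.zero_le x) _ (List.mem_map.mpr ⟨m, hm, rfl⟩)
  have h2 : (p.map fun m : RMono => m.2.length).sum
      ≤ (ps.map fun p => (p.map fun m : RMono => m.2.length).sum).sum :=
    List.single_le_sum (by intro x _; exact Nat.zero_le x) _ (List.mem_map.mpr ⟨p, hp, rfl⟩)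
  exact h1.trans h2

theorem sys_eqn_eval (n N a s : ℕ) (p : RPoly) (hp : ∀ m ∈ p, m.2.length ≤ n) (hN : n + a < N)
    (x : Fin N → ℝ) (X : ℕ → ℝ) (hX : ∀ i : Fin N, X i = x i) :
    MvPolynomial.eval x (toR (IPoly.toMv N (eqn n a s p)))
      = if s = 0 then RPoly.eval p X
        else -1 + (if s = 1 then 1 else -1) * RPoly.eval p X * X (n + a) ^ 2 := by
  rw [sys_eval_poly N _ x X hX]
  unfold eqn
  by_cases hs : s = 0
  · rw [if_pos hs, if_pos hs, sys_poly_eval p X N (fun m hm => (hp m hm).trans (by omega)),
      List.map_map]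
    congr 1
    apply List.map_congr_left
    intro m _
    simp only [Function.comp, IMono.coef]
    push_cast
    split_ifs <;> simp
  · rw [if_neg hs, if_neg hs, List.map_cons, List.sum_cons, List.map_map,
      sys_poly_eval p X n hp]
    have h0 : ((IMono.coef ((true, (⟨1⟩ : BNat)), []) : ℤ) : ℝ) *
        ∏ i ∈ Finset.range N, X i ^ (([] : List ℕ)).getD i 0 = -1 := by
      simp [IMono.coef]
    have h1 : (List.map ((fun m : IMono => ((IMono.coef m : ℤ) : ℝ) *
        ∏ i ∈ Finset.range N, X i ^ m.2.getD i 0) ∘ fun m : RMono =>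
          (((if s = 1 then m.1.1 else !m.1.1), (⟨bval m.1.2⟩ : BNat)), padE n a m.2)) p).sum
        = (if s = 1 then 1 else -1) * (List.map (fun m : RMono => (if m.1.1 then -1 else 1) *
          (bval m.1.2 : ℝ) * ∏ i ∈ Finset.range n, X i ^ m.2.getD i 0) p).sum * X (n + a) ^ 2 := by
      rw [← List.sum_map_mul_left, ← List.sum_map_mul_right]
      congr 1
      apply List.map_congr_left
      intro m hm
      simp only [Function.comp, IMono.coef]
      rw [sys_padE_prod n a N m.2 (hp m hm) hN X]
      push_cast
      by_cases h1 : s = 1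
      · simp only [h1, if_true]
        split_ifs <;> push_cast <;> ring
      · simp only [h1, if_false]
        cases m.1.1 <;> simp <;> ring
    rw [h0, h1]

/-- the system of equations expresses the sign conditions -/
theorem feas_sysT (ps : List RPoly) (σ : List ℕ) (h : σ.length = ps.length) :
    Feas (sysT ps σ) ↔ ∃ x : ℕ → ℝ, ∀ i < σ.length, sgnOK (σ.getD i 0) (RPoly.eval (ps.getD i []) x) := by
  have hmem : ∀ a < ps.length, ps.getD a [] ∈ ps := by
    intro a ha
    rw [List.getD_eq_getElem _ _ ha]
    exact List.getElem_mem ha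
  constructor
  · rintro ⟨x, hx⟩
    refine ⟨fun i => if hi : i < (sysT ps σ).1 then x ⟨i, hi⟩ else 0, fun a ha => ?_⟩
    have ha' : a < ps.length := by omega
    have h1 := hx (eqn (nvars ps) a (σ.getD a 0) (ps.getD a []))
      (List.mem_map.mpr ⟨a, List.mem_range.mpr ha', rfl⟩)
    rw [sys_eqn_eval (nvars ps) _ a (σ.getD a 0) (ps.getD a [])
      (fun m hm => sys_le_nvars ps _ (hmem a ha') m hm)
      (by change nvars ps + a < nvars ps + ps.length; omega) x
      (fun i => if hi : i < (sysT ps σ).1 then x ⟨i, hi⟩ else 0)
      (fun i => dif_pos i.2)] at h1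
    set X : ℕ → ℝ := fun i => if hi : i < (sysT ps σ).1 then x ⟨i, hi⟩ else 0 with hXdef
    set v := RPoly.eval (ps.getD a []) X with hv
    unfold sgnOK
    by_cases h0 : σ.getD a 0 = 0
    · rw [if_pos h0] at h1 ⊢
      exact h1
    · rw [if_neg h0] at h1 ⊢
      have hsq : 0 ≤ X (nvars ps + a) ^ 2 := sq_nonneg _
      by_cases h2 : σ.getD a 0 = 1
      · rw [if_pos h2] at h1 ⊢
        by_contra hc
        rw [not_lt] at hc
        have := mul_nonpos_of_nonpos_of_nonneg hc hsq
        linarith
      · rw [if_neg h2] at h1 ⊢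
        by_contra hc
        rw [not_lt] at hc
        have := mul_nonneg hc hsq
        linarith
  · rintro ⟨X0, hX0⟩
    set X : ℕ → ℝ := fun i => if i < nvars ps then X0 i
      else 1 / √|RPoly.eval (ps.getD (i - nvars ps) []) X0| with hX
    refine ⟨fun i => X i, fun q hq => ?_⟩
    obtain ⟨a, ha, rfl⟩ := List.mem_map.mp hq
    rw [List.mem_range] at ha
    have hle : ∀ m ∈ ps.getD a [], m.2.length ≤ nvars ps :=
      fun m hm => sys_le_nvars ps _ (hmem a ha) m hm
    rw [sys_eqn_eval (nvars ps) _ a (σ.getD a 0) (ps.getD a []) hle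
      (by change nvars ps + a < nvars ps + ps.length; omega) (fun i => X i) X (fun i => rfl)]
    have he : RPoly.eval (ps.getD a []) X = RPoly.eval (ps.getD a []) X0 := by
      rw [sys_poly_eval _ X _ hle, sys_poly_eval _ X0 _ hle]
      congr 1
      apply List.map_congr_left
      intro m _
      congr 1
      apply Finset.prod_congr rfl
      intro i hi
      have : X i = X0 i := if_pos (Finset.mem_range.mp hi)
      rw [this]
    rw [he]
    have hy : X (nvars ps + a) = 1 / √|RPoly.eval (ps.getD a []) X0| := by
      simp only [hX]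
      rw [if_neg (by omega), Nat.add_sub_cancel_left]
    have hs := hX0 a (by omega)
    unfold sgnOK at hs
    by_cases h0 : σ.getD a 0 = 0
    · rw [if_pos h0] at hs ⊢
      exact hs
    · rw [if_neg h0] at hs ⊢
      rw [hy, div_pow, one_pow, Real.sq_sqrt (abs_nonneg _)]
      by_cases h2 : σ.getD a 0 = 1
      · rw [if_pos h2] at hs ⊢
        rw [abs_of_pos hs]
        field_simp
        norm_num
      · rw [if_neg h2] at hs ⊢
        rw [abs_of_neg hs]
        have : RPoly.eval (ps.getD a []) X0 ≠ 0 := hs.ne
        field_simp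
        norm_num

end Vale.Agent.P337

end

section

/-!
P337, reduction of ETR: the functions are computable in polynomial time.
-/

namespace Vale.Agent.P337

open Vale.Agent.Lib.Common.PolyTime

theorem PTs_evStep : PT (fun x : (List Tok × List ℕ) × (List Bool × List ℕ) × Tok =>
    evStep x.2.1 x.2.2) := by
  unfold evStep
  fun_prop

theorem PTs_sz_drop {β : Type} [TEnc β] (l : List β) (n : ℕ) : sz (l.drop n) ≤ sz l :=
  sz_sublist_le (List.drop_sublist _ _)

theorem PTs_sz_evStep (s : List Bool × List ℕ) (t : Tok) :
    sz (evStep s t) ≤ sz s + sz (5 : ℕ) := by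
  obtain ⟨u, v⟩ := s
  have h5 : sz (5 : ℕ) = 11 := by rw [sz_nat]
  have hu : ∀ (b : Bool) (n : ℕ), sz (b :: u.drop n) ≤ sz u + 4 := by
    intro b n
    have h1 := sz_bool_le b
    have h2 := PTs_sz_drop u n
    rw [sz_cons]
    omega
  have hu0 : ∀ (b : Bool), sz (b :: u) ≤ sz u + 4 := by
    intro b
    have h1 := sz_bool_le b
    rw [sz_cons]
    omega
  have hv : sz (v.drop 1) ≤ sz v := PTs_sz_drop v 1
  rw [h5, sz_pair]
  unfold evStep
  dsimp only
  split_ifs
  · rw [sz_pair]
    dsimp only
    have := hu0 (v.getD 0 0 == 0)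
    omega
  · rw [sz_pair]
    dsimp only
    have := hu0 (v.getD 0 0 == 1)
    omega
  · rw [sz_pair]
    dsimp only
    have := hu (!(u.getD 0 false)) 1
    omega
  · rw [sz_pair]
    dsimp only
    have := hu (u.getD 1 false && u.getD 0 false) 2
    omega
  · rw [sz_pair]
    dsimp only
    have := hu (u.getD 1 false || u.getD 0 false) 2
    omega

theorem PT_evT : PT (fun p : List Tok × List ℕ => evT p.1 p.2) := by
  have h1 : PT (fun p : List Tok × List ℕ => p.1.foldl evStep ([], p.2)) := by
    refine PT.foldl_add (α := List Tok × List ℕ) (step := fun _ s t => evStep s t)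
      (l := fun p => p.1) (init := fun p => (([] : List Bool), p.2))
      (h := fun _ _ => (5 : ℕ)) PTs_evStep (PT.fst PT.id)
      (PT.pair (PT.const _) (PT.snd PT.id)) (PT.const _) ?_
    intro _ s b _
    exact PTs_sz_evStep s b
  exact PT.getD (PT.fst h1) (PT.const 0) (PT.const false)

theorem PTs_nvars {α : Type} [TEnc α] {f : α → List RPoly} (hf : PT f) :
    PT (fun a => nvars (f a)) := by
  unfold nvars
  have h1 : PT (fun x : (α × RPoly) × RMono => x.2.2.length) := PT.length (PT.snd (PT.snd PT.id))
  have h2 : PT (fun x : α × RPoly => (x.2.map fun m : RMono => m.2.length).sum) :=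
    PT.sum (PT.map (f := fun _ (m : RMono) => m.2.length) h1 (PT.snd PT.id))
  exact PT.sum (PT.map (f := fun _ (p : RPoly) => (p.map fun m : RMono => m.2.length).sum) h2 hf)

theorem PTs_padE {α : Type} [TEnc α] {n a : α → ℕ} {e : α → List ℕ} (hn : PT n) (ha : PT a)
    (he : PT e) : PT (fun x => padE (n x) (a x) (e x)) := by
  unfold padE
  fun_prop

theorem PTs_eqn {α : Type} [TEnc α] {n a s : α → ℕ} {p : α → RPoly} (hn : PT n) (ha : PT a)
    (hs : PT s) (hp : PT p) : PT (fun x => eqn (n x) (a x) (s x) (p x)) := by
  unfold eqn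
  have hm : PT (fun y : α × RMono => y.2) := PT.snd PT.id
  have hb : PT (fun y : α × RMono => (⟨bval y.2.1.2⟩ : BNat)) :=
    PT_ofBits (PT.snd (PT.fst hm))
  have h1 : PT (fun y : α × RMono => (((y.2.1.1, (⟨bval y.2.1.2⟩ : BNat)), y.2.2) : IMono)) :=
    PT.pair (PT.pair (PT.fst (PT.fst hm)) hb) (PT.snd hm)
  have h2 : PT (fun y : α × RMono =>
      ((((if s y.1 = 1 then y.2.1.1 else !y.2.1.1), (⟨bval y.2.1.2⟩ : BNat)),
        padE (n y.1) (a y.1) y.2.2) : IMono)) := by
    refine PT.pair (PT.pair ?_ hb) (PTs_padE (hn.comp (PT.fst PT.id)) (ha.comp (PT.fst PT.id))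
      (PT.snd hm))
    exact PT.ite (PT.decide_eq (hs.comp (PT.fst PT.id)) (PT.const 1)) (PT.fst (PT.fst hm))
      (PT.not (PT.fst (PT.fst hm)))
  refine PT.ite (PT.decide_eq hs (PT.const 0)) ?_ ?_
  · exact PT.map (f := fun _ (m : RMono) => (((m.1.1, (⟨bval m.1.2⟩ : BNat)), m.2) : IMono)) h1 hp
  · refine PT.cons (PT.const _) ?_
    exact PT.map (f := fun x (m : RMono) =>
      ((((if s x = 1 then m.1.1 else !m.1.1), (⟨bval m.1.2⟩ : BNat)),
        padE (n x) (a x) m.2) : IMono)) h2 hp

theorem PT_sysT : PT (fun p : List RPoly × List ℕ => sysT p.1 p.2) := by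
  unfold sysT
  have hn : PT (fun p : List RPoly × List ℕ => nvars p.1) := PTs_nvars (PT.fst PT.id)
  refine PT.pair (PT.add hn (PT.length (PT.fst PT.id))) ?_
  have h1 : PT (fun y : (List RPoly × List ℕ) × ℕ =>
      eqn (nvars y.1.1) y.2 (y.1.2.getD y.2 0) (y.1.1.getD y.2 [])) :=
    PTs_eqn (hn.comp (PT.fst PT.id)) (PT.snd PT.id)
      (PT.getD (PT.snd (PT.fst PT.id)) (PT.snd PT.id) (PT.const 0))
      (PT.getD (PT.fst (PT.fst PT.id)) (PT.snd PT.id) (PT.const []))
  exact PT.map (f := fun (p : List RPoly × List ℕ) a =>
    eqn (nvars p.1) a (p.2.getD a 0) (p.1.getD a [])) h1 (PT.range (PT.length (PT.fst PT.id)))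

theorem PT_atomsT : PT atomsT := by
  have h1 : PT (fun y : List Tok × Tok => decide (y.2.1 < 2)) :=
    PT.decide_lt (PT.fst (PT.snd PT.id)) (PT.const 2)
  have h2 : PT (fun T : List Tok => T.filter fun t => decide (t.1 < 2)) :=
    PT.filter (f := fun _ (t : Tok) => decide (t.1 < 2)) h1 PT.id
  have h3 : PT (fun y : List Tok × Tok => y.2.2) := PT.snd (PT.snd PT.id)
  exact PT.map (f := fun _ (t : Tok) => t.2) h3 h2

end Vale.Agent.P337

end
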