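import Mathlib
import Vale.Agent.Lib.Common.PolyTime.Compile
import Vale.Agent.Lib.P337.Defs
import Vale.Agent.Lib.P337.M.CxA

section

/-!
P337: polynomial time functions on bit strings.
-/

namespace Vale.Agent.P337

open Vale.Agent.Lib.Common.PolyTime

theorem polyTime_of_PT {f : List Bool → List Bool} (hf : PT f) : PolyTime f := by
  obtain ⟨F, hF, hF'⟩ := hf
  exact PolyOn.toTM2 (Γ₀ := Bool) (Γ₁ := Bool) TEnc.enc TEnc.enc TEnc.inj id id f hF hF'

/-- one step of reading a pair of words: read two equal bits -/
def unpairStep (s : List Bool × List Bool) : List Bool × List Bool :=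
  List.casesOn (motive := fun _ => List Bool × List Bool) s.2 s (fun b r =>
    List.casesOn (motive := fun _ => List Bool × List Bool) r s (fun c r' =>
      bif b == c then (b :: s.1, r') else s))

theorem unpairStep_mark (acc y : List Bool) :
    unpairStep (acc, true :: false :: y) = (acc, true :: false :: y) := rfl

theorem unpairStep_two (acc r : List Bool) (b : Bool) :
    unpairStep (acc, b :: b :: r) = (b :: acc, r) := by
  cases b <;> rfl

theorem sz_unpairStep_le (s : List Bool × List Bool) : sz (unpairStep s) ≤ sz s := by
  obtain ⟨acc, r⟩ := s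
  match r with
  | [] => exact le_rfl
  | [b] => exact le_rfl
  | b :: c :: r =>
    by_cases h : b = c
    · subst h
      rw [unpairStep_two, sz_pair, sz_pair, sz_cons, sz_cons, sz_cons]
      omega
    · have : (b == c) = false := beq_false_of_ne h
      have h2 : unpairStep (acc, b :: c :: r) = (acc, b :: c :: r) := by
        show (bif b == c then (b :: acc, r) else (acc, b :: c :: r)) = _
        rw [this]; rfl
      rw [h2]

theorem sz_unpairStep_iterate_le (i : ℕ) (s : List Bool × List Bool) :
    sz (unpairStep^[i] s) ≤ sz s := by
  induction i with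
  | zero => exact le_rfl
  | succ i ih =>
    rw [Function.iterate_succ_apply']
    exact (sz_unpairStep_le _).trans ih

theorem unpairStep_iterate (y : List Bool) : ∀ (x acc : List Bool) (k : ℕ), x.length ≤ k →
    unpairStep^[k] (acc, (x.flatMap fun b => [b, b]) ++ true :: false :: y) =
      (x.reverse ++ acc, true :: false :: y) := by
  intro x
  induction x with
  | nil =>
    intro acc k _
    exact Function.iterate_fixed (unpairStep_mark acc y) k
  | cons b x ih =>
    intro acc k hk
    obtain ⟨k, rfl⟩ : ∃ k', k = k' + 1 := ⟨k - 1, by simp at hk; omega⟩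
    rw [Function.iterate_succ_apply]
    have h1 : ((b :: x).flatMap fun b => [b, b]) ++ true :: false :: y =
        b :: b :: ((x.flatMap fun b => [b, b]) ++ true :: false :: y) := by
      simp
    rw [h1, unpairStep_two, ih (b :: acc) k (by simpa using hk)]
    simp

theorem PT_unpairStep : PT (fun x : List Bool × (List Bool × List Bool) => unpairStep x.2) := by
  unfold unpairStep
  fun_prop

/-- a polynomial time inverse of the pairing of words -/
theorem exists_unpair : ∃ u : List Bool → List Bool × List Bool, PT u ∧
    ∀ x y, u (pair x y) = (x, y) := by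
  have h1 : PT (fun w : List Bool => unpairStep^[w.length] (([] : List Bool), w)) := by
    refine PT.iterate (f := fun (_ : List Bool) s => unpairStep s) PT_unpairStep
      (PT.length PT.id) (PT.pair (PT.const []) PT.id) (Polynomial.X + Polynomial.C 2) ?_
    intro w i _
    refine (sz_unpairStep_iterate_le i _).trans ?_
    rw [sz_pair, sz_nil]
    simp
    omega
  refine ⟨fun w => ((unpairStep^[w.length] (([] : List Bool), w)).1.reverse,
    (unpairStep^[w.length] (([] : List Bool), w)).2.tail.tail), ?_, ?_⟩
  · exact PT.pair (PT.reverse (PT.fst h1)) (PT.tail (PT.tail (PT.snd h1)))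
  · intro x y
    have h2 : x.length ≤ (pair x y).length := by
      unfold pair
      rw [List.length_append, List.length_flatMap]
      simp
      omega
    have h3 := unpairStep_iterate y x [] (pair x y).length h2
    have h4 : unpairStep^[(pair x y).length] (([] : List Bool), pair x y)
        = (x.reverse ++ [], true :: false :: y) := h3
    show ((unpairStep^[(pair x y).length] (([] : List Bool), pair x y)).1.reverse,
      (unpairStep^[(pair x y).length] (([] : List Bool), pair x y)).2.tail.tail) = (x, y)
    rw [h4]
    simp

theorem PT_pair : PT (fun p : List Bool × List Bool => pair p.1 p.2) := by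
  unfold pair
  fun_prop

end Vale.Agent.P337

end

section

/-!
P337: the typed levels are contained in the levels of the counting hierarchy.
-/

namespace Vale.Agent.P337

open Vale.Agent.Lib.Common.PolyTime

/-- size of a bit list -/
theorem level_sz_bits_le (w : List Bool) : sz w ≤ 4 * w.length + 1 := by
  induction w with
  | nil => simp [sz_nil]
  | cons b w ih =>
    have h := sz_bool_le b
    rw [sz_cons, List.length_cons]
    omega

/-- a polynomial bound for a polynomial time number, in terms of the length of the word -/
theorem level_exists_bound {l : List Bool → ℕ} (hl : PT l) :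
    ∃ m : Polynomial ℕ, ∀ w, l w ≤ m.eval w.length := by
  obtain ⟨p, hp⟩ := hl.size_le
  refine ⟨p.comp (4 * Polynomial.X + 1), fun w => ?_⟩
  have h1 : l w ≤ sz (l w) := by
    rw [sz_nat]
    omega
  have h2 : sz (l w) ≤ p.eval (sz w) := hp w
  have h3 : p.eval (sz w) ≤ p.eval (4 * w.length + 1) := poly_mono p (level_sz_bits_le w)
  have h4 : (p.comp (4 * Polynomial.X + 1)).eval w.length = p.eval (4 * w.length + 1) := by
    simp
  rw [h4]
  exact h1.trans (h2.trans h3)

/-- the oracle machine which asks one question: its own input -/
def levelDelta (u : List Bool → List Bool × List Bool) (v : List Bool) : List Bool :=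
  List.casesOn (motive := fun _ => List Bool) (u v).2 (true :: (u v).1) (fun b _ => [false, b])

theorem level_PT_delta {u : List Bool → List Bool × List Bool} (hu : PT u) :
    PT (levelDelta u) := by
  unfold levelDelta
  exact PT.listCases (g := fun _ b _ => [false, b]) (PT.snd hu)
    (PT.cons (PT.const true) (PT.fst hu))
    (PT.cons (PT.const false) (PT.cons (PT.fst (PT.snd PT.id)) (PT.const [])))

theorem level_accepts {u : List Bool → List Bool × List Bool}
    (hu : ∀ x y, u (pair x y) = (x, y)) (O : Lang) (w : List Bool) :
    Accepts O (levelDelta u) w 2 [] ↔ w ∈ O := by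
  have h0 : levelDelta u (pair w []) = true :: w := by
    unfold levelDelta
    rw [hu]
  have h1 : ∀ b, levelDelta u (pair w [b]) = [false, b] := by
    intro b
    unfold levelDelta
    rw [hu]
  have hT : Accepts O (levelDelta u) w 1 [true] := by
    unfold Accepts
    exact Or.inr (h1 true)
  have hF : ¬ Accepts O (levelDelta u) w 1 [false] := by
    unfold Accepts
    rintro (⟨q, hq, -⟩ | hq)
    · rw [h1] at hq
      simp at hq
    · rw [h1] at hq
      simp at hq
  constructor
  · intro h
    unfold Accepts at h
    rcases h with ⟨q, hq, h⟩ | hq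
    · rw [h0] at hq
      have hq' : w = q := by
        have := List.tail_eq_of_cons_eq hq
        exact this
      subst hq'
      rcases h with ⟨h, -⟩ | ⟨-, h⟩
      · exact h
      · exact absurd h hF
    · rw [h0] at hq
      simp at hq
  · intro h
    unfold Accepts
    exact Or.inl ⟨w, h0, Or.inl ⟨h, hT⟩⟩

/-- the typed levels, for languages, are contained in the levels defined by oracle machines -/
theorem mem_CHlevel_of_InC (j : ℕ) : ∀ A : List Bool → Prop, InC j A →
    {w : List Bool | A w} ∈ CHlevel j := by
  induction j with
  | zero =>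
    rintro A ⟨f, hf, hA⟩
    refine ⟨fun w => [f w], polyTime_of_PT (PT.cons hf (PT.const [])), fun w => ?_⟩
    rw [Set.mem_ofPred_eq, hA w]
    simp
  | succ j ih =>
    rintro A ⟨l, B, hl, hB, hA⟩
    obtain ⟨u, hu, hu'⟩ := exists_unpair
    obtain ⟨m, hm⟩ := level_exists_bound hl
    -- the oracle
    have hf : PT (fun v : List Bool => ((u v).1, (u v).2.take (l (u v).1))) :=
      PT.pair (PT.fst hu) (PT.take (PT.snd hu) (PT.comp hl (PT.fst hu)))
    have hO := ih _ (hB.pre hf)
    refine ⟨_, hO, levelDelta u, Polynomial.C 2, m, polyTime_of_PT (level_PT_delta hu),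
      fun x => ?_⟩
    rw [Set.mem_ofPred_eq, hA x]
    obtain ⟨d, hd⟩ := Nat.exists_eq_add_of_le (hm x)
    have h1 : Nat.card {y : List Bool // y.length = m.eval x.length ∧
        Accepts {w : List Bool | B ((u w).1, (u w).2.take (l (u w).1))} (levelDelta u) (pair x y)
          ((Polynomial.C 2).eval x.length) []} =
        cnt (m.eval x.length) (fun y => B (x, y.take (l x))) := by
      unfold cnt
      congr 1
      congr 1
      funext y
      rw [Polynomial.eval_C, level_accepts hu', Set.mem_ofPred_eq, hu']
    rw [h1, hd, cnt_take (l x) d (fun y => B (x, y)), pow_add]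
    have h2 : (0 : ℕ) < 2 ^ d := by positivity
    constructor
    · intro h
      calc 2 ^ l x * 2 ^ d < (2 * cnt (l x) fun y => B (x, y)) * 2 ^ d :=
            Nat.mul_lt_mul_of_pos_right h h2
        _ = 2 * (2 ^ d * cnt (l x) fun y => B (x, y)) := by ring
    · intro h
      have h3 : 2 ^ l x * 2 ^ d < (2 * cnt (l x) fun y => B (x, y)) * 2 ^ d := by
        calc 2 ^ l x * 2 ^ d < 2 * (2 ^ d * cnt (l x) fun y => B (x, y)) := h
          _ = (2 * cnt (l x) fun y => B (x, y)) * 2 ^ d := by ring
      exact Nat.lt_of_mul_lt_mul_right h3

end Vale.Agent.P337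

end
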