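import Mathlib

section

/-!
P337, algebra side: coefficient extraction by finite Fourier sums over prime fields.
-/

namespace Vale.Agent.P337

open MvPolynomial

variable {N : ℕ} {r : ℕ}

private theorem fourier_sum_units [Fact r.Prime] (f : ZMod r → ZMod r) :
    ∑ x ∈ Finset.Ico 1 r, f ((x : ℕ) : ZMod r) = ∑ u : (ZMod r)ˣ, f (u : ZMod r) := by
  symm
  refine Finset.sum_bij (fun (u : (ZMod r)ˣ) _ => (u : ZMod r).val) ?_ ?_ ?_ ?_
  · intro u _
    rw [Finset.mem_Ico]
    refine ⟨?_, ZMod.val_lt _⟩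
    rw [Nat.one_le_iff_ne_zero, Ne, ZMod.val_eq_zero]
    exact u.ne_zero
  · intro u _ v _ h
    exact Units.ext (ZMod.val_injective r h)
  · intro x hx
    rw [Finset.mem_Ico] at hx
    have hv : ((x : ℕ) : ZMod r).val = x := ZMod.val_cast_of_lt hx.2
    have hne : ((x : ℕ) : ZMod r) ≠ 0 := by
      intro h0
      rw [h0, ZMod.val_zero] at hv
      omega
    exact ⟨Units.mk0 _ hne, Finset.mem_univ _, hv⟩
  · intro u _
    rw [ZMod.natCast_zmod_val]

private theorem fourier_orth [Fact r.Prime] (a b : ℕ) (ha : a < r - 1) (hb : b < r - 1) :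
    ∑ x ∈ Finset.Ico 1 r, ((x : ℕ) : ZMod r) ^ a * (((x : ℕ) : ZMod r)⁻¹) ^ b =
      if a = b then -1 else 0 := by
  rw [fourier_sum_units (fun y : ZMod r => y ^ a * y⁻¹ ^ b)]
  have h1 : ∀ u : (ZMod r)ˣ, (u : ZMod r) ^ a * ((u : ZMod r)⁻¹) ^ b =
      (u : ZMod r) ^ (a + (r - 1 - b)) := by
    intro u
    have hu : (u : ZMod r) ≠ 0 := u.ne_zero
    have h2 : (u : ZMod r) ^ (r - 1) = 1 := ZMod.pow_card_sub_one_eq_one hu
    rw [inv_pow, ← div_eq_mul_inv, div_eq_iff (pow_ne_zero _ hu), ← pow_add,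
      show a + (r - 1 - b) + b = a + (r - 1) by omega, pow_add, h2, mul_one]
  rw [Finset.sum_congr rfl fun u _ => h1 u]
  have h3 := FiniteField.sum_pow_units (ZMod r) (a + (r - 1 - b))
  rw [ZMod.card] at h3
  rw [h3]
  by_cases hab : a = b
  · rw [if_pos hab, if_pos]
    exact ⟨1, by omega⟩
  · rw [if_neg hab, if_neg]
    rintro ⟨q, hq⟩
    rcases Nat.lt_or_ge q 1 with h | h
    · have : q = 0 := by omega
      rw [this, mul_zero] at hq
      omega
    · rcases Nat.lt_or_ge q 2 with h' | h'
      · have : q = 1 := by omega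
        rw [this, mul_one] at hq
        omega
      · have h5 : (r - 1) * 2 ≤ (r - 1) * q := Nat.mul_le_mul_left _ h'
        omega

theorem coeff_eq_sum [Fact r.Prime] (G : MvPolynomial (Fin N) (ZMod r)) (m : Fin N → ℕ)
    (hG : G.totalDegree < r - 1) (hm : ∀ i, m i < r - 1) :
    coeff (Finsupp.equivFunOnFinite.symm m) G =
      (-1) ^ N * ∑ z ∈ Fintype.piFinset (fun _ : Fin N => Finset.Ico 1 r),
        eval (fun i => (z i : ZMod r)) G * ∏ i, ((z i : ZMod r)⁻¹) ^ m i := by
  have h1 : ∀ z : Fin N → ℕ, eval (fun i => (z i : ZMod r)) G * ∏ i, ((z i : ZMod r)⁻¹) ^ m i =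
      ∑ d ∈ G.support, coeff d G * ∏ i, (((z i : ℕ) : ZMod r) ^ d i * ((z i : ZMod r)⁻¹) ^ m i) := by
    intro z
    rw [eval_eq', Finset.sum_mul]
    refine Finset.sum_congr rfl fun d _ => ?_
    rw [Finset.prod_mul_distrib, mul_assoc]
  rw [Finset.sum_congr rfl fun z _ => h1 z, Finset.sum_comm]
  have h2 : ∀ d ∈ G.support, ∑ z ∈ Fintype.piFinset (fun _ : Fin N => Finset.Ico 1 r),
      coeff d G * ∏ i, (((z i : ℕ) : ZMod r) ^ d i * ((z i : ZMod r)⁻¹) ^ m i) =
      if d = Finsupp.equivFunOnFinite.symm m then (-1) ^ N * coeff d G else 0 := by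
    intro d hd
    have hdi : ∀ i, d i < r - 1 := by
      intro i
      refine lt_of_le_of_lt ?_ hG
      refine le_trans ?_ (le_totalDegree hd)
      rw [Finsupp.sum]
      by_cases hi : i ∈ d.support
      · exact Finset.single_le_sum (f := fun j => d j) (fun _ _ => Nat.zero_le _) hi
      · rw [Finsupp.notMem_support_iff.mp hi]
        exact Nat.zero_le _
    rw [← Finset.mul_sum]
    have h3 := Finset.prod_univ_sum (fun _ : Fin N => Finset.Ico 1 r)
      (fun i x => ((x : ℕ) : ZMod r) ^ d i * (((x : ℕ) : ZMod r)⁻¹) ^ m i)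
    rw [← h3, Finset.prod_congr rfl fun i _ => fourier_orth (d i) (m i) (hdi i) (hm i)]
    by_cases hdm : d = Finsupp.equivFunOnFinite.symm m
    · rw [if_pos hdm, Finset.prod_congr rfl (g := fun _ => (-1 : ZMod r)), Finset.prod_const,
        Finset.card_univ, Fintype.card_fin, mul_comm]
      intro i _
      rw [if_pos]
      rw [hdm]
      rfl
    · rw [if_neg hdm]
      obtain ⟨i, hi⟩ : ∃ i, d i ≠ m i := by
        by_contra hcon
        push Not at hcon
        exact hdm (Finsupp.ext fun i => hcon i)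
      rw [Finset.prod_eq_zero (Finset.mem_univ i) (if_neg hi), mul_zero]
  rw [Finset.sum_congr rfl h2, Finset.sum_ite_eq']
  have h4 : ((-1 : ZMod r)) ^ N * (-1) ^ N = 1 := by
    rw [← mul_pow, neg_one_mul, neg_neg, one_pow]
  by_cases hms : Finsupp.equivFunOnFinite.symm m ∈ G.support
  · rw [if_pos hms, ← mul_assoc, h4, one_mul]
  · rw [if_neg hms, mul_zero]
    exact notMem_support_iff.mp hms

theorem polynomial_coeff_eq_sum [Fact r.Prime] (G : Polynomial (ZMod r)) (j : ℕ)
    (hG : G.natDegree < r - 1) (hj : j < r - 1) :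
    G.coeff j = -∑ x ∈ Finset.Ico 1 r, G.eval ((x : ℕ) : ZMod r) * (((x : ℕ) : ZMod r)⁻¹) ^ j := by
  have h1 : ∀ x : ℕ, G.eval ((x : ℕ) : ZMod r) * (((x : ℕ) : ZMod r)⁻¹) ^ j =
      ∑ d ∈ Finset.range (r - 1),
        G.coeff d * (((x : ℕ) : ZMod r) ^ d * (((x : ℕ) : ZMod r)⁻¹) ^ j) := by
    intro x
    rw [Polynomial.eval_eq_sum_range' hG, Finset.sum_mul]
    exact Finset.sum_congr rfl fun d _ => mul_assoc _ _ _
  rw [Finset.sum_congr rfl fun x _ => h1 x, Finset.sum_comm]
  have h2 : ∀ d ∈ Finset.range (r - 1), ∑ x ∈ Finset.Ico 1 r,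
      G.coeff d * (((x : ℕ) : ZMod r) ^ d * (((x : ℕ) : ZMod r)⁻¹) ^ j) =
      if j = d then -G.coeff d else 0 := by
    intro d hd
    rw [← Finset.mul_sum, fourier_orth d j (Finset.mem_range.mp hd) hj]
    by_cases hdj : d = j
    · rw [if_pos hdj, if_pos hdj.symm, mul_neg, mul_one]
    · rw [if_neg hdj, if_neg (fun h => hdj h.symm), mul_zero]
  rw [Finset.sum_congr rfl h2, Finset.sum_ite_eq, if_pos (Finset.mem_range.mpr hj), neg_neg]

end Vale.Agent.P337

end

section

/-!
P337, algebra side: the exponential formula satisfies the Newton recursion.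
-/

namespace Vale.Agent.P337

/-- the exponential formula for elementary symmetric functions -/
noncomputable def expc {K : Type} [Field K] (D : ℕ) (S : ℕ → K) (j : ℕ) : K :=
  ∑ l ∈ Finset.range (j + 1), ((l.factorial : ℕ) : K)⁻¹ *
    ((∑ i ∈ Finset.Ico 1 (D + 1), Polynomial.C ((-1) ^ (i - 1) * S i * ((i : ℕ) : K)⁻¹) *
      Polynomial.X ^ i) ^ l).coeff j

/-- the exponent -/
noncomputable def expcG {K : Type} [Field K] (D : ℕ) (S : ℕ → K) : Polynomial K :=
  ∑ i ∈ Finset.Ico 1 (D + 1), Polynomial.C ((-1) ^ (i - 1) * S i * ((i : ℕ) : K)⁻¹) *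
      Polynomial.X ^ i

theorem expcG_coeff {K : Type} [Field K] {D : ℕ} (S : ℕ → K) {a : ℕ} (ha : a + 1 ≤ D) :
    (expcG D S).coeff (a + 1) = (-1) ^ a * S (a + 1) * ((a + 1 : ℕ) : K)⁻¹ := by
  unfold expcG
  rw [Polynomial.finsetSum_coeff, Finset.sum_eq_single (a + 1)]
  · rw [Polynomial.coeff_C_mul, Polynomial.coeff_X_pow, if_pos rfl, mul_one,
      Nat.add_sub_cancel]
  · intro b _ hb
    rw [Polynomial.coeff_C_mul, Polynomial.coeff_X_pow, if_neg (Ne.symm hb), mul_zero]
  · intro h
    exact absurd (Finset.mem_Ico.2 ⟨by omega, by omega⟩) h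

theorem expcG_pow_coeff {K : Type} [Field K] {D : ℕ} (S : ℕ → K) {j l : ℕ} (h : j < l) :
    (expcG D S ^ l).coeff j = 0 := by
  have h1 : Polynomial.X ∣ expcG D S := by
    unfold expcG
    refine Finset.dvd_sum fun i hi => ?_
    refine Dvd.dvd.mul_left (dvd_pow_self _ ?_) _
    have := (Finset.mem_Ico.1 hi).1
    omega
  exact Polynomial.X_pow_dvd_iff.1 (pow_dvd_pow_of_dvd h1 l) j h

/-- the truncated exponential -/
noncomputable def expcE {K : Type} [Field K] (D : ℕ) (S : ℕ → K) : Polynomial K :=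
  ∑ l ∈ Finset.range (D + 1), Polynomial.C (((l.factorial : ℕ) : K)⁻¹) * expcG D S ^ l

theorem expcE_coeff {K : Type} [Field K] {D : ℕ} (S : ℕ → K) {j : ℕ} (hj : j ≤ D) :
    (expcE D S).coeff j = expc D S j := by
  have h0 : expc D S j = ∑ l ∈ Finset.range (j + 1), ((l.factorial : ℕ) : K)⁻¹ *
    (expcG D S ^ l).coeff j := rfl
  rw [h0]
  unfold expcE
  rw [Polynomial.finsetSum_coeff]
  simp only [Polynomial.coeff_C_mul]
  symm
  refine Finset.sum_subset ?_ ?_
  · intro x hx
    rw [Finset.mem_range] at hx ⊢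
    omega
  · intro x _ hx
    rw [Finset.mem_range] at hx
    rw [expcG_pow_coeff S (by omega), mul_zero]

theorem expcE_derivative {K : Type} [Field K] {D : ℕ}
    (hK : ∀ i ∈ Finset.Ico 1 (D + 1), (i : K) ≠ 0) (S : ℕ → K) :
    Polynomial.derivative (expcE D S) =
      Polynomial.derivative (expcG D S) *
        ∑ l ∈ Finset.range D, Polynomial.C (((l.factorial : ℕ) : K)⁻¹) * expcG D S ^ l := by
  unfold expcE
  rw [Polynomial.derivative_sum, Finset.sum_range_succ', Finset.mul_sum]
  simp only [pow_zero, mul_one, Polynomial.derivative_C, add_zero]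
  refine Finset.sum_congr rfl fun l hl => ?_
  have hl' := Finset.mem_range.1 hl
  have hne := hK (l + 1) (Finset.mem_Ico.2 ⟨by omega, by omega⟩)
  rw [Polynomial.derivative_C_mul, Polynomial.derivative_pow, Nat.add_sub_cancel]
  have h1 : (((l + 1).factorial : ℕ) : K)⁻¹ * ((l + 1 : ℕ) : K) = ((l.factorial : ℕ) : K)⁻¹ := by
    rw [Nat.factorial_succ, Nat.cast_mul, mul_inv, mul_comm (((l + 1 : ℕ) : K)⁻¹), mul_assoc,
      inv_mul_cancel₀ hne, mul_one]
  rw [← h1, Polynomial.C_mul]
  ring

/-- the exponential formula satisfies the Newton recursion -/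
theorem expc_newton {K : Type} [Field K] {D : ℕ} (hK : ∀ i ∈ Finset.Ico 1 (D + 1), (i : K) ≠ 0)
    (S : ℕ → K) {k : ℕ} (hk : 1 ≤ k) (hkD : k ≤ D) :
    (k : K) * expc D S k =
      ∑ i ∈ Finset.Ico 1 (k + 1), (-1) ^ (i - 1) * S i * expc D S (k - i) := by
  obtain ⟨m, rfl⟩ : ∃ m, k = m + 1 := ⟨k - 1, by omega⟩
  have h1 := congrArg (fun p => Polynomial.coeff p m) (expcE_derivative hK S)
  rw [Polynomial.coeff_derivative, expcE_coeff S hkD, Polynomial.coeff_mul,
    Finset.Nat.sum_antidiagonal_eq_sum_range_succ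
      (fun a b => (Polynomial.derivative (expcG D S)).coeff a *
        (∑ l ∈ Finset.range D, Polynomial.C (((l.factorial : ℕ) : K)⁻¹) * expcG D S ^ l).coeff b)
      m] at h1
  rw [Finset.sum_Ico_eq_sum_range, Nat.add_sub_cancel, Nat.cast_add, Nat.cast_one, mul_comm, h1]
  refine Finset.sum_congr rfl fun a ha => ?_
  have ha' := Finset.mem_range.1 ha
  have hne := hK (a + 1) (Finset.mem_Ico.2 ⟨by omega, by omega⟩)
  have h2 : (∑ l ∈ Finset.range D, Polynomial.C (((l.factorial : ℕ) : K)⁻¹) *
      expcG D S ^ l).coeff (m - a) = expc D S (m - a) := by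
    rw [← expcE_coeff S (by omega)]
    unfold expcE
    rw [Finset.sum_range_succ, Polynomial.coeff_add, Polynomial.coeff_C_mul,
      expcG_pow_coeff S (by omega), mul_zero, add_zero]
  rw [h2, Polynomial.coeff_derivative, expcG_coeff S (by omega)]
  have h3 : m + 1 - (1 + a) = m - a := by omega
  rw [h3, Nat.add_sub_cancel_left, Nat.add_comm 1 a]
  have h4 : ((a + 1 : ℕ) : K)⁻¹ * ((a : K) + 1) = 1 := by
    have : ((a : K) + 1) = ((a + 1 : ℕ) : K) := by push_cast; rfl
    rw [this, inv_mul_cancel₀ hne]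
  rw [mul_assoc ((-1) ^ a * S (a + 1)), h4, mul_one]

end Vale.Agent.P337

end

section

/-!
P337, algebra side: Newton's identities for matrices.
-/

namespace Vale.Agent.P337

/-! ### the derivative of a determinant -/

/-- the derivative of a determinant is the sum over the columns -/
theorem charNewton_derivative_det {K n : Type} [Field K] [Fintype n] [DecidableEq n]
    (A : Matrix n n (Polynomial K)) :
    Polynomial.derivative A.det =
      ∑ i, (A.updateCol i fun j => Polynomial.derivative (A j i)).det := by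
  rw [Matrix.det_apply', Polynomial.derivative_sum]
  have h1 : ∀ i, (A.updateCol i fun j => Polynomial.derivative (A j i)).det =
      ∑ σ : Equiv.Perm n, ((Equiv.Perm.sign σ : ℤ) : Polynomial K) *
        ((∏ j ∈ Finset.univ.erase i, A (σ j) j) * Polynomial.derivative (A (σ i) i)) := by
    intro i
    rw [Matrix.det_apply']
    apply Finset.sum_congr rfl
    intro σ _
    congr 1
    rw [← Finset.mul_prod_erase Finset.univ _ (Finset.mem_univ i), mul_comm]
    congr 1
    · apply Finset.prod_congr rfl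
      intro j hj
      rw [Matrix.updateCol_ne (Finset.ne_of_mem_erase hj)]
    · rw [Matrix.updateCol_self]
  simp_rw [h1]
  rw [Finset.sum_comm]
  apply Finset.sum_congr rfl
  intro σ _
  rw [Polynomial.derivative_intCast_mul, Polynomial.derivative_prod_finset, Finset.mul_sum]

/-- the derivative of the characteristic polynomial is the trace of the adjugate -/
theorem charNewton_derivative_charpoly {K n : Type} [Field K] [Fintype n] [DecidableEq n]
    (M : Matrix n n K) :
    Polynomial.derivative M.charpoly = M.charmatrix.adjugate.trace := by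
  unfold Matrix.charpoly
  rw [charNewton_derivative_det]
  unfold Matrix.trace
  apply Finset.sum_congr rfl
  intro i _
  have h1 : (fun j => Polynomial.derivative (M.charmatrix j i)) = Pi.single i 1 := by
    funext j
    by_cases hj : j = i
    · subst hj
      rw [Matrix.charmatrix_apply_eq, Pi.single_eq_same]
      simp
    · rw [Matrix.charmatrix_apply_ne _ _ _ hj, Pi.single_eq_of_ne hj]
      simp
  rw [h1, ← Matrix.cramer_apply, Matrix.cramer_eq_adjugate_mulVec]
  simp

/-- the coefficient matrices of the adjugate -/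
noncomputable def charNewtonB {K n : Type} [Field K] [Fintype n] [DecidableEq n]
    (M : Matrix n n K) (j : ℕ) : Matrix n n K :=
  (matPolyEquiv M.charmatrix.adjugate).coeff j

theorem charNewtonB_trace {K n : Type} [Field K] [Fintype n] [DecidableEq n]
    (M : Matrix n n K) (j : ℕ) :
    (charNewtonB M j).trace = M.charpoly.coeff (j + 1) * ((j : K) + 1) := by
  have h1 := congrArg (fun p => Polynomial.coeff p j) (charNewton_derivative_charpoly M)
  simp only [Polynomial.coeff_derivative] at h1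
  rw [h1]
  unfold Matrix.trace
  rw [Polynomial.finsetSum_coeff]
  apply Finset.sum_congr rfl
  intro i _
  unfold charNewtonB
  rw [Matrix.diag_apply, Matrix.diag_apply, matPolyEquiv_coeff_apply]

theorem charNewtonB_rec {K n : Type} [Field K] [Fintype n] [DecidableEq n]
    (M : Matrix n n K) (j : ℕ) :
    charNewtonB M j = charNewtonB M (j + 1) * M + M.charpoly.coeff (j + 1) • 1 := by
  have h1 : matPolyEquiv (M.charmatrix.adjugate * M.charmatrix) =
      M.charpoly.map (algebraMap K (Matrix n n K)) := by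
    rw [Matrix.adjugate_mul, ← matPolyEquiv_smul_one]
    rfl
  rw [map_mul, Matrix.matPolyEquiv_charmatrix, mul_sub] at h1
  have h2 := congrArg (fun p => Polynomial.coeff p (j + 1)) h1
  simp only [Polynomial.coeff_sub, Polynomial.coeff_mul_X, Polynomial.coeff_mul_C,
    Polynomial.coeff_map] at h2
  unfold charNewtonB
  rw [sub_eq_iff_eq_add] at h2
  rw [h2, Algebra.algebraMap_eq_smul_one, add_comm]

theorem charNewtonB_iter {K n : Type} [Field K] [Fintype n] [DecidableEq n]
    (M : Matrix n n K) (j N : ℕ) :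
    charNewtonB M j = charNewtonB M (j + N) * M ^ N +
      ∑ i ∈ Finset.range N, M.charpoly.coeff (j + 1 + i) • M ^ i := by
  induction N with
  | zero => simp
  | succ N ih =>
    rw [ih, charNewtonB_rec M (j + N), Finset.sum_range_succ, add_mul, mul_assoc, ← pow_succ',
      smul_mul_assoc, one_mul, show j + N + 1 = j + 1 + N by ring, show j + (N + 1) = j + 1 + N by ring]
    abel

theorem charNewtonB_card {K n : Type} [Field K] [Fintype n] [DecidableEq n]
    (M : Matrix n n K) : charNewtonB M (Fintype.card n) = 0 := by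
  obtain ⟨N, hN⟩ : ∃ N, charNewtonB M (Fintype.card n + N) = 0 := by
    refine ⟨(matPolyEquiv M.charmatrix.adjugate).natDegree + 1, ?_⟩
    apply Polynomial.coeff_eq_zero_of_natDegree_lt
    omega
  rw [charNewtonB_iter M _ N, hN, zero_mul, zero_add]
  apply Finset.sum_eq_zero
  intro i _
  rw [Polynomial.coeff_eq_zero_of_natDegree_lt, zero_smul]
  rw [Matrix.charpoly_natDegree_eq_dim]
  omega

/-- Newton's identities, unsigned form -/
theorem charNewton_aux {K n : Type} [Field K] [Fintype n] [DecidableEq n] (M : Matrix n n K)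
    {k : ℕ} (hkD : k ≤ Fintype.card n) :
    (k : K) * M.charpoly.coeff (Fintype.card n - k) +
      ∑ i ∈ Finset.Ico 1 (k + 1), M.charpoly.coeff (Fintype.card n - k + i) * (M ^ i).trace = 0 := by
  set D := Fintype.card n with hD
  have htr0 : (M ^ 0).trace = (D : K) := by rw [pow_zero, Matrix.trace_one]
  have hsum : ∀ f : ℕ → K, ∑ i ∈ Finset.range (k + 1), f i =
      f 0 + ∑ i ∈ Finset.Ico 1 (k + 1), f i := by
    intro f
    rw [Finset.range_eq_Ico, Finset.sum_eq_sum_Ico_succ_bot (Nat.succ_pos k)]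
  rcases Nat.lt_or_ge k D with hk | hk
  · have h1 := charNewtonB_iter M (D - 1 - k) (k + 1)
    rw [show D - 1 - k + (k + 1) = D by omega, charNewtonB_card, zero_mul, zero_add,
      show D - 1 - k + 1 = D - k by omega] at h1
    have h2 := congrArg Matrix.trace h1
    rw [charNewtonB_trace, Matrix.trace_sum, show D - 1 - k + 1 = D - k by omega] at h2
    simp only [Matrix.trace_smul, smul_eq_mul] at h2
    rw [hsum, add_zero, htr0] at h2
    have h3 : ((D - 1 - k : ℕ) : K) + 1 = (D : K) - k := by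
      have h4 : (D - 1 - k) + 1 + k = D := by omega
      have h5 : (((D - 1 - k) + 1 + k : ℕ) : K) = (D : K) := congrArg Nat.cast h4
      push_cast at h5
      linear_combination h5
    rw [h3] at h2
    linear_combination -h2
  · have hkD' : k = D := le_antisymm hkD hk
    have h1 := Matrix.aeval_self_charpoly M
    rw [Polynomial.aeval_eq_sum_range, Matrix.charpoly_natDegree_eq_dim, ← hD, ← hkD'] at h1
    have h2 := congrArg Matrix.trace h1
    rw [Matrix.trace_sum, Matrix.trace_zero] at h2
    simp only [Matrix.trace_smul, smul_eq_mul] at h2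
    rw [hsum, htr0] at h2
    rw [← hkD', Nat.sub_self]
    simp only [zero_add]
    rw [← hkD'] at h2
    linear_combination h2

/-- Newton's identities for matrices -/
theorem charpoly_newton {K n : Type} [Field K] [Fintype n] [DecidableEq n] (M : Matrix n n K)
    {k : ℕ} (hk : 1 ≤ k) (hkD : k ≤ Fintype.card n) :
    (k : K) * ((-1) ^ k * M.charpoly.coeff (Fintype.card n - k)) =
      ∑ i ∈ Finset.Ico 1 (k + 1), (-1) ^ (i - 1) * (M ^ i).trace *
        ((-1) ^ (k - i) * M.charpoly.coeff (Fintype.card n - (k - i))) := by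
  have h1 := charNewton_aux M hkD
  have h2 : ∑ i ∈ Finset.Ico 1 (k + 1), (-1) ^ (i - 1) * (M ^ i).trace *
        ((-1) ^ (k - i) * M.charpoly.coeff (Fintype.card n - (k - i))) =
      (-1) ^ (k - 1) * ∑ i ∈ Finset.Ico 1 (k + 1),
        M.charpoly.coeff (Fintype.card n - k + i) * (M ^ i).trace := by
    rw [Finset.mul_sum]
    apply Finset.sum_congr rfl
    intro i hi
    rw [Finset.mem_Ico] at hi
    have e1 : Fintype.card n - (k - i) = Fintype.card n - k + i := by omega
    have e2 : ((-1 : K)) ^ (k - 1) = (-1) ^ (i - 1) * (-1) ^ (k - i) := by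
      rw [← pow_add]
      congr 1
      omega
    rw [e1, e2]
    ring
  rw [h2]
  have e3 : ((-1 : K)) ^ k = -(-1) ^ (k - 1) := by
    obtain ⟨m, rfl⟩ : ∃ m, k = m + 1 := ⟨k - 1, by omega⟩
    rw [Nat.add_sub_cancel, pow_succ]
    ring
  rw [e3]
  linear_combination -(-1) ^ (k - 1) * h1

end Vale.Agent.P337

end

section

/-!
P337, algebra side: characteristic polynomial from power sums by the exponential formula.
-/

namespace Vale.Agent.P337

theorem newtonExp_zero {K : Type} [Field K] (D : ℕ) (S : ℕ → K) : expc D S 0 = 1 := by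
  simp [expc]

theorem newtonExp_aux {K n : Type} [Field K] [Fintype n] [DecidableEq n] (M : Matrix n n K)
    (hK : ∀ i ∈ Finset.Ico 1 (Fintype.card n + 1), (i : K) ≠ 0) (j : ℕ) :
    j ≤ Fintype.card n → (-1) ^ j * M.charpoly.coeff (Fintype.card n - j) =
      expc (Fintype.card n) (fun i => (M ^ i).trace) j := by
  induction j using Nat.strong_induction_on with
  | _ j ih =>
    intro hj
    rcases Nat.eq_zero_or_pos j with h0 | h1
    · subst h0
      rw [newtonExp_zero, pow_zero, one_mul, Nat.sub_zero]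
      have h2 := M.charpoly_monic
      rw [Polynomial.Monic, Polynomial.leadingCoeff, M.charpoly_natDegree_eq_dim] at h2
      exact h2
    · have hjK : (j : K) ≠ 0 := hK j (Finset.mem_Ico.2 ⟨h1, by omega⟩)
      apply mul_left_cancel₀ hjK
      rw [charpoly_newton M h1 hj, expc_newton hK _ h1 hj]
      refine Finset.sum_congr rfl fun i hi => ?_
      rw [Finset.mem_Ico] at hi
      rw [ih (j - i) (by omega) (by omega)]

theorem charpoly_coeff_exp {K n : Type} [Field K] [Fintype n] [DecidableEq n] (M : Matrix n n K)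
    (hK : ∀ i ∈ Finset.Ico 1 (Fintype.card n + 1), (i : K) ≠ 0) {j : ℕ}
    (hj : j ≤ Fintype.card n) :
    M.charpoly.coeff (Fintype.card n - j) =
      (-1) ^ j * expc (Fintype.card n) (fun i => (M ^ i).trace) j := by
  rw [← newtonExp_aux M hK j hj, ← mul_assoc, ← mul_pow]
  simp

theorem det_exp {K n : Type} [Field K] [Fintype n] [DecidableEq n] (M : Matrix n n K)
    (hK : ∀ i ∈ Finset.Ico 1 (Fintype.card n + 1), (i : K) ≠ 0) :
    M.det = expc (Fintype.card n) (fun i => (M ^ i).trace) (Fintype.card n) := by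
  rw [← newtonExp_aux M hK _ le_rfl, Nat.sub_self]
  exact M.det_eq_sign_charpoly_coeff

end Vale.Agent.P337

end
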