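import Mathlib
import Vale.Agent.Lib.P337.M.Alg
import Vale.Agent.Lib.P337.M.AlgC

section

/-!
P337, algebra side: Bezoutian decompositions.
-/

namespace Vale.Agent.P337

open MvPolynomial

variable {N : ℕ} {R A : Type} [CommRing R] [CommRing A]

/-- the monomial with exponent vector `m` evaluated at `y` -/
theorem exists_bez_monomial (y : Fin N → A) (n : ℕ) : ∀ m : Fin N →₀ ℕ, m.degree = n →
    ∃ Δ : Fin N → MvPolynomial (Fin N) A,
      monomial m 1 - C (eval y (monomial m 1)) = ∑ j, Δ j * (X j - C (y j)) ∧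
      ∀ j, Δ j = 0 ∨ (Δ j).totalDegree + 1 ≤ n := by
  induction n with
  | zero =>
    intro m hm
    have h0 : m = 0 := (Finsupp.degree_eq_zero_iff m).1 hm
    subst h0
    refine ⟨fun _ => 0, ?_, fun j => Or.inl rfl⟩
    simp
  | succ n ih =>
    intro m hm
    have hne : m ≠ 0 := by
      rintro rfl
      simp at hm
    obtain ⟨i, hi⟩ := Finsupp.ne_iff.1 hne
    rw [Finsupp.zero_apply] at hi
    have hle : Finsupp.single i 1 ≤ m := by
      rw [Finsupp.single_le_iff]
      omega
    obtain ⟨m', rfl⟩ : ∃ m', m = m' + Finsupp.single i 1 := ⟨m - Finsupp.single i 1, by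
      rw [tsub_add_cancel_of_le hle]⟩
    have hm' : m'.degree = n := by
      rw [map_add, Finsupp.degree_single] at hm
      omega
    obtain ⟨Δ, h1, h2⟩ := ih m' hm'
    refine ⟨fun j => X i * Δ j + if j = i then C (eval y (monomial m' 1)) else 0, ?_, ?_⟩
    · have h3 : (monomial (m' + Finsupp.single i 1) (1 : A)) = monomial m' 1 * X i := by
        rw [X, monomial_mul, mul_one]
      have h4 : ∑ j, (X i * Δ j + if j = i then C (eval y (monomial m' 1)) else 0) *
          (X j - C (y j)) = X i * ∑ j, Δ j * (X j - C (y j)) +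
            C (eval y (monomial m' 1)) * (X i - C (y i)) := by
        simp only [add_mul, Finset.sum_add_distrib, ite_mul, zero_mul, Finset.sum_ite_eq',
          Finset.mem_univ, if_true, Finset.mul_sum]
        congr 1
        refine Finset.sum_congr rfl fun j _ => ?_
        ring
      rw [h4, ← h1, h3, map_mul, eval_X, C_mul]
      ring
    · intro j
      right
      have h5 : (if j = i then C (eval y (monomial m' (1 : A))) else 0 :
          MvPolynomial (Fin N) A).totalDegree = 0 := by
        split_ifs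
        · exact totalDegree_C _
        · exact totalDegree_zero
      have h6 : (X i * Δ j).totalDegree ≤ n := by
        rcases h2 j with h7 | h7
        · rw [h7, mul_zero, totalDegree_zero]
          exact Nat.zero_le _
        · refine (totalDegree_mul _ _).trans ?_
          have h8 : (X i : MvPolynomial (Fin N) A).totalDegree ≤ 1 := by
            rw [X]
            refine (totalDegree_monomial_le _ _).trans ?_
            simp
          omega
      have h9 := totalDegree_add (X i * Δ j)
        (if j = i then C (eval y (monomial m' (1 : A))) else 0)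
      rw [h5] at h9
      have h10 : max (X i * Δ j).totalDegree 0 ≤ n := max_le h6 (Nat.zero_le _)
      exact Nat.succ_le_succ (h9.trans h10)

theorem exists_bez (φ : R →+* A) (y : Fin N → A) (h : MvPolynomial (Fin N) R) :
    ∃ Δ : Fin N → MvPolynomial (Fin N) A,
      map φ h - C (eval₂ φ y h) = ∑ j, Δ j * (X j - C (y j)) ∧
      ∀ j, (Δ j).totalDegree ≤ h.totalDegree - 1 := by
  choose Δ h1 h2 using fun m => exists_bez_monomial y (Finsupp.degree m) m rfl
  refine ⟨fun j => ∑ m ∈ h.support, C (φ (coeff m h)) * Δ m j, ?_, ?_⟩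
  · have h3 : map φ h = ∑ m ∈ h.support, C (φ (coeff m h)) * monomial m 1 := by
      conv_lhs => rw [h.as_sum, map_sum]
      refine Finset.sum_congr rfl fun m _ => ?_
      rw [map_monomial, C_mul_monomial, mul_one]
    have h4 : eval₂ φ y h = ∑ m ∈ h.support, φ (coeff m h) * eval y (monomial m 1) := by
      rw [eval₂_eq]
      refine Finset.sum_congr rfl fun m _ => ?_
      rw [eval_monomial, one_mul]
      rfl
    rw [h3, h4, map_sum, ← Finset.sum_sub_distrib]
    have h5 : ∀ m ∈ h.support, C (φ (coeff m h)) * monomial m 1 -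
        C (φ (coeff m h) * eval y (monomial m 1)) =
        ∑ j, C (φ (coeff m h)) * Δ m j * (X j - C (y j)) := by
      intro m _
      rw [C_mul, ← mul_sub, h1, Finset.mul_sum]
      refine Finset.sum_congr rfl fun j _ => ?_
      ring
    rw [Finset.sum_congr rfl h5, Finset.sum_comm]
    refine Finset.sum_congr rfl fun j _ => ?_
    rw [Finset.sum_mul]
  · intro j
    refine (totalDegree_finsetSum _ _).trans (Finset.sup_le fun m hm => ?_)
    refine (totalDegree_mul _ _).trans ?_
    rw [totalDegree_C, zero_add]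
    have h3 : Finsupp.degree m ≤ h.totalDegree := by
      have h4 := le_totalDegree hm
      exact h4
    rcases h2 m j with h5 | h5
    · rw [h5, totalDegree_zero]
      exact Nat.zero_le _
    · omega

theorem bez_eval (φ : R →+* A) (y : Fin N → A) (h : MvPolynomial (Fin N) R)
    (Δ : Fin N → MvPolynomial (Fin N) A)
    (hΔ : map φ h - C (eval₂ φ y h) = ∑ j, Δ j * (X j - C (y j))) (j : Fin N) :
    eval y (Δ j) = eval₂ φ y (pderiv j h) := by
  have h1 := congrArg (fun p => eval y (pderiv j p)) hΔ
  simp only [map_sub, map_sum, pderiv_C, sub_zero, Derivation.leibniz, smul_eq_mul, map_add,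
    map_mul, eval_X, eval_C, sub_self, zero_mul, add_zero, pderiv_X] at h1
  rw [pderiv_map, eval_map] at h1
  rw [h1, Finset.sum_eq_single j]
  · rw [Pi.single_eq_same, map_one, mul_one]
  · intro k _ hk
    rw [Pi.single_eq_of_ne hk, map_zero, mul_zero]
  · intro hj
    exact absurd (Finset.mem_univ j) hj

theorem exists_bez_pow (y : Fin N → A) {d : ℕ} (hd : 2 ≤ d) (i : Fin N) :
    ∃ Δ : MvPolynomial (Fin N) A, X i ^ d - C (y i ^ d) = Δ * (X i - C (y i)) ∧
      (Δ - X i ^ (d - 1)).totalDegree < d - 1 := by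
  refine ⟨∑ a ∈ Finset.range d, X i ^ a * C (y i) ^ (d - 1 - a), ?_, ?_⟩
  · rw [geom_sum₂_mul, C_pow]
  · obtain ⟨e, rfl⟩ : ∃ e, d = e + 1 := ⟨d - 1, by omega⟩
    rw [Finset.sum_range_succ]
    simp only [Nat.add_sub_cancel, Nat.sub_self, pow_zero, mul_one, add_sub_cancel_right]
    have h1 : (∑ a ∈ Finset.range e, X i ^ a * C (y i) ^ (e - a) :
        MvPolynomial (Fin N) A).totalDegree ≤ e - 1 := by
      refine (totalDegree_finsetSum _ _).trans (Finset.sup_le fun a ha => ?_)
      have ha' := Finset.mem_range.1 ha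
      refine (totalDegree_mul _ _).trans ?_
      rw [← C_pow, totalDegree_C, add_zero]
      refine le_trans ?_ (Nat.le_sub_one_of_lt ha')
      rw [X_pow_eq_monomial]
      refine (totalDegree_monomial_le _ _).trans ?_
      simp
    omega

end Vale.Agent.P337

end

section

/-!
P337, algebra side: the residue of the Bezoutian determinant.
-/

namespace Vale.Agent.P337

open MvPolynomial

variable {N : ℕ} {R A : Type} [CommRing R] [CommRing A]

theorem totalDegree_X_pow_le' (i : Fin N) (k : ℕ) :
    (X i ^ k : MvPolynomial (Fin N) A).totalDegree ≤ k := by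
  rw [X_pow_eq_monomial]
  refine (totalDegree_monomial_le _ _).trans ?_
  simp

theorem totalDegree_prod_lt {n : ℕ} {f : Fin N → MvPolynomial (Fin N) A}
    (h : ∀ i, (f i).totalDegree ≤ n) {i : Fin N} (hi : (f i).totalDegree < n) :
    (∏ i, f i).totalDegree < N * n := by
  refine lt_of_le_of_lt (totalDegree_finsetProd _ _) ?_
  have h1 : ∑ i, (f i).totalDegree < ∑ _i : Fin N, n :=
    Finset.sum_lt_sum (fun i _ => h i) ⟨i, Finset.mem_univ i, hi⟩
  rwa [Finset.sum_const, Finset.card_univ, Fintype.card_fin, smul_eq_mul] at h1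

/-- the residue of the Bezoutian determinant is `1` -/
theorem rhoL_det {d : ℕ} (hd : 2 ≤ d) {H : Fin N → MvPolynomial (Fin N) A}
    (hH : ∀ i, (H i).totalDegree < d) (Δ : Matrix (Fin N) (Fin N) (MvPolynomial (Fin N) A))
    (hΔ : ∀ i j, (Δ i j - if i = j then X i ^ (d - 1) else 0).totalDegree < d - 1) :
    rhoL d H Δ.det = 1 := by
  classical
  have hd1 : 1 ≤ d := by omega
  have hle : ∀ i j, (Δ i j).totalDegree ≤ d - 1 := by
    intro i j
    have h1 : Δ i j = (Δ i j - if i = j then X i ^ (d - 1) else 0) +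
        (if i = j then X i ^ (d - 1) else 0) := by ring
    rw [h1]
    refine (totalDegree_add _ _).trans (max_le (hΔ i j).le ?_)
    by_cases hij : i = j
    · rw [if_pos hij]
      exact totalDegree_X_pow_le' i (d - 1)
    · rw [if_neg hij]
      simp
  have hoff : ∀ i j, i ≠ j → (Δ i j).totalDegree < d - 1 := by
    intro i j hij
    have h1 := hΔ i j
    rwa [if_neg hij, sub_zero] at h1
  rw [Matrix.det_apply, map_sum, Finset.sum_eq_single (1 : Equiv.Perm (Fin N))]
  · -- identity
    rw [Equiv.Perm.sign_one, one_smul]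
    have h1 : ∏ i, Δ ((1 : Equiv.Perm (Fin N)) i) i =
        ∏ i, (X i ^ (d - 1) + (Δ i i - X i ^ (d - 1))) := by
      refine Finset.prod_congr rfl fun i _ => ?_
      rw [Equiv.Perm.one_apply]
      ring
    rw [h1, Finset.prod_add, map_sum, Finset.sum_eq_single Finset.univ]
    · rw [Finset.sdiff_self, Finset.prod_empty, mul_one]
      have h2 : ∏ i : Fin N, (X i : MvPolynomial (Fin N) A) ^ (d - 1) =
          monomial (Finsupp.equivFunOnFinite.symm fun _ => d - 1) 1 := by
        rw [monomial_eq, map_one, one_mul, Finsupp.prod_fintype _ _ (fun _ => pow_zero _)]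
        rfl
      rw [h2, rhoL_monomial hd1 hH, if_pos]
      · intro i
        rfl
      · rw [Finsupp.degree_eq_sum]
        simp
    · intro t _ ht
      obtain ⟨i, hi⟩ : ∃ i, i ∉ t := by
        by_contra hcon
        push Not at hcon
        exact ht (Finset.eq_univ_iff_forall.2 hcon)
      apply rhoL_low hd1 hH
      have h3 : (∏ i ∈ t, (X i : MvPolynomial (Fin N) A) ^ (d - 1)) *
          ∏ i ∈ Finset.univ \ t, (Δ i i - X i ^ (d - 1)) =
          ∏ i, if i ∈ t then X i ^ (d - 1) else Δ i i - X i ^ (d - 1) := by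
        rw [Finset.prod_ite]
        congr 1
        · refine Finset.prod_congr ?_ fun _ _ => rfl
          ext j
          simp
        · refine Finset.prod_congr ?_ fun _ _ => rfl
          ext j
          simp
      rw [h3]
      have h4 : ∀ j, (Δ j j - X j ^ (d - 1)).totalDegree < d - 1 := by
        intro j
        have h5 := hΔ j j
        rwa [if_pos rfl] at h5
      refine totalDegree_prod_lt (i := i) (fun j => ?_) ?_
      · by_cases hj : j ∈ t
        · rw [if_pos hj]
          exact totalDegree_X_pow_le' j (d - 1)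
        · rw [if_neg hj]
          exact (h4 j).le
      · rw [if_neg hi]
        exact h4 i
    · intro h
      exact absurd (Finset.mem_powerset.2 (Finset.Subset.refl _)) h
  · intro σ _ hσ
    obtain ⟨i, hi⟩ : ∃ i, σ i ≠ i := by
      by_contra hcon
      push Not at hcon
      exact hσ (Equiv.ext hcon)
    have h1 : rhoL d H (∏ i, Δ (σ i) i) = 0 := by
      apply rhoL_low hd1 hH
      exact totalDegree_prod_lt (i := i) (fun j => hle _ _) (hoff _ _ hi)
    rcases Int.units_eq_one_or (Equiv.Perm.sign σ) with h | h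
    · rw [h, one_smul, h1]
    · rw [h, Units.neg_smul, one_smul, map_neg, h1, neg_zero]
  · intro h
    exact absurd (Finset.mem_univ _) h

end Vale.Agent.P337

end

section

/-!
P337, algebra side: the Bezoutian.
-/

namespace Vale.Agent.P337

open MvPolynomial

variable {N : ℕ} {R : Type} [CommRing R]

/-- the Jacobian determinant -/
noncomputable def jac (d : ℕ) (H : Fin N → MvPolynomial (Fin N) R) : MvPolynomial (Fin N) R :=
  Matrix.det (Matrix.of fun i j => pderiv j (Fs d H i))

theorem eval₂_class (d : ℕ) (H : Fin N → MvPolynomial (Fin N) R) (h : MvPolynomial (Fin N) R) :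
    eval₂ (algebraMap R (QA d H)) (fun i => qmk d H (X i)) h = qmk d H h := by
  have h1 : (aeval fun i => qmk d H (X i) : MvPolynomial (Fin N) R →ₐ[R] QA d H) = qmk d H := by
    apply MvPolynomial.algHom_ext
    intro i
    simp
  have h2 := congrArg (fun f : MvPolynomial (Fin N) R →ₐ[R] QA d H => f h) h1
  simpa [aeval_def] using h2

theorem qmk_Fs (d : ℕ) (H : Fin N → MvPolynomial (Fin N) R) (i : Fin N) :
    qmk d H (Fs d H i) = 0 := by
  have : Fs d H i ∈ Ideal.span (Set.range (Fs d H)) := Ideal.subset_span ⟨i, rfl⟩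
  exact Ideal.Quotient.eq_zero_iff_mem.2 this

theorem totalDegree_map_lt {A : Type} [CommRing A] (φ : R →+* A) (h : MvPolynomial (Fin N) R) :
    (map φ h).totalDegree ≤ h.totalDegree := by
  rw [totalDegree, totalDegree]
  exact Finset.sup_mono (support_map_subset φ h)

/-- abstract version of the Bezoutian -/
theorem exists_bezoutian_aux {A : Type} [CommRing A] (φ : R →+* A) (y : Fin N → A) {d : ℕ}
    (hd : 2 ≤ d) {H : Fin N → MvPolynomial (Fin N) R} (hH : ∀ i, (H i).totalDegree < d)
    (hy : ∀ i, y i ^ d = eval₂ φ y (H i)) :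
    ∃ Δ : MvPolynomial (Fin N) A,
      (∀ g : MvPolynomial (Fin N) R,
        rhoL d (fun i => map φ (H i)) (map φ g * Δ) = eval₂ φ y g) ∧
      eval y Δ = eval₂ φ y (jac d H) := by
  have hHA : ∀ i, (map φ (H i)).totalDegree < d := fun i =>
    lt_of_le_of_lt (totalDegree_map_lt φ (H i)) (hH i)
  choose ΔH hΔH hΔHdeg using fun i => exists_bez φ y (H i)
  choose ΔX hΔX hΔXdeg using fun i => exists_bez_pow y hd i
  set M : Matrix (Fin N) (Fin N) (MvPolynomial (Fin N) A) :=
    Matrix.of fun i j => (if i = j then ΔX i else 0) - ΔH i j with hM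
  set v : Fin N → MvPolynomial (Fin N) A := fun j => X j - C (y j) with hv
  set F : Fin N → MvPolynomial (Fin N) A := Fs d (fun i => map φ (H i)) with hFdef
  -- the equations
  have hF : ∀ i, F i = ∑ j, M i j * v j := by
    intro i
    have h2 := hΔX i
    have h3 := hΔH i
    have h4 : F i = (X i ^ d - C (y i ^ d)) - (map φ (H i) - C (eval₂ φ y (H i))) := by
      rw [hFdef, Fs, hy]
      ring
    rw [h4, h2, h3]
    simp only [hM, hv, Matrix.of_apply, sub_mul, Finset.sum_sub_distrib, ite_mul, zero_mul,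
      Finset.sum_ite_eq, Finset.mem_univ, if_true]
  have hFv : M.mulVec v = F := by
    funext i
    rw [hF i]
    rfl
  have hdet : ∀ j, M.det * v j ∈ Ideal.span (Set.range F) := by
    intro j
    have h1 : M.adjugate.mulVec (M.mulVec v) = M.det • v := by
      rw [Matrix.mulVec_mulVec, Matrix.adjugate_mul, Matrix.smul_mulVec, Matrix.one_mulVec]
    have h2 := congrFun h1 j
    rw [hFv] at h2
    rw [Pi.smul_apply, smul_eq_mul] at h2
    rw [← h2]
    show ∑ i, M.adjugate j i * F i ∈ Ideal.span (Set.range F)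
    refine Ideal.sum_mem _ fun i _ => ?_
    have h3 : F i ∈ Ideal.span (Set.range F) := Ideal.subset_span ⟨i, rfl⟩
    exact Ideal.mul_mem_left _ _ h3
  have hρ : rhoL d (fun i => map φ (H i)) M.det = 1 := by
    apply rhoL_det hd hHA
    intro i j
    have h1 : (ΔH i j).totalDegree < d - 1 := by
      have := hΔHdeg i j
      have := hH i
      omega
    by_cases hij : i = j
    · subst hij
      have h2 : M i i - (if i = i then X i ^ (d - 1) else 0) = (ΔX i - X i ^ (d - 1)) - ΔH i i := by
        simp only [hM, Matrix.of_apply, if_true]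
        ring
      rw [h2]
      exact lt_of_le_of_lt (totalDegree_sub _ _) (max_lt (hΔXdeg i) h1)
    · have h2 : M i j - (if i = j then X i ^ (d - 1) else 0) = -ΔH i j := by
        simp [hM, hij]
      rw [h2, totalDegree_neg]
      exact h1
  refine ⟨M.det, ?_, ?_⟩
  · intro g
    obtain ⟨Δg, hg, -⟩ := exists_bez φ y g
    have h1 : (map φ g - C (eval₂ φ y g)) * M.det ∈ Ideal.span (Set.range F) := by
      rw [hg, Finset.sum_mul]
      refine Ideal.sum_mem _ fun j _ => ?_
      have : Δg j * (X j - C (y j)) * M.det = Δg j * (M.det * v j) := by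
        simp only [hv]
        ring
      rw [this]
      exact Ideal.mul_mem_left _ _ (hdet j)
    have h2 := rhoL_ideal (by omega : 1 ≤ d) hHA h1
    rw [sub_mul, map_sub, sub_eq_zero] at h2
    rw [h2, ← smul_eq_C_mul, map_smul, hρ, smul_eq_mul, mul_one]
  · have h1 : ∀ i j, eval y (M i j) = eval₂ φ y (pderiv j (Fs d H i)) := by
      intro i j
      apply bez_eval φ y (Fs d H i) (fun j => M i j)
      have h2 : map φ (Fs d H i) = F i := by
        simp [Fs, hFdef]
      have h3 : eval₂ φ y (Fs d H i) = 0 := by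
        simp [Fs, hy]
      rw [h3, map_zero, sub_zero, h2, hF i]
    rw [RingHom.map_det, jac]
    have h4 : eval₂ φ y (Matrix.of fun i j => pderiv j (Fs d H i)).det =
        (eval₂Hom φ y) (Matrix.of fun i j => pderiv j (Fs d H i)).det := rfl
    rw [h4, RingHom.map_det]
    congr 1
    ext i j
    exact h1 i j

/-- the Bezoutian, as an element of `A[x]`, `A` the quotient algebra -/
theorem exists_bezoutian {d : ℕ} (hd : 2 ≤ d) {H : Fin N → MvPolynomial (Fin N) R}
    (hH : ∀ i, (H i).totalDegree < d) :
    ∃ Δ : MvPolynomial (Fin N) (QA d H),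
      (∀ g : MvPolynomial (Fin N) R,
        rhoL d (fun i => map (algebraMap R (QA d H)) (H i)) (map (algebraMap R (QA d H)) g * Δ) =
          qmk d H g) ∧
      eval (fun i => qmk d H (X i)) Δ = qmk d H (jac d H) := by
  obtain ⟨Δ, h1, h2⟩ := exists_bezoutian_aux (algebraMap R (QA d H)) (fun i => qmk d H (X i)) hd hH
    (by
      intro i
      have h := qmk_Fs d H i
      rw [Fs, map_sub, map_pow, sub_eq_zero] at h
      rw [h, eval₂_class])
  refine ⟨Δ, fun g => ?_, ?_⟩
  · rw [h1, eval₂_class]
  · rw [h2, eval₂_class]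

end Vale.Agent.P337

end

section

/-!
P337, algebra side: the trace formula.
-/

namespace Vale.Agent.P337

open MvPolynomial

variable {N : ℕ} {R : Type} [CommRing R]

/-- the residue functional on the quotient algebra -/
theorem exists_rhoBar {d : ℕ} (hd : 1 ≤ d) {H : Fin N → MvPolynomial (Fin N) R}
    (hH : ∀ i, (H i).totalDegree < d) :
    ∃ φ : QA d H →ₗ[R] R, ∀ h, φ (qmk d H h) = rhoL d H h := by
  set I := Ideal.span (Set.range (Fs d H)) with hI
  let ψ : (MvPolynomial (Fin N) R ⧸ I.restrictScalars R) →ₗ[R] R :=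
    (I.restrictScalars R).liftQ (rhoL d H) (by
      intro h hh
      exact rhoL_ideal hd hH hh)
  refine ⟨ψ ∘ₗ (Submodule.Quotient.restrictScalarsEquiv R I).symm.toLinearMap, fun h => ?_⟩
  rfl

theorem trace_smulRight_aux {A : Type} [AddCommGroup A] [Module R A] {ι : Type} [Fintype ι]
    [DecidableEq ι] (b : Module.Basis ι R A) (φ : A →ₗ[R] R) (v : A) :
    LinearMap.trace R A (φ.smulRight v) = φ v := by
  rw [LinearMap.trace_eq_matrix_trace R b, Matrix.trace]
  simp only [Matrix.diag_apply, LinearMap.toMatrix_apply, LinearMap.smulRight_apply, map_smul,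
    Finsupp.smul_apply, smul_eq_mul]
  conv_rhs => rw [← b.sum_repr v, map_sum]
  refine Finset.sum_congr rfl fun i _ => ?_
  rw [map_smul, smul_eq_mul, mul_comm]

/-- abstract version of the trace formula -/
theorem trace_aux {A : Type} [CommRing A] [Algebra R A] (π : MvPolynomial (Fin N) R →ₐ[R] A)
    (hπ : Function.Surjective π) {ι : Type} [Fintype ι] [DecidableEq ι] (b : Module.Basis ι R A)
    (ρ : A →ₗ[R] R) (Δ : MvPolynomial (Fin N) A)
    (hexp : ∀ g, π g = ∑ m ∈ Δ.support, ρ (π (g * monomial m 1)) • coeff m Δ)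
    (h : MvPolynomial (Fin N) R) :
    LinearMap.trace R A (LinearMap.mulLeft R (π h)) =
      ρ (π h * eval (fun i => π (X i)) Δ) := by
  have hlin : LinearMap.mulLeft R (π h) =
      ∑ m ∈ Δ.support, (ρ ∘ₗ LinearMap.mulLeft R (π (h * monomial m 1))).smulRight
        (coeff m Δ) := by
    ext1 v
    obtain ⟨g, rfl⟩ := hπ v
    rw [LinearMap.mulLeft_apply, ← map_mul, hexp, LinearMap.sum_apply]
    refine Finset.sum_congr rfl fun m _ => ?_
    rw [LinearMap.smulRight_apply, LinearMap.comp_apply, LinearMap.mulLeft_apply, ← map_mul]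
    congr 3
    ring
  rw [hlin, map_sum]
  have h5 : ∀ m, LinearMap.trace R A
      ((ρ ∘ₗ LinearMap.mulLeft R (π (h * monomial m 1))).smulRight (coeff m Δ)) =
      ρ (π (h * monomial m 1) * coeff m Δ) := by
    intro m
    rw [trace_smulRight_aux b]
    rfl
  simp only [h5]
  rw [← map_sum]
  congr 1
  rw [eval_eq, Finset.mul_sum]
  refine Finset.sum_congr rfl fun m _ => ?_
  have h7 : π (monomial m 1) = ∏ i ∈ m.support, π (X i) ^ m i := by
    rw [monomial_eq, map_one, one_mul, Finsupp.prod, map_prod]
    simp only [map_pow]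
  rw [map_mul, h7]
  ring

/-- abstract version of the expansion of classes -/
theorem expansion_aux {A : Type} [CommRing A] [Algebra R A] (π : MvPolynomial (Fin N) R →ₐ[R] A)
    {d : ℕ} (hd1 : 1 ≤ d) {H : Fin N → MvPolynomial (Fin N) R} (hH : ∀ i, (H i).totalDegree < d)
    (ρ : A →ₗ[R] R) (hρ : ∀ h, ρ (π h) = rhoL d H h) (Δ : MvPolynomial (Fin N) A)
    (h1 : ∀ g : MvPolynomial (Fin N) R,
      rhoL d (fun i => map (algebraMap R A) (H i)) (map (algebraMap R A) g * Δ) = π g)
    (g : MvPolynomial (Fin N) R) :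
    π g = ∑ m ∈ Δ.support, ρ (π (g * monomial m 1)) • coeff m Δ := by
  have h3 := h1 g
  rw [← h3]
  conv_lhs => rw [Δ.as_sum, Finset.mul_sum, map_sum]
  refine Finset.sum_congr rfl fun m _ => ?_
  have h4 : map (algebraMap R A) g * monomial m (coeff m Δ) =
      coeff m Δ • map (algebraMap R A) (g * monomial m 1) := by
    rw [map_mul, map_monomial, map_one, ← mul_smul_comm, smul_monomial, smul_eq_mul, mul_one]
  rw [h4, map_smul, rhoL_map _ hd1 hH, smul_eq_mul, Algebra.smul_def, mul_comm, hρ]

theorem mmat_trace {d : ℕ} (hd1 : 1 ≤ d) (hd : 2 ≤ d) {H : Fin N → MvPolynomial (Fin N) R}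
    (hH : ∀ i, (H i).totalDegree < d) (h : MvPolynomial (Fin N) R) :
    (mmat hd1 hH h).trace = rhoL d H (h * jac d H) := by
  obtain ⟨Δ, h1, h2⟩ := exists_bezoutian hd hH
  obtain ⟨ρ, hρ⟩ := exists_rhoBar hd1 hH
  have hexp := expansion_aux (qmk d H) hd1 hH ρ hρ Δ h1
  have htr : (mmat hd1 hH h).trace = LinearMap.trace R (QA d H) (LinearMap.mulLeft R (qmk d H h)) := by
    rw [LinearMap.trace_eq_matrix_trace R (bas hd1 hH), mmat, Algebra.leftMulMatrix_apply]
    rfl
  rw [htr, trace_aux (qmk d H) (Ideal.Quotient.mkₐ_surjective R _) (bas hd1 hH) ρ Δ hexp, h2,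
    ← map_mul, hρ]

end Vale.Agent.P337

end

section

/-!
P337, algebra side: the trace formula modulo a prime.
-/

namespace Vale.Agent.P337

open MvPolynomial

variable {N : ℕ} {r : ℕ}

/-- degree bound for the products in the residue functional -/
theorem traceSum_degree {R : Type} [CommRing R] {d : ℕ} {H : Fin N → MvPolynomial (Fin N) R}
    (hH : ∀ i, (H i).totalDegree < d) {g : MvPolynomial (Fin N) R} {K : ℕ}
    (hg : g.totalDegree ≤ K) {k : Fin N → ℕ} (hk : ∀ i, k i ≤ K) :
    (g * ∏ i, H i ^ k i).totalDegree ≤ K + N * K * (d - 1) := by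
  refine (totalDegree_mul _ _).trans (add_le_add hg ?_)
  refine (totalDegree_finsetProd _ _).trans ?_
  calc ∑ i : Fin N, (H i ^ k i).totalDegree ≤ ∑ _i : Fin N, K * (d - 1) := by
        apply Finset.sum_le_sum
        intro i _
        refine (totalDegree_pow _ _).trans ?_
        have h1 : (H i).totalDegree ≤ d - 1 := by
          have := hH i
          omega
        exact Nat.mul_le_mul (hk i) h1
    _ = N * K * (d - 1) := by
        rw [Finset.sum_const, Finset.card_univ, Fintype.card_fin, smul_eq_mul, mul_assoc]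

/-- the trace formula modulo a prime -/
theorem mmat_trace_sum [Fact r.Prime] {d : ℕ} (hd1 : 1 ≤ d) (hd : 2 ≤ d)
    {H : Fin N → MvPolynomial (Fin N) (ZMod r)} (hH : ∀ i, (H i).totalDegree < d)
    (h : MvPolynomial (Fin N) (ZMod r)) (K : ℕ) (hK : (h * jac d H).totalDegree ≤ K)
    (hr : K + N * K * (d - 1) + d * (K + 1) < r - 1) :
    (mmat hd1 hH h).trace =
      (-1) ^ N * ∑ z ∈ Fintype.piFinset (fun _ : Fin N => Finset.Ico 1 r),
        eval (fun i => (z i : ZMod r)) h * (eval (fun i => (z i : ZMod r)) (jac d H) *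
          ∏ i, ∑ k ∈ Finset.range (K + 1), eval (fun i => (z i : ZMod r)) (H i) ^ k *
            ((z i : ZMod r)⁻¹) ^ (d * (k + 1) - 1)) := by
  rw [mmat_trace hd1 hd hH, rhoL_apply hd1 hH hK, rho]
  have h1 : ∀ k ∈ Fintype.piFinset (fun _ : Fin N => Finset.range (K + 1)),
      coeff (Finsupp.equivFunOnFinite.symm fun i => d * (k i + 1) - 1)
        (h * jac d H * ∏ i, H i ^ k i) =
      (-1) ^ N * ∑ z ∈ Fintype.piFinset (fun _ : Fin N => Finset.Ico 1 r),
        eval (fun i => (z i : ZMod r)) h * (eval (fun i => (z i : ZMod r)) (jac d H) *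
          ∏ i, (eval (fun i => (z i : ZMod r)) (H i) ^ k i *
            ((z i : ZMod r)⁻¹) ^ (d * (k i + 1) - 1))) := by
    intro k hk
    have hk' : ∀ i, k i ≤ K := by
      intro i
      have := Finset.mem_range.mp ((Fintype.mem_piFinset.mp hk) i)
      omega
    have hdeg := traceSum_degree hH hK hk'
    rw [coeff_eq_sum _ (fun i => d * (k i + 1) - 1) (by omega) (by
      intro i
      have h2 : d * (k i + 1) ≤ d * (K + 1) := Nat.mul_le_mul le_rfl (by have := hk' i; omega)
      omega)]
    congr 1
    apply Finset.sum_congr rfl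
    intro z _
    rw [map_mul, map_mul, map_prod, Finset.prod_mul_distrib]
    simp only [map_pow]
    ring
  rw [Finset.sum_congr rfl h1, ← Finset.mul_sum, Finset.sum_comm]
  congr 1
  apply Finset.sum_congr rfl
  intro z _
  rw [← Finset.mul_sum, ← Finset.mul_sum, Finset.prod_univ_sum]

end Vale.Agent.P337

end
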