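import Mathlib

section

/-!
P337, number theory: many primes, and the sign of an integer from its residues.
-/

namespace Vale.Agent.P337

/-- the primes between `2 ^ E1` and `2 ^ E2` -/
def prs (E1 E2 : ℕ) : Finset ℕ := (Finset.range (2 ^ E2)).filter fun r => 2 ^ E1 < r ∧ r.Prime

theorem primorial_eq_mul_prs {E1 E2 : ℕ} (h : 2 ≤ E2) (hle : E1 ≤ E2) :
    primorial (2 ^ E2) = primorial (2 ^ E1) * ∏ r ∈ prs E1 E2, r := by
  have hpow : 2 ^ E1 ≤ 2 ^ E2 := Nat.pow_le_pow_right (by norm_num) hle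
  rw [primorial, ← Finset.prod_filter_mul_prod_filter_not _ (fun p => p ≤ 2 ^ E1), primorial]
  congr 1
  · refine Finset.prod_congr ?_ fun _ _ => rfl
    ext p
    simp only [Finset.mem_filter, Finset.mem_range]
    constructor
    · rintro ⟨⟨_, h2⟩, h3⟩
      exact ⟨by omega, h2⟩
    · rintro ⟨h1, h2⟩
      exact ⟨⟨by omega, h2⟩, by omega⟩
  · refine Finset.prod_congr ?_ fun _ _ => rfl
    ext p
    simp only [prs, Finset.mem_filter, Finset.mem_range]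
    constructor
    · rintro ⟨⟨h1, h2⟩, h3⟩
      refine ⟨?_, by omega, h2⟩
      rcases Nat.lt_or_ge p (2 ^ E2) with h4 | h4
      · exact h4
      · have h5 : p = 2 ^ E2 := by omega
        exact absurd (h5 ▸ h2) (Nat.Prime.not_prime_pow h)
    · rintro ⟨h1, h2, h3⟩
      exact ⟨⟨by omega, h3⟩, by omega⟩

theorem prs_sq_le_two_pow (k : ℕ) (hk : 20 ≤ k) : (32 * k) ^ 2 ≤ 2 ^ k := by
  induction k, hk using Nat.le_induction with
  | base => norm_num
  | succ k hk ih =>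
    calc (32 * (k + 1)) ^ 2 ≤ 2 * (32 * k) ^ 2 := by nlinarith
      _ ≤ 2 * 2 ^ k := by omega
      _ = 2 ^ (k + 1) := by ring

theorem prs_real1 {N s e : ℝ} (hs : 0 ≤ s) (hss : s * s = N) (h : 32 * e ≤ s) :
    2 * s * e ≤ N / 16 := by
  have h1 : s * (32 * e) ≤ s * s := mul_le_mul_of_nonneg_left h hs
  linarith

theorem prs_real2 {N e : ℝ} (he : 20 ≤ e) (h : (32 * e) ^ 2 ≤ N) : e + 1 ≤ N / 16 := by
  have h1 : e * 20 ≤ e * e := mul_le_mul_of_nonneg_left he (by linarith)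
  have h2 : (32 * e) ^ 2 = 1024 * (e * e) := by ring
  rw [h2] at h
  linarith

theorem prs_real3 (a b : ℕ) : (2 : ℝ) ^ a * 2 ^ 20 ≤ 2 ^ (b + a + 20) := by
  rw [pow_add, pow_add]
  have h1 : (1 : ℝ) ≤ 2 ^ b := one_le_pow₀ (by norm_num)
  have h2 : (2 : ℝ) ^ a ≤ 2 ^ b * 2 ^ a := le_mul_of_one_le_left (by positivity) h1
  exact mul_le_mul_of_nonneg_right h2 (by positivity)

theorem prs_real4 {N e : ℝ} (he : 0 ≤ e) (h : e * 2 ^ 20 ≤ N) : e * 2 ≤ N / 16 := by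
  have h2 : e * 2 ^ 20 = e * 1048576 := by norm_num
  rw [h2] at h
  linarith

theorem prs_real5 {N e : ℝ} (he : 1 ≤ e) (h : e * 2 ^ 20 ≤ N) : e + 5 ≤ N / 4 := by
  have h2 : e * 2 ^ 20 = e * 1048576 := by norm_num
  rw [h2] at h
  linarith

theorem prs_logpow (k : ℕ) (a : ℝ) (h : a = 2 ^ k) : Real.log a = k * Real.log 2 := by
  rw [h, Real.log_pow]

theorem prs_log_ge (E E1 : ℕ) : ((2 : ℝ) ^ E + 5) * Real.log 2 ≤
    Real.log ((∏ r ∈ prs E1 (E + E1 + 20), r : ℕ) : ℝ) := by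
  obtain ⟨E2, hE2⟩ : ∃ E2, E2 = E + E1 + 20 := ⟨_, rfl⟩
  rw [← hE2]
  have hPpos : 0 < ∏ r ∈ prs E1 E2, r :=
    Finset.prod_pos fun r hr => (Finset.mem_filter.1 hr).2.2.pos
  have hL : 0 < Real.log 2 := Real.log_pos (by norm_num)
  obtain ⟨L, hLdef⟩ : ∃ L, L = Real.log 2 := ⟨_, rfl⟩
  obtain ⟨N, hN⟩ : ∃ N, N = (2 : ℝ) ^ E2 := ⟨_, rfl⟩
  rw [← hLdef] at hL ⊢
  have hNpos : 0 < N := by rw [hN]; positivity
  have hN1' : 1 ≤ N := by rw [hN]; exact one_le_pow₀ (by norm_num)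
  have hsq : ((32 : ℝ) * E2) ^ 2 ≤ N := by
    have := prs_sq_le_two_pow E2 (by omega)
    rw [hN]
    exact_mod_cast this
  have hsqrt : 32 * (E2 : ℝ) ≤ √N := Real.le_sqrt_of_sq_le hsq
  have hss : √N * √N = N := Real.mul_self_sqrt hNpos.le
  have h20 : (20 : ℝ) ≤ E2 := by
    have : 20 ≤ E2 := by omega
    exact_mod_cast this
  have hlogN : Real.log N = E2 * L := by rw [hLdef]; exact prs_logpow _ _ hN
  have e1 : 2 * √N * Real.log N ≤ N / 16 * L := by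
    rw [hlogN]
    have := prs_real1 (Real.sqrt_nonneg N) hss hsqrt
    calc 2 * √N * (E2 * L) = (2 * √N * E2) * L := by ring
      _ ≤ N / 16 * L := mul_le_mul_of_nonneg_right this hL.le
  have e2 : Real.log (N + 1) ≤ N / 16 * L := by
    have h1 : N + 1 ≤ N * 2 := by linarith
    have h2 : Real.log (N + 1) ≤ Real.log (N * 2) := Real.log_le_log (by positivity) h1
    rw [Real.log_mul hNpos.ne' (by norm_num), hlogN, ← hLdef] at h2
    calc Real.log (N + 1) ≤ (E2 + 1) * L := by linarith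
      _ ≤ N / 16 * L := mul_le_mul_of_nonneg_right (prs_real2 h20 hsq) hL.le
  have hN1 : (2 : ℝ) ^ E1 * 2 ^ 20 ≤ N := by
    rw [hN, hE2]
    exact prs_real3 _ _
  have hN2 : (2 : ℝ) ^ E * 2 ^ 20 ≤ N := by
    rw [hN, hE2, Nat.add_comm E E1]
    exact prs_real3 _ _
  have e3 : Real.log (primorial (2 ^ E1)) ≤ N / 16 * L := by
    have h1 : (primorial (2 ^ E1) : ℝ) ≤ 4 ^ (2 ^ E1) := by
      exact_mod_cast primorial_le_four_pow (2 ^ E1)
    have h2 : Real.log (primorial (2 ^ E1)) ≤ Real.log (4 ^ (2 ^ E1)) :=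
      Real.log_le_log (by exact_mod_cast primorial_pos _) h1
    have h3 : Real.log (4 : ℝ) = (2 : ℕ) * L := by
      rw [hLdef]
      exact prs_logpow 2 4 (by norm_num)
    rw [Real.log_pow, h3] at h2
    calc Real.log (primorial (2 ^ E1)) ≤ (2 ^ E1 * 2) * L := by
          refine h2.trans (le_of_eq ?_)
          push_cast
          ring
      _ ≤ N / 16 * L := mul_le_mul_of_nonneg_right (prs_real4 (by positivity) hN1) hL.le
  have hmain : Real.log (primorial (2 ^ E2)) = Real.log (primorial (2 ^ E1)) +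
      Real.log ((∏ r ∈ prs E1 E2, r : ℕ) : ℝ) := by
    rw [primorial_eq_mul_prs (E1 := E1) (E2 := E2) (by omega) (by omega), Nat.cast_mul,
      Real.log_mul]
    · exact_mod_cast (primorial_pos _).ne'
    · exact_mod_cast hPpos.ne'
  have htheta := Chebyshev.theta_ge (2 ^ E2)
  rw [Chebyshev.theta_eq_log_primorial, Nat.floor_natCast, hmain, Nat.cast_pow, Nat.cast_ofNat,
    ← hN, ← hLdef] at htheta
  have h2 : ((2 : ℝ) ^ E + 5) * L ≤ N / 4 * L :=
    mul_le_mul_of_nonneg_right (prs_real5 (one_le_pow₀ (by norm_num)) hN2) hL.le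
  have h3 : (0 : ℝ) < N * L := by positivity
  linarith

theorem prod_prs_ge (E E1 : ℕ) : 2 ^ 2 ^ E * 32 ≤ ∏ r ∈ prs E1 (E + E1 + 20), r := by
  have hPpos : 0 < ∏ r ∈ prs E1 (E + E1 + 20), r :=
    Finset.prod_pos fun r hr => (Finset.mem_filter.1 hr).2.2.pos
  have h := prs_log_ge E E1
  have hgoal : Real.log ((2 : ℝ) ^ (2 ^ E + 5)) ≤
      Real.log ((∏ r ∈ prs E1 (E + E1 + 20), r : ℕ) : ℝ) := by
    rw [Real.log_pow]
    push_cast at h ⊢
    exact h
  have hfin : (2 : ℝ) ^ (2 ^ E + 5) ≤ ((∏ r ∈ prs E1 (E + E1 + 20), r : ℕ) : ℝ) := by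
    rwa [Real.log_le_log_iff (by positivity) (by exact_mod_cast hPpos)] at hgoal
  have hnat : 2 ^ (2 ^ E + 5) ≤ ∏ r ∈ prs E1 (E + E1 + 20), r := by exact_mod_cast hfin
  rw [pow_add] at hnat
  exact hnat

theorem prod_prs_le (E1 E2 : ℕ) : ∏ r ∈ prs E1 E2, r ≤ 2 ^ (E2 * 2 ^ E2) := by
  calc ∏ r ∈ prs E1 E2, r ≤ ∏ _r ∈ prs E1 E2, 2 ^ E2 :=
        Finset.prod_le_prod' fun r hr => (Finset.mem_range.1 (Finset.mem_filter.1 hr).1).le
    _ = (2 ^ E2) ^ (prs E1 E2).card := by rw [Finset.prod_const]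
    _ ≤ (2 ^ E2) ^ (2 ^ E2) := by
        refine Nat.pow_le_pow_right (by positivity) ?_
        exact (Finset.card_filter_le _ _).trans (by simp)
    _ = 2 ^ (E2 * 2 ^ E2) := by rw [pow_mul]

end Vale.Agent.P337

end

section

/-!
P337, number theory: fractional parts from residues.
-/

namespace Vale.Agent.P337

/-- the residue used in the approximation of the fractional part of `2 ^ j X / ∏ PP` -/
noncomputable def crtT (PP : Finset ℕ) (X : ℤ) (j r : ℕ) : ZMod r :=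
  (X : ZMod r) * ((∏ t ∈ PP.erase r, t : ℕ) : ZMod r)⁻¹ * 2 ^ j

/-- approximation of the fractional part of `2 ^ j X / ∏ PP`, in units of `2 ^ (-s)` -/
noncomputable def crtA (PP : Finset ℕ) (X : ℤ) (s j : ℕ) : ℕ :=
  (∑ r ∈ PP, 2 ^ s * (crtT PP X j r).val / r) % 2 ^ s

/-- the product splits off one factor -/
theorem crt_prod_erase (PP : Finset ℕ) (r : ℕ) (hr : r ∈ PP) :
    (∏ t ∈ PP, t) = r * ∏ t ∈ PP.erase r, t :=
  (Finset.mul_prod_erase PP (fun t => t) hr).symm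

/-- divisibility of the numerator by every prime -/
theorem crt_dvd_each (PP : Finset ℕ) (hP : ∀ r ∈ PP, r.Prime) (X : ℤ) (j r0 : ℕ) (hr0 : r0 ∈ PP) :
    (r0 : ℤ) ∣ (∑ r ∈ PP, ((crtT PP X j r).val : ℤ) * ((∏ t ∈ PP.erase r, t : ℕ) : ℤ))
      - 2 ^ j * X := by
  have hp0 : r0.Prime := hP r0 hr0
  have : NeZero r0 := ⟨hp0.ne_zero⟩
  rw [← ZMod.intCast_zmod_eq_zero_iff_dvd]
  have hcop : Nat.Coprime (∏ t ∈ PP.erase r0, t) r0 := by
    apply Nat.Coprime.prod_left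
    intro t ht
    have ht' := Finset.mem_erase.mp ht
    exact (Nat.coprime_primes (hP t ht'.2) hp0).mpr ht'.1
  have hinv := ZMod.coe_mul_inv_eq_one (∏ t ∈ PP.erase r0, t) hcop
  have hsum : ((∑ r ∈ PP, ((crtT PP X j r).val : ℤ) * ((∏ t ∈ PP.erase r, t : ℕ) : ℤ) : ℤ) : ZMod r0)
      = (crtT PP X j r0) * ((∏ t ∈ PP.erase r0, t : ℕ) : ZMod r0) := by
    rw [Int.cast_sum, Finset.sum_eq_single_of_mem r0 hr0]
    · rw [Int.cast_mul, Int.cast_natCast, Int.cast_natCast, ZMod.natCast_zmod_val]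
    · intro r hr hne
      rw [Int.cast_mul, Int.cast_natCast, Int.cast_natCast]
      have hd : r0 ∣ ∏ t ∈ PP.erase r, t :=
        Finset.dvd_prod_of_mem (fun t => t) (Finset.mem_erase.mpr ⟨hne.symm, hr0⟩)
      rw [(ZMod.natCast_eq_zero_iff _ _).mpr hd, mul_zero]
  rw [Int.cast_sub, hsum, crtT]
  have hx : (X : ZMod r0) * ((∏ t ∈ PP.erase r0, t : ℕ) : ZMod r0)⁻¹ * 2 ^ j *
      ((∏ t ∈ PP.erase r0, t : ℕ) : ZMod r0)
      = (X : ZMod r0) * 2 ^ j * (((∏ t ∈ PP.erase r0, t : ℕ) : ZMod r0) *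
        ((∏ t ∈ PP.erase r0, t : ℕ) : ZMod r0)⁻¹) := by ring
  rw [hx, hinv]
  push_cast
  ring

/-- the fractional part -/
theorem crt_frac (PP : Finset ℕ) (hP : ∀ r ∈ PP, r.Prime) (X : ℤ) (j : ℕ) :
    ∃ m : ℤ, ∑ r ∈ PP, ((crtT PP X j r).val : ℝ) / r =
      2 ^ j * (X : ℝ) / (∏ r ∈ PP, r : ℕ) + m := by
  have hdvd : ((∏ r ∈ PP, r : ℕ) : ℤ) ∣
      (∑ r ∈ PP, ((crtT PP X j r).val : ℤ) * ((∏ t ∈ PP.erase r, t : ℕ) : ℤ)) - 2 ^ j * X := by
    rw [Int.natCast_dvd]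
    apply Finset.prod_primes_dvd
    · intro a ha
      exact (hP a ha).prime
    · intro a ha
      rw [← Int.natCast_dvd]
      exact crt_dvd_each PP hP X j a ha
  obtain ⟨m, hm⟩ := hdvd
  refine ⟨m, ?_⟩
  have hMpos : (0 : ℝ) < ((∏ r ∈ PP, r : ℕ) : ℝ) := by
    have : 0 < ∏ r ∈ PP, r := Finset.prod_pos fun r hr => (hP r hr).pos
    exact_mod_cast this
  have hterm : ∀ r ∈ PP, ((crtT PP X j r).val : ℝ) / r
      = ((crtT PP X j r).val : ℝ) * ((∏ t ∈ PP.erase r, t : ℕ) : ℝ) / ((∏ r ∈ PP, r : ℕ) : ℝ) := by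
    intro r hr
    have hrpos : (0 : ℝ) < (r : ℝ) := by exact_mod_cast (hP r hr).pos
    have hQpos : (0 : ℝ) < ((∏ t ∈ PP.erase r, t : ℕ) : ℝ) := by
      have : 0 < ∏ t ∈ PP.erase r, t :=
        Finset.prod_pos fun t ht => (hP t (Finset.mem_of_mem_erase ht)).pos
      exact_mod_cast this
    have hM : ((∏ r ∈ PP, r : ℕ) : ℝ) = (r : ℝ) * ((∏ t ∈ PP.erase r, t : ℕ) : ℝ) := by
      rw [crt_prod_erase PP r hr]
      push_cast
      rfl
    rw [hM, div_eq_div_iff hrpos.ne' (mul_pos hrpos hQpos).ne']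
    ring
  rw [Finset.sum_congr rfl hterm, ← Finset.sum_div]
  have hm' : (∑ r ∈ PP, ((crtT PP X j r).val : ℝ) * ((∏ t ∈ PP.erase r, t : ℕ) : ℝ))
      = 2 ^ j * (X : ℝ) + ((∏ r ∈ PP, r : ℕ) : ℝ) * m := by
    have h2 := congrArg (fun z : ℤ => (z : ℝ)) hm
    simp only [Int.cast_sub, Int.cast_sum, Int.cast_mul, Int.cast_natCast, Int.cast_pow,
      Int.cast_ofNat] at h2
    linarith
  rw [hm', add_div, mul_div_cancel_left₀ _ hMpos.ne']

theorem crtA_approx (PP : Finset ℕ) (hP : ∀ r ∈ PP, r.Prime) (X : ℤ) (s j : ℕ)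
    (hs : 1024 * PP.card ≤ 2 ^ s) :
    ∃ m : ℤ, (crtA PP X s j : ℝ) / 2 ^ s ≤ 2 ^ j * (X : ℝ) / (∏ r ∈ PP, r : ℕ) + m ∧
      2 ^ j * (X : ℝ) / (∏ r ∈ PP, r : ℕ) + m ≤ (crtA PP X s j : ℝ) / 2 ^ s + 1 / 1024 := by
  obtain ⟨m0, hm0⟩ := crt_frac PP hP X j
  set S : ℕ := ∑ r ∈ PP, 2 ^ s * (crtT PP X j r).val / r with hS
  have h2 : (0 : ℝ) < 2 ^ s := by positivity
  have hup : (S : ℝ) ≤ 2 ^ s * ∑ r ∈ PP, ((crtT PP X j r).val : ℝ) / r := by
    rw [hS, Nat.cast_sum, Finset.mul_sum]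
    refine Finset.sum_le_sum fun r _ => ?_
    have := @Nat.cast_div_le ℝ _ _ _ (2 ^ s * (crtT PP X j r).val) r
    push_cast at this
    rw [← mul_div_assoc]
    exact this
  have hlo : 2 ^ s * ∑ r ∈ PP, ((crtT PP X j r).val : ℝ) / r ≤ (S : ℝ) + PP.card := by
    have hcard : (PP.card : ℝ) = ∑ _r ∈ PP, (1 : ℝ) := by simp
    rw [hS, Nat.cast_sum, Finset.mul_sum, hcard, ← Finset.sum_add_distrib]
    refine Finset.sum_le_sum fun r hr => ?_
    have hrpos : (0 : ℝ) < (r : ℝ) := by exact_mod_cast (hP r hr).pos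
    have hlt := Nat.lt_div_mul_add (hP r hr).pos (a := 2 ^ s * (crtT PP X j r).val)
    have hlt' : (2 : ℝ) ^ s * ((crtT PP X j r).val : ℝ) <
        ((2 ^ s * (crtT PP X j r).val / r : ℕ) : ℝ) * r + r := by
      exact_mod_cast hlt
    rw [← mul_div_assoc, div_le_iff₀ hrpos]
    nlinarith
  have hmod : ((crtA PP X s j : ℕ) : ℝ) = (S : ℝ) - 2 ^ s * ((S / 2 ^ s : ℕ) : ℝ) := by
    have h := Nat.mod_add_div S (2 ^ s)
    have h' : ((S % 2 ^ s : ℕ) : ℝ) + (2 : ℝ) ^ s * ((S / 2 ^ s : ℕ) : ℝ) = (S : ℝ) := by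
      exact_mod_cast h
    rw [crtA, ← hS]
    linarith
  have hA : ((crtA PP X s j : ℕ) : ℝ) / 2 ^ s = (S : ℝ) / 2 ^ s - ((S / 2 ^ s : ℕ) : ℝ) := by
    rw [hmod, sub_div, mul_div_cancel_left₀ _ h2.ne']
  have hup' : (S : ℝ) / 2 ^ s ≤ ∑ r ∈ PP, ((crtT PP X j r).val : ℝ) / r := by
    rw [div_le_iff₀ h2]
    linarith
  have hcs : (1024 : ℝ) * PP.card ≤ 2 ^ s := by exact_mod_cast hs
  have hlo' : ∑ r ∈ PP, ((crtT PP X j r).val : ℝ) / r ≤ (S : ℝ) / 2 ^ s + 1 / 1024 := by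
    have : ∑ r ∈ PP, ((crtT PP X j r).val : ℝ) / r ≤ ((S : ℝ) + PP.card) / 2 ^ s := by
      rw [le_div_iff₀ h2]
      linarith
    have h3 : (PP.card : ℝ) / 2 ^ s ≤ 1 / 1024 := by
      rw [div_le_div_iff₀ h2 (by norm_num)]
      linarith
    rw [add_div] at this
    linarith
  refine ⟨m0 - ((S / 2 ^ s : ℕ) : ℤ), ?_, ?_⟩
  · rw [hA, Int.cast_sub, Int.cast_natCast]
    linarith
  · rw [hA, Int.cast_sub, Int.cast_natCast]
    linarith

end Vale.Agent.P337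

end

section

/-!
P337, number theory: the sign of an integer from its residues modulo primes.
-/

namespace Vale.Agent.P337

private theorem cs_key {a T : ℕ} (haT : a < T) {y : ℝ} {m : ℤ} (h1 : (a : ℝ) / T ≤ y + m)
    (h2 : y + m ≤ (a : ℝ) / T + 1 / 1024) (hy : |y| < 3 / 8) :
    ((8 * a < T ∨ 7 * T ≤ 8 * a) → |y| ≤ 1 / 8 + 1 / 1024) ∧
      (¬ (8 * a < T ∨ 7 * T ≤ 8 * a) → (y < 0 ↔ T ≤ 2 * a)) := by
  have hT : (0 : ℝ) < T := by
    have : 0 < T := by omega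
    exact_mod_cast this
  set r : ℝ := (a : ℝ) / T with hr
  have har : (a : ℝ) = r * T := by rw [hr, div_mul_cancel₀ _ hT.ne']
  have hr0 : 0 ≤ r := by positivity
  have hr1 : r < 1 := by
    rw [hr, div_lt_one hT]
    exact_mod_cast haT
  obtain ⟨hy1, hy2⟩ := abs_lt.1 hy
  have e1 : 8 * a < T ↔ r < 1 / 8 := by
    have : 8 * a < T ↔ 8 * (a : ℝ) < T := by exact_mod_cast Iff.rfl
    rw [this, har]
    constructor
    · intro h
      by_contra hcon
      push Not at hcon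
      have := mul_le_mul_of_nonneg_right hcon hT.le
      linarith
    · intro h
      have := mul_lt_mul_of_pos_right h hT
      linarith
  have e2 : 7 * T ≤ 8 * a ↔ 7 / 8 ≤ r := by
    have : 7 * T ≤ 8 * a ↔ 7 * (T : ℝ) ≤ 8 * (a : ℝ) := by exact_mod_cast Iff.rfl
    rw [this, har]
    constructor
    · intro h
      by_contra hcon
      push Not at hcon
      have := mul_lt_mul_of_pos_right hcon hT
      linarith
    · intro h
      have := mul_le_mul_of_nonneg_right h hT.le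
      linarith
  have e3 : T ≤ 2 * a ↔ 1 / 2 ≤ r := by
    have : T ≤ 2 * a ↔ (T : ℝ) ≤ 2 * (a : ℝ) := by exact_mod_cast Iff.rfl
    rw [this, har]
    constructor
    · intro h
      by_contra hcon
      push Not at hcon
      have := mul_lt_mul_of_pos_right hcon hT
      linarith
    · intro h
      have := mul_le_mul_of_nonneg_right h hT.le
      linarith
  rw [e1, e2, e3]
  have hm1 : -1 < m := by
    have : (-1 : ℝ) < m := by linarith
    exact_mod_cast this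
  have hm2 : m < 2 := by
    have : (m : ℝ) < 2 := by linarith
    exact_mod_cast this
  have hm : m = 0 ∨ m = 1 := by omega
  rcases hm with rfl | rfl
  · push_cast at h1 h2
    refine ⟨fun h => ?_, fun h => ?_⟩
    · rw [abs_le]
      rcases h with h | h <;> constructor <;> linarith
    · push Not at h
      constructor
      · intro h3
        linarith [h.1]
      · intro h3
        linarith [h.1]
  · push_cast at h1 h2
    refine ⟨fun h => ?_, fun h => ?_⟩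
    · rw [abs_le]
      rcases h with h | h <;> constructor <;> linarith
    · push Not at h
      constructor
      · intro h3
        linarith [h.1]
      · intro h3
        linarith [h.2]

theorem crt_sign (PP : Finset ℕ) (hP : ∀ r ∈ PP, r.Prime) (X : ℤ) (s J : ℕ)
    (hs : 1024 * PP.card ≤ 2 ^ s) (hX : 16 * |X| < (∏ r ∈ PP, r : ℕ))
    (hJ : ∏ r ∈ PP, r ≤ 2 ^ J) :
    X < 0 ↔ ∃ j < J + 1, (∀ i < j, 8 * crtA PP X s i < 2 ^ s ∨ 7 * 2 ^ s ≤ 8 * crtA PP X s i) ∧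
      2 ^ s ≤ 2 * crtA PP X s j ∧ 8 * crtA PP X s j < 7 * 2 ^ s := by
  set W : ℕ := ∏ r ∈ PP, r with hW
  have hW0 : 0 < W := Finset.prod_pos fun r hr => (hP r hr).pos
  have hWR : (0 : ℝ) < W := by exact_mod_cast hW0
  set y : ℕ → ℝ := fun j => 2 ^ j * (X : ℝ) / W with hy
  have hlt : ∀ j, crtA PP X s j < 2 ^ s := fun j => Nat.mod_lt _ (by positivity)
  have key : ∀ j, |y j| < 3 / 8 →
      ((8 * crtA PP X s j < 2 ^ s ∨ 7 * 2 ^ s ≤ 8 * crtA PP X s j) → |y j| ≤ 1 / 8 + 1 / 1024) ∧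
      (¬ (8 * crtA PP X s j < 2 ^ s ∨ 7 * 2 ^ s ≤ 8 * crtA PP X s j) →
        (y j < 0 ↔ 2 ^ s ≤ 2 * crtA PP X s j)) := by
    intro j hj
    obtain ⟨m, h1, h2⟩ := crtA_approx PP hP X s j hs
    refine cs_key (m := m) (hlt j) ?_ ?_ hj
    · push_cast
      exact h1
    · push_cast
      exact h2
  have hy0 : |y 0| < 3 / 8 := by
    have h1 : 16 * |(X : ℝ)| < W := by exact_mod_cast hX
    show |2 ^ 0 * (X : ℝ) / W| < 3 / 8
    rw [pow_zero, one_mul, abs_div, abs_of_pos hWR, div_lt_iff₀ hWR]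
    linarith
  have hsucc : ∀ j, y (j + 1) = 2 * y j := by
    intro j
    show 2 ^ (j + 1) * (X : ℝ) / W = 2 * (2 ^ j * (X : ℝ) / W)
    rw [pow_succ]
    ring
  have hind : ∀ j, (∀ i < j, 8 * crtA PP X s i < 2 ^ s ∨ 7 * 2 ^ s ≤ 8 * crtA PP X s i) →
      |y j| < 3 / 8 := by
    intro j
    induction j with
    | zero => exact fun _ => hy0
    | succ j ih =>
      intro h
      have h1 := ih fun i hi => h i (by omega)
      have h2 := (key j h1).1 (h j (by omega))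
      rw [hsucc, abs_mul, abs_two]
      linarith
  constructor
  · intro hneg
    have hex : ∃ j, j < J + 1 ∧
        ¬ (8 * crtA PP X s j < 2 ^ s ∨ 7 * 2 ^ s ≤ 8 * crtA PP X s j) := by
      by_contra hcon
      push Not at hcon
      have h1 : |y J| < 3 / 8 := hind J fun i hi => hcon i (by omega)
      have h2 : (1 : ℝ) ≤ |y J| := by
        show (1 : ℝ) ≤ |2 ^ J * (X : ℝ) / W|
        rw [abs_div, abs_mul, abs_of_pos hWR, le_div_iff₀ hWR, one_mul,
          abs_of_pos (pow_pos two_pos J)]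
        have h3 : (W : ℝ) ≤ 2 ^ J := by exact_mod_cast hJ
        have h4 : (1 : ℝ) ≤ |(X : ℝ)| := by exact_mod_cast Int.one_le_abs hneg.ne
        have h5 : (2 : ℝ) ^ J * 1 ≤ 2 ^ J * |(X : ℝ)| :=
          mul_le_mul_of_nonneg_left h4 (by positivity)
        linarith
      linarith
    obtain ⟨j, hj, hjmin⟩ : ∃ j, (j < J + 1 ∧
        ¬ (8 * crtA PP X s j < 2 ^ s ∨ 7 * 2 ^ s ≤ 8 * crtA PP X s j)) ∧
        ∀ i < j, ¬ (i < J + 1 ∧
          ¬ (8 * crtA PP X s i < 2 ^ s ∨ 7 * 2 ^ s ≤ 8 * crtA PP X s i)) := by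
      classical
      exact ⟨Nat.find hex, Nat.find_spec hex, fun i hi => Nat.find_min hex hi⟩
    have hnear : ∀ i < j, 8 * crtA PP X s i < 2 ^ s ∨ 7 * 2 ^ s ≤ 8 * crtA PP X s i := by
      intro i hi
      by_contra hcon
      exact hjmin i hi ⟨by omega, hcon⟩
    refine ⟨j, hj.1, hnear, ?_⟩
    have h2 := ((key j (hind j hnear)).2 hj.2).1 (by
      show 2 ^ j * (X : ℝ) / W < 0
      have h3 : (X : ℝ) < 0 := by exact_mod_cast hneg
      exact div_neg_of_neg_of_pos (mul_neg_of_pos_of_neg (by positivity) h3) hWR)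
    have h3 := hj.2
    rw [not_or] at h3
    push Not at h3
    exact ⟨h2, h3.2⟩
  · rintro ⟨j, _, hnear, h1, h2⟩
    have h3 := hind j hnear
    have h4 : ¬ (8 * crtA PP X s j < 2 ^ s ∨ 7 * 2 ^ s ≤ 8 * crtA PP X s j) := by omega
    have h5 := ((key j h3).2 h4).2 h1
    by_contra hcon
    push Not at hcon
    have h6 : (0 : ℝ) ≤ X := by exact_mod_cast hcon
    have h7 : 0 ≤ y j := by
      show 0 ≤ 2 ^ j * (X : ℝ) / W
      positivity
    linarith

end Vale.Agent.P337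

end
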