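import Mathlib
import Vale.Agent.Lib.P337.M.CxA
import Vale.Agent.Lib.P337.M.NT

section

/-!
P337, complexity side: counting and sums.
-/

namespace Vale.Agent.P337

open Vale.Agent.Lib.Common.PolyTime

variable {α β : Type} [TEnc α] [TEnc β]

open Classical in
theorem FC.count {M : α → ℕ} (hM : FC M) {B : α → ℕ → Prop}
    (hB : CHp (fun p : α × BNat => B p.1 p.2.v)) :
    FC (fun a => ((Finset.range (M a)).filter (fun v => B a v)).card) := by
  obtain ⟨l, hl, hlM⟩ := hM.1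
  have hM2 : FC (fun p : α × BNat => M p.1) := hM.pre (PT.fst PT.id)
  have hv : FC (fun p : α × BNat => p.2.v) := FC.of_PT (PT.snd PT.id)
  have hB' : CHp (fun p : α × BNat => (fun (a : α) (v : ℕ) => v < M a ∧ B a v) p.1 p.2.v) :=
    CHp.and (CHp.lt hv hM2) hB
  have hc := CHp.lt_count_pow (B := fun (a : α) (v : ℕ) => v < M a ∧ B a v) hl hB'
  have hcard : ∀ a, Nat.card {v : ℕ // v < 2 ^ l a ∧ (v < M a ∧ B a v)} =
      ((Finset.range (M a)).filter (fun v => B a v)).card := by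
    intro a
    refine Nat.subtype_card ((Finset.range (M a)).filter (fun v => B a v)) ?_
    intro v
    simp only [Finset.mem_filter, Finset.mem_range]
    constructor
    · intro h
      exact ⟨h.1.trans (hlM a), h⟩
    · intro h
      exact h.2
  refine FC.of_lt (l := fun a => l a) hl ?_ ?_
  · intro a
    refine lt_of_le_of_lt (Finset.card_filter_le _ _) ?_
    rw [Finset.card_range]
    exact hlM a
  · refine hc.congr ?_
    intro p
    rw [hcard]

theorem bval_div_pow (l : List Bool) (k : ℕ) : bval (l.drop k) = bval l / 2 ^ k := by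
  induction k generalizing l with
  | zero => simp
  | succ k ih =>
    cases l with
    | nil => simp [bval]
    | cons b l =>
      rw [List.drop_succ_cons, ih]
      change _ = (b.toNat + 2 * bval l) / 2 ^ (k + 1)
      have h1 := Bool.toNat_le b
      rw [pow_succ', ← Nat.div_div_eq_div_mul]
      congr 1
      omega

theorem bval_mod_pow (l : List Bool) (k : ℕ) : bval (l.take k) = bval l % 2 ^ k := by
  induction k generalizing l with
  | zero => simp [bval, Nat.mod_one]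
  | succ k ih =>
    cases l with
    | nil => simp [bval]
    | cons b l =>
      rw [List.take_succ_cons]
      change b.toNat + 2 * bval (l.take k) = (b.toNat + 2 * bval l) % 2 ^ (k + 1)
      have h1 := Bool.toNat_le b
      rw [ih, pow_succ', Nat.mod_mul]
      have h2 : (b.toNat + 2 * bval l) / 2 = bval l := by omega
      rw [h2]
      omega

/-- the digits of a pair number count the points under a graph -/
theorem card_filter_pair (K : ℕ) (hK : 0 < K) (F : ℕ → ℕ) (M : ℕ) (hF : ∀ v < M, F v ≤ K) :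
    ((Finset.range (M * K)).filter (fun n => n % K < F (n / K))).card =
      ∑ v ∈ Finset.range M, F v := by
  induction M with
  | zero => simp
  | succ M ih =>
    have h1 := ih (fun v hv => hF v (by omega))
    rw [Finset.card_filter] at h1 ⊢
    rw [Finset.sum_range_succ, ← h1, add_mul, one_mul, Finset.sum_range_add]
    congr 1
    have h2 : ∀ x ∈ Finset.range K,
        (if (M * K + x) % K < F ((M * K + x) / K) then 1 else 0) = if x < F M then 1 else 0 := by
      intro x hx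
      rw [Finset.mem_range] at hx
      rw [mul_comm M K, Nat.mul_add_mod, Nat.mod_eq_of_lt hx, Nat.mul_add_div hK,
        Nat.div_eq_of_lt hx, add_zero]
    rw [Finset.sum_congr rfl h2, ← Finset.card_filter]
    have h3 : (Finset.range K).filter (fun x => x < F M) = Finset.range (F M) := by
      ext x
      have := hF M (by omega)
      simp only [Finset.mem_filter, Finset.mem_range]
      omega
    rw [h3, Finset.card_range]

theorem FC.sum {M : α → ℕ} (hM : FC M) {F : α → ℕ → ℕ}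
    (hF : FC (fun p : α × BNat => F p.1 p.2.v)) : FC (fun a => ∑ v ∈ Finset.range (M a), F a v) := by
  classical
  obtain ⟨l, hl, hlM⟩ := hM.1
  obtain ⟨m, hm, hmF⟩ := hF.1
  obtain ⟨q, hq⟩ := hm.size_le
  set k : α → ℕ := fun a => q.eval (sz a + (4 * l a + 1) + 1) with hk
  have hkPT : PT k := by
    refine PT_polyEval q ?_
    have h1 : PT (fun a : α => sz a) := PT_sz
    fun_prop
  have hFk : ∀ a, ∀ v < M a, F a v ≤ 2 ^ k a := by
    intro a v hv
    have h1 := hmF (a, ⟨v⟩)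
    have h2 : m (a, ⟨v⟩) ≤ k a := by
      have h3 := hq (a, ⟨v⟩)
      rw [sz_nat, sz_pair] at h3
      have h4 := sz_BNat_le (n := v) (k := l a) (hv.trans (hlM a))
      have h5 : q.eval (sz a + sz (⟨v⟩ : BNat) + 1) ≤ k a := poly_mono q (by omega)
      omega
    exact h1.le.trans (Nat.pow_le_pow_right two_pos h2)
  have hdv : PT (fun p : α × BNat => (⟨bval ((Nat.bits p.2.v).drop (k p.1))⟩ : BNat)) := by
    have h1 : PT (fun p : α × BNat => k p.1) := PT.comp hkPT (PT.fst PT.id)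
    have h2 : PT (fun p : α × BNat => Nat.bits p.2.v) := PT_bits (PT.snd PT.id)
    exact PT_ofBits (PT.drop h2 h1)
  have hmd : PT (fun p : α × BNat => (⟨bval ((Nat.bits p.2.v).take (k p.1))⟩ : BNat)) := by
    have h1 : PT (fun p : α × BNat => k p.1) := PT.comp hkPT (PT.fst PT.id)
    have h2 : PT (fun p : α × BNat => Nat.bits p.2.v) := PT_bits (PT.snd PT.id)
    exact PT_ofBits (PT.take h2 h1)
  have hM2 : FC (fun p : α × BNat => M p.1) := hM.pre (PT.fst PT.id)
  have hF2 : FC (fun p : α × BNat => F p.1 (p.2.v / 2 ^ k p.1)) := by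
    have h1 := hF.pre (φ := fun p : α × BNat =>
      (p.1, (⟨bval ((Nat.bits p.2.v).drop (k p.1))⟩ : BNat))) (PT.pair (PT.fst PT.id) hdv)
    refine h1.congr ?_
    intro p
    change F p.1 (bval ((Nat.bits p.2.v).drop (k p.1))) = _
    rw [bval_div_pow, bval_bits]
  have hB : CHp (fun p : α × BNat => (fun (a : α) (n : ℕ) =>
      n / 2 ^ k a < M a ∧ n % 2 ^ k a < F a (n / 2 ^ k a)) p.1 p.2.v) := by
    refine CHp.and (CHp.lt ?_ hM2) (CHp.lt ?_ hF2)
    · refine (FC.of_PT hdv).congr ?_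
      intro p
      change bval ((Nat.bits p.2.v).drop (k p.1)) = _
      rw [bval_div_pow, bval_bits]
    · refine (FC.of_PT hmd).congr ?_
      intro p
      change bval ((Nat.bits p.2.v).take (k p.1)) = _
      rw [bval_mod_pow, bval_bits]
  have hN : FC (fun a => 2 ^ (l a + k a)) := FC.twoPow (PT.add hl hkPT)
  refine (FC.count (B := fun (a : α) (n : ℕ) =>
    n / 2 ^ k a < M a ∧ n % 2 ^ k a < F a (n / 2 ^ k a)) hN hB).congr ?_
  intro a
  rw [← card_filter_pair (2 ^ k a) (Nat.two_pow_pos _) (F a) (M a) (hFk a)]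
  congr 1
  ext n
  simp only [Finset.mem_filter, Finset.mem_range]
  have h1 : n / 2 ^ k a < M a ↔ n < M a * 2 ^ k a := Nat.div_lt_iff_lt_mul (Nat.two_pow_pos _)
  have h2 : M a * 2 ^ k a ≤ 2 ^ (l a + k a) := by
    rw [pow_add]
    exact Nat.mul_le_mul_right _ (hlM a).le
  constructor
  · intro h
    exact ⟨h1.mp h.2.1, h.2.2⟩
  · intro h
    exact ⟨lt_of_lt_of_le h.1 h2, h1.mpr h.1, h.2⟩

end Vale.Agent.P337

end

section

/-!
P337, complexity side: arithmetic.
-/

namespace Vale.Agent.P337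

open Vale.Agent.Lib.Common.PolyTime

variable {α β : Type} [TEnc α] [TEnc β]

/-- substitution of two FC functions into a polynomial time function -/
theorem FC_of_PT2 {h : α → ℕ → ℕ → ℕ}
    (hh : PT (fun q : (α × BNat) × BNat => (⟨h q.1.1 q.1.2.v q.2.v⟩ : BNat)))
    {f g : α → ℕ} (hf : FC f) (hg : FC g) : FC (fun a => h a (f a) (g a)) := by
  have hfst : PT (fun p : α × BNat => p.1) := by fun_prop
  refine FC.subst (g := fun a v => h a (f a) v) ?_ hg
  refine FC.subst (g := fun (p : α × BNat) u => h p.1 u p.2.v) ?_ (hf.pre hfst)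
  have hsw : PT (fun q : (α × BNat) × BNat => ((q.1.1, q.2), q.1.2)) := by fun_prop
  exact FC.of_PT (hh.comp hsw)

/-- substitution of three FC functions into a polynomial time function -/
theorem FC_of_PT3 {h : α → ℕ → ℕ → ℕ → ℕ}
    (hh : PT (fun q : ((α × BNat) × BNat) × BNat =>
      (⟨h q.1.1.1 q.1.1.2.v q.1.2.v q.2.v⟩ : BNat)))
    {f g k : α → ℕ} (hf : FC f) (hg : FC g) (hk : FC k) :
    FC (fun a => h a (f a) (g a) (k a)) := by
  have hfst : PT (fun p : α × BNat => p.1) := by fun_prop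
  refine FC.subst (g := fun a v => h a (f a) (g a) v) ?_ hk
  refine FC_of_PT2 (α := α × BNat) (h := fun p u v => h p.1 u v p.2.v) ?_ (hf.pre hfst)
    (hg.pre hfst)
  have hsw : PT (fun q : ((α × BNat) × BNat) × BNat =>
      (((q.1.1.1, q.1.2), q.2), q.1.1.2)) := by fun_prop
  exact hh.comp hsw

theorem FC.add {f g : α → ℕ} (hf : FC f) (hg : FC g) : FC (fun a => f a + g a) :=
  FC_of_PT2 (h := fun _ u v => u + v) (by fun_prop) hf hg

theorem FC.mul {f g : α → ℕ} (hf : FC f) (hg : FC g) : FC (fun a => f a * g a) := by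
  obtain ⟨⟨l, hl, hfl⟩, -⟩ := id hf
  obtain ⟨⟨m, hm, hgm⟩, -⟩ := id hg
  have hl1 : PT (fun q : (α × BNat) × BNat => l q.1.1) :=
    hl.comp (by fun_prop : PT (fun q : (α × BNat) × BNat => q.1.1))
  have hm1 : PT (fun q : (α × BNat) × BNat => m q.1.1) :=
    hm.comp (by fun_prop : PT (fun q : (α × BNat) × BNat => q.1.1))
  have hr : PT (fun q : (α × BNat) × BNat => (⟨2 ^ (l q.1.1 + m q.1.1)⟩ : BNat)) :=
    PT_twoPow (hl1.add hm1)
  have hx : PT (fun q : (α × BNat) × BNat => q.1.2) := by fun_prop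
  have hy : PT (fun q : (α × BNat) × BNat => q.2) := by fun_prop
  have hmul := PT_bmulmod hx hy hr
  refine (FC_of_PT2 (h := fun a u v => u * v % 2 ^ (l a + m a)) hmul hf hg).congr fun a => ?_
  refine Nat.mod_eq_of_lt ?_
  rw [pow_add]
  exact Nat.mul_lt_mul'' (hfl a) (hgm a)

theorem FC.sub {f g : α → ℕ} (hf : FC f) (hg : FC g) : FC (fun a => f a - g a) :=
  FC_of_PT2 (h := fun _ u v => u - v) (by fun_prop) hf hg

theorem FC.div {f g : α → ℕ} (hf : FC f) (hg : FC g) : FC (fun a => f a / g a) := by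
  obtain ⟨⟨l, hl, hfl⟩, -⟩ := id hf
  have hfst : PT (fun p : α × BNat => p.1) := by fun_prop
  have hsnd : PT (fun p : α × BNat => p.2) := by fun_prop
  refine FC.of_lt hl (fun a => (Nat.div_le_self _ _).trans_lt (hfl a)) ?_
  have h1 : CHp (fun p : α × BNat => 0 < g p.1) := CHp.lt (FC.const 0) (hg.pre hfst)
  have h2 : CHp (fun p : α × BNat => (p.2.v + 1) * g p.1 ≤ f p.1) :=
    CHp.le (((FC.of_PT hsnd).add (FC.const 1)).mul (hg.pre hfst)) (hf.pre hfst)
  refine (h1.and h2).congr fun p => ?_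
  constructor
  · rintro ⟨h0, h⟩
    exact (Nat.le_div_iff_mul_le h0).2 h
  · intro h
    rcases Nat.eq_zero_or_pos (g p.1) with h0 | h0
    · rw [h0, Nat.div_zero] at h
      exact absurd h (Nat.not_lt_zero _)
    · exact ⟨h0, (Nat.le_div_iff_mul_le h0).1 h⟩

theorem FC.mod {f g : α → ℕ} (hf : FC f) (hg : FC g) : FC (fun a => f a % g a) :=
  (hf.sub (hg.mul (hf.div hg))).congr fun a => (Nat.mod_def _ _).symm

theorem FC.powmod {f k r : α → ℕ} (hf : FC f) (hk : FC k) (hr : FC r) :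
    FC (fun a => if r a = 0 then 0 else f a ^ k a % r a) := by
  refine FC_of_PT3 (h := fun _ u v w => if w = 0 then 0 else u ^ v % w) ?_ hf hk hr
  have hx : PT (fun q : ((α × BNat) × BNat) × BNat => q.1.1.2) := by fun_prop
  have hy : PT (fun q : ((α × BNat) × BNat) × BNat => q.1.2) := by fun_prop
  have hz : PT (fun q : ((α × BNat) × BNat) × BNat => q.2) := by fun_prop
  exact PT_bpowmod hx hy hz

/-- powers with unary exponents -/
theorem FC.powUnary {f k : α → ℕ} (hf : FC f) (hk : PT k) : FC (fun a => f a ^ k a) := by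
  obtain ⟨⟨l, hl, hfl⟩, -⟩ := id hf
  have hr : FC (fun a => 2 ^ (l a * k a + 1)) := FC.twoPow (by fun_prop)
  refine (FC.powmod hf (FC.of_PTnat hk) hr).congr fun a => ?_
  have h0 : 2 ^ (l a * k a + 1) ≠ 0 := by positivity
  rw [if_neg h0]
  refine Nat.mod_eq_of_lt ?_
  calc f a ^ k a ≤ (2 ^ l a) ^ k a := Nat.pow_le_pow_left (hfl a).le _
    _ = 2 ^ (l a * k a) := (pow_mul _ _ _).symm
    _ < 2 ^ (l a * k a + 1) := Nat.pow_lt_pow_right (by norm_num) (Nat.lt_succ_self _)

theorem fcc_prime_iff (r : ℕ) : r.Prime ↔ 2 ≤ r ∧ ∀ x < r, ∀ y < r, x * y ≠ r := by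
  constructor
  · intro h
    refine ⟨h.two_le, fun x hx y hy hxy => ?_⟩
    rcases (Nat.dvd_prime h).1 ⟨y, hxy.symm⟩ with h1 | h1
    · rw [h1, one_mul] at hxy
      omega
    · omega
  · rintro ⟨h2, h⟩
    rw [Nat.prime_def_lt]
    refine ⟨h2, fun m hm hmr => ?_⟩
    obtain ⟨c, hc⟩ := hmr
    by_contra h1
    have hm0 : m ≠ 0 := by
      rintro rfl
      rw [zero_mul] at hc
      omega
    have hc0 : 0 < c := by
      rcases Nat.eq_zero_or_pos c with h3 | h3
      · rw [h3, mul_zero] at hc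
        omega
      · exact h3
    have hcr : c < r := by
      rw [hc]
      have : 2 ≤ m := by omega
      nlinarith
    exact h m hm c hcr hc.symm

theorem CHp.prime {r : α → ℕ} (hr : FC r) : CHp (fun a => (r a).Prime) := by
  have hfst : PT (fun p : α × BNat => p.1) := by fun_prop
  have hq11 : PT (fun q : (α × BNat) × BNat => q.1.1) := by fun_prop
  have hq12 : PT (fun q : (α × BNat) × BNat => q.1.2) := by fun_prop
  have hq2 : PT (fun q : (α × BNat) × BNat => q.2) := by fun_prop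
  have h1 : CHp (fun q : (α × BNat) × BNat => q.1.2.v * q.2.v ≠ r q.1.1) :=
    (CHp.eq ((FC.of_PT hq12).mul (FC.of_PT hq2)) (hr.pre hq11)).not
  have h2 : CHp (fun p : α × BNat => ∀ y < r p.1, p.2.v * y ≠ r p.1) :=
    CHp.forall_lt (B := fun (p : α × BNat) y => p.2.v * y ≠ r p.1) (hr.pre hfst) h1
  have h3 : CHp (fun a => ∀ x < r a, ∀ y < r a, x * y ≠ r a) :=
    CHp.forall_lt (B := fun a x => ∀ y < r a, x * y ≠ r a) hr h2
  exact ((CHp.le (FC.const 2) hr).and h3).congr fun a => (fcc_prime_iff (r a)).symm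

theorem CHp.dvd {f g : α → ℕ} (hf : FC f) (hg : FC g) : CHp (fun a => f a ∣ g a) :=
  (CHp.eq (hg.mod hf) (FC.const 0)).congr fun _ => (Nat.dvd_iff_mod_eq_zero).symm

end Vale.Agent.P337

end

section

/-!
P337, complexity side: iterated products modulo a prime, by discrete logarithms.
-/

namespace Vale.Agent.P337

open Vale.Agent.Lib.Common.PolyTime

variable {α β : Type} [TEnc α] [TEnc β]

/-! ### the least number with a property, by counting -/

private theorem fcd_least (R : ℕ) (B : ℕ → Prop) (D : DecidablePred fun v => ∀ e < v + 1, ¬ B e)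
    (h : ∃ e < R, B e) :
    ((Finset.range R).filter (fun v => ∀ e < v + 1, ¬ B e)).card < R ∧
      B ((Finset.range R).filter (fun v => ∀ e < v + 1, ¬ B e)).card := by
  classical
  have h1 : ∃ e, B e := by
    obtain ⟨e, -, h2⟩ := h
    exact ⟨e, h2⟩
  have h3 : Nat.find h1 < R := by
    obtain ⟨e, h2, h3⟩ := h
    exact lt_of_le_of_lt (Nat.find_min' h1 h3) h2
  have h4 : (Finset.range R).filter (fun v => ∀ e < v + 1, ¬ B e) = Finset.range (Nat.find h1) := by
    ext v
    simp only [Finset.mem_filter, Finset.mem_range]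
    constructor
    · rintro ⟨-, h5⟩
      by_contra h6
      exact h5 (Nat.find h1) (by omega) (Nat.find_spec h1)
    · intro h5
      refine ⟨by omega, fun e he => Nat.find_min h1 (by omega)⟩
  rw [h4, Finset.card_range]
  exact ⟨h3, Nat.find_spec h1⟩

open Classical in
/-- number of `v < R` with a property -/
private noncomputable def fcdCnt (R : ℕ) (P : ℕ → Prop) : ℕ :=
  ((Finset.range R).filter (fun v => P v)).card

/-- the least `v < R` with a property (`R` if there is none) -/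
private noncomputable def fcdMin (R : ℕ) (B : ℕ → Prop) : ℕ :=
  fcdCnt R (fun v => ∀ e < v + 1, ¬ B e)

private theorem fcdMin_spec {R : ℕ} {B : ℕ → Prop} (h : ∃ e < R, B e) :
    fcdMin R B < R ∧ B (fcdMin R B) := by
  unfold fcdMin fcdCnt
  exact fcd_least R B _ h

private theorem fcdMin_FC {R : α → ℕ} (hR : FC R) {B : α → ℕ → Prop}
    (hB : CHp (fun p : α × BNat => B p.1 p.2.v)) : FC (fun a => fcdMin (R a) (B a)) := by
  have h1 : CHp (fun q : (α × BNat) × BNat => ¬ B q.1.1 q.2.v) :=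
    (hB.pre (f := fun q : (α × BNat) × BNat => (q.1.1, q.2)) (by fun_prop)).not
  have h2 : CHp (fun p : α × BNat => ∀ e < p.2.v + 1, ¬ B p.1 e) :=
    CHp.forall_lt (M := fun p : α × BNat => p.2.v + 1)
      (B := fun (p : α × BNat) (e : ℕ) => ¬ B p.1 e)
      (FC.add (FC.of_PT (by fun_prop)) (FC.const 1)) h1
  exact FC.count hR (B := fun a v => ∀ e < v + 1, ¬ B a e) h2

/-! ### generators -/

/-- `g` generates the units modulo `r` -/
private def fcdGen (r g : ℕ) : Prop :=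
  ∀ x < r, x = 0 ∨ ∃ e < r, (if r = 0 then 0 else g ^ e % r) = x

private theorem fcdGen_exists {r : ℕ} (hr : r.Prime) : ∃ g < r, fcdGen r g := by
  have : Fact r.Prime := ⟨hr⟩
  obtain ⟨g, hg⟩ := IsCyclic.exists_monoid_generator (α := (ZMod r)ˣ)
  refine ⟨((g : (ZMod r)ˣ) : ZMod r).val, ZMod.val_lt _, ?_⟩
  intro x hx
  by_cases h0 : x = 0
  · exact Or.inl h0
  · right
    have h1 : (x : ZMod r) ≠ 0 := by
      intro h2
      rw [ZMod.natCast_eq_zero_iff] at h2
      exact h0 (Nat.eq_zero_of_dvd_of_lt h2 hx)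
    obtain ⟨n, hn⟩ := hg (Units.mk0 (x : ZMod r) h1)
    have h3 : orderOf g < r := by
      have h4 := orderOf_le_card_univ (x := g)
      rw [ZMod.card_units] at h4
      have := hr.pos
      omega
    refine ⟨n % orderOf g, lt_trans (Nat.mod_lt _ (orderOf_pos g)) h3, ?_⟩
    rw [if_neg hr.pos.ne']
    have h5 : g ^ (n % orderOf g) = Units.mk0 (x : ZMod r) h1 := by
      rw [pow_mod_orderOf]
      exact hn
    have h6 : ((g : ZMod r)) ^ (n % orderOf g) = (x : ZMod r) := by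
      have h7 := congrArg (Units.val) h5
      rw [Units.val_pow_eq_pow_val, Units.val_mk0] at h7
      exact h7
    have h8 : ((((g : (ZMod r)ˣ) : ZMod r).val ^ (n % orderOf g) : ℕ) : ZMod r) = (x : ZMod r) := by
      rw [Nat.cast_pow, ZMod.natCast_zmod_val, h6]
    rw [ZMod.natCast_eq_natCast_iff'] at h8
    rw [h8, Nat.mod_eq_of_lt hx]

private theorem fcdGen_CHp {r : α → ℕ} (hr : FC r) :
    CHp (fun p : α × BNat => fcdGen (r p.1) p.2.v) := by
  have hr1 : FC (fun p : α × BNat => r p.1) := hr.pre (by fun_prop)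
  have hr2 : FC (fun q : (α × BNat) × BNat => r q.1.1) :=
    hr.pre (φ := fun q : (α × BNat) × BNat => q.1.1) (by fun_prop)
  have hr3 : FC (fun s : ((α × BNat) × BNat) × BNat => r s.1.1.1) :=
    hr.pre (φ := fun s : ((α × BNat) × BNat) × BNat => s.1.1.1) (by fun_prop)
  have h1 : FC (fun s : ((α × BNat) × BNat) × BNat =>
      if r s.1.1.1 = 0 then 0 else s.1.1.2.v ^ s.2.v % r s.1.1.1) :=
    FC.powmod (FC.of_PT (f := fun s : ((α × BNat) × BNat) × BNat => s.1.1.2) (by fun_prop))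
      (FC.of_PT (f := fun s : ((α × BNat) × BNat) × BNat => s.2) (by fun_prop)) hr3
  have h2 : CHp (fun s : ((α × BNat) × BNat) × BNat =>
      (if r s.1.1.1 = 0 then 0 else s.1.1.2.v ^ s.2.v % r s.1.1.1) = s.1.2.v) :=
    CHp.eq h1 (FC.of_PT (f := fun s : ((α × BNat) × BNat) × BNat => s.1.2) (by fun_prop))
  have h3 : CHp (fun q : (α × BNat) × BNat =>
      ∃ e < r q.1.1, (if r q.1.1 = 0 then 0 else q.1.2.v ^ e % r q.1.1) = q.2.v) :=
    CHp.exists_lt (B := fun (q : (α × BNat) × BNat) (e : ℕ) =>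
      (if r q.1.1 = 0 then 0 else q.1.2.v ^ e % r q.1.1) = q.2.v) hr2 h2
  have h4 : CHp (fun q : (α × BNat) × BNat => q.2.v = 0) :=
    CHp.eq (FC.of_PT (f := fun q : (α × BNat) × BNat => q.2) (by fun_prop)) (FC.const 0)
  exact CHp.forall_lt (M := fun p : α × BNat => r p.1) (B := fun (p : α × BNat) (x : ℕ) =>
    x = 0 ∨ ∃ e < r p.1, (if r p.1 = 0 then 0 else p.2.v ^ e % r p.1) = x) hr1 (h4.or h3)

/-! ### the product through discrete logarithms -/

private theorem fcd_prod {r : ℕ} (hr : r.Prime) {g : ℕ} (M : ℕ) (F : ℕ → ℕ)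
    (hg : fcdGen r g) (h0 : ¬ ∃ v < M, F v % r = 0) :
    g ^ (∑ v ∈ Finset.range M,
      fcdMin r (fun e => (if r = 0 then 0 else g ^ e % r) = F v % r)) % r =
      (∏ v ∈ Finset.range M, F v) % r := by
  have h1 : ∀ v < M, g ^ fcdMin r (fun e => (if r = 0 then 0 else g ^ e % r) = F v % r) ≡ F v
      [MOD r] := by
    intro v hv
    have h2 : ∃ e < r, (if r = 0 then 0 else g ^ e % r) = F v % r := by
      rcases hg (F v % r) (Nat.mod_lt _ hr.pos) with h3 | h3
      · exact absurd ⟨v, hv, h3⟩ h0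
      · exact h3
    have h4 := (fcdMin_spec h2).2
    rw [if_neg hr.pos.ne'] at h4
    exact h4
  have h5 : ∀ n ≤ M, g ^ (∑ v ∈ Finset.range n,
      fcdMin r (fun e => (if r = 0 then 0 else g ^ e % r) = F v % r)) ≡
      ∏ v ∈ Finset.range n, F v [MOD r] := by
    intro n
    induction n with
    | zero =>
      intro _
      simp [Nat.ModEq.refl]
    | succ n ih =>
      intro hn
      rw [Finset.sum_range_succ, Finset.prod_range_succ, pow_add]
      exact (ih (by omega)).mul (h1 n (by omega))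
  exact h5 M le_rfl

/-- iterated products modulo a prime -/
theorem FC.prodMod {M r : α → ℕ} (hM : FC M) (hr : FC r) {F : α → ℕ → ℕ}
    (hF : FC (fun p : α × BNat => F p.1 p.2.v)) :
    FC (fun a => if (r a).Prime then (∏ v ∈ Finset.range (M a), F a v) % r a else 0) := by
  classical
  have hr1 : FC (fun p : α × BNat => r p.1) := hr.pre (by fun_prop)
  have hr2 : FC (fun q : (α × BNat) × BNat => r q.1.1) :=
    hr.pre (φ := fun q : (α × BNat) × BNat => q.1.1) (by fun_prop)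
  have hgen : FC (fun a => fcdMin (r a) (fcdGen (r a))) :=
    fcdMin_FC (B := fun a g => fcdGen (r a) g) hr (fcdGen_CHp hr)
  have hgen2 : FC (fun q : (α × BNat) × BNat => fcdMin (r q.1.1) (fcdGen (r q.1.1))) :=
    hgen.pre (φ := fun q : (α × BNat) × BNat => q.1.1) (by fun_prop)
  have hF1 : FC (fun p : α × BNat => F p.1 p.2.v % r p.1) := hF.mod hr1
  have hF2 : FC (fun q : (α × BNat) × BNat => F q.1.1 q.1.2.v % r q.1.1) :=
    hF1.pre (φ := fun q : (α × BNat) × BNat => q.1) (by fun_prop)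
  have h1 : FC (fun q : (α × BNat) × BNat => if r q.1.1 = 0 then 0 else
      fcdMin (r q.1.1) (fcdGen (r q.1.1)) ^ q.2.v % r q.1.1) :=
    FC.powmod hgen2 (FC.of_PT (f := fun q : (α × BNat) × BNat => q.2) (by fun_prop)) hr2
  have hlog : FC (fun p : α × BNat => fcdMin (r p.1) (fun e => (if r p.1 = 0 then 0 else
      fcdMin (r p.1) (fcdGen (r p.1)) ^ e % r p.1) = F p.1 p.2.v % r p.1)) :=
    fcdMin_FC (B := fun (p : α × BNat) (e : ℕ) => (if r p.1 = 0 then 0 else
      fcdMin (r p.1) (fcdGen (r p.1)) ^ e % r p.1) = F p.1 p.2.v % r p.1) hr1 (CHp.eq h1 hF2)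
  have hsum : FC (fun a => ∑ v ∈ Finset.range (M a), fcdMin (r a) (fun e => (if r a = 0 then 0 else
      fcdMin (r a) (fcdGen (r a)) ^ e % r a) = F a v % r a)) :=
    FC.sum hM (F := fun (a : α) (v : ℕ) => fcdMin (r a) (fun e => (if r a = 0 then 0 else
      fcdMin (r a) (fcdGen (r a)) ^ e % r a) = F a v % r a)) hlog
  have hpow := FC.powmod hgen hsum hr
  have hzero : CHp (fun a => ∃ v < M a, F a v % r a = 0) :=
    CHp.exists_lt (B := fun (a : α) (v : ℕ) => F a v % r a = 0) hM (CHp.eq hF1 (FC.const 0))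
  have hfin := FC.ite (CHp.prime hr) (FC.ite hzero (FC.const 0) hpow) (FC.const 0)
  refine hfin.congr fun a => ?_
  by_cases hp : (r a).Prime
  · rw [if_pos hp, if_pos hp]
    by_cases hz : ∃ v < M a, F a v % r a = 0
    · rw [if_pos hz]
      obtain ⟨v, hv, h2⟩ := hz
      symm
      exact Nat.mod_eq_zero_of_dvd (dvd_trans (Nat.dvd_of_mod_eq_zero h2)
        (Finset.dvd_prod_of_mem _ (Finset.mem_range.2 hv)))
    · rw [if_neg hz, if_neg hp.pos.ne']
      exact fcd_prod hp (M a) (F a) (fcdMin_spec (fcdGen_exists hp)).2 hz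
  · rw [if_neg hp, if_neg hp]

end Vale.Agent.P337

end

section

/-!
P337, complexity side: functions with values in `ZMod r` computable in the counting hierarchy.
-/

namespace Vale.Agent.P337

open Vale.Agent.Lib.Common.PolyTime

variable {α β : Type} [TEnc α] [TEnc β]

variable {r : α → ℕ}

/-- `ZMod r`-valued functions computable in the counting hierarchy (for `r` prime) -/
def FCz (r : α → ℕ) (F : ∀ a, ZMod (r a)) : Prop :=
  FC (fun a => if (r a).Prime then (F a).val else 0)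

/-- the entries of a list of numbers, `0` beyond the end -/
def vec (l : List BNat) : ℕ → ℕ := fun i => (l.getD i ⟨0⟩).v

theorem FCz.congr {F G : ∀ a, ZMod (r a)} (hF : FCz r F) (h : ∀ a, (r a).Prime → F a = G a) :
    FCz r G := by
  refine FC.congr hF ?_
  intro a
  by_cases hp : (r a).Prime
  · rw [if_pos hp, if_pos hp, h a hp]
  · rw [if_neg hp, if_neg hp]

theorem FCz.pre {F : ∀ a, ZMod (r a)} (hF : FCz r F) {φ : β → α} (hφ : PT φ) :
    FCz (fun b => r (φ b)) (fun b => F (φ b)) :=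
  FC.pre hF hφ

/-- the standard way to prove `FCz`: a formula for the value at prime `r` -/
theorem FCz_of_val (hr : FC r) {F : ∀ a, ZMod (r a)} {f : α → ℕ} (hf : FC f)
    (h : ∀ a, (r a).Prime → (F a).val = f a) : FCz r F := by
  refine FC.congr (FC.ite (CHp.prime hr) hf (FC.const 0)) ?_
  intro a
  by_cases hp : (r a).Prime
  · rw [if_pos hp, if_pos hp, h a hp]
  · rw [if_neg hp, if_neg hp]

theorem FCz.cast (hr : FC r) {f : α → ℕ} (hf : FC f) : FCz r (fun a => ((f a : ℕ) : ZMod (r a))) :=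
  FCz_of_val hr (FC.mod hf hr) (fun a _ => ZMod.val_natCast (r a) (f a))

theorem FCz.add (hr : FC r) {F G : ∀ a, ZMod (r a)} (hF : FCz r F) (hG : FCz r G) :
    FCz r (fun a => F a + G a) := by
  refine FCz_of_val hr (FC.mod (FC.add hF hG) hr) (fun a hp => ?_)
  have : NeZero (r a) := ⟨hp.ne_zero⟩
  rw [ZMod.val_add, if_pos hp, if_pos hp]

theorem FCz.neg (hr : FC r) {F : ∀ a, ZMod (r a)} (hF : FCz r F) : FCz r (fun a => -F a) := by
  refine FCz_of_val hr (FC.mod (FC.sub hr hF) hr) (fun a hp => ?_)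
  have : NeZero (r a) := ⟨hp.ne_zero⟩
  rw [ZMod.neg_val', if_pos hp]

theorem FCz.sub (hr : FC r) {F G : ∀ a, ZMod (r a)} (hF : FCz r F) (hG : FCz r G) :
    FCz r (fun a => F a - G a) :=
  FCz.congr (FCz.add hr hF (FCz.neg hr hG)) (fun a _ => (sub_eq_add_neg (F a) (G a)).symm)

theorem FCz.mul (hr : FC r) {F G : ∀ a, ZMod (r a)} (hF : FCz r F) (hG : FCz r G) :
    FCz r (fun a => F a * G a) := by
  refine FCz_of_val hr (FC.mod (FC.mul hF hG) hr) (fun a hp => ?_)
  rw [ZMod.val_mul, if_pos hp, if_pos hp]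

theorem FCz.inv (hr : FC r) {F : ∀ a, ZMod (r a)} (hF : FCz r F) : FCz r (fun a => (F a)⁻¹) := by
  have h0 : CHp (fun a => (if (r a).Prime then (F a).val else 0) = 0) :=
    CHp.eq hF (FC.const 0)
  have h1 := FC.powmod hF (FC.sub hr (FC.const 2)) hr
  refine FCz_of_val hr (FC.ite h0 (FC.const 0) h1) (fun a hp => ?_)
  have : Fact (r a).Prime := ⟨hp⟩
  have hr0 : r a ≠ 0 := hp.ne_zero
  rw [if_neg hr0, if_pos hp]
  by_cases hx : F a = 0
  · rw [hx, inv_zero, ZMod.val_zero, if_pos rfl]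
  · have hv : (F a).val ≠ 0 := fun h => hx ((ZMod.val_eq_zero (F a)).1 h)
    rw [if_neg hv]
    have h2 : (F a)⁻¹ = F a ^ (r a - 2) := by
      have h3 : F a * F a ^ (r a - 2) = 1 := by
        rw [← pow_succ', ← ZMod.pow_card_sub_one_eq_one hx]
        congr 1
        have := hp.two_le
        omega
      exact (eq_inv_of_mul_eq_one_right h3).symm
    have h4 : F a ^ (r a - 2) = (((F a).val ^ (r a - 2) : ℕ) : ZMod (r a)) := by
      rw [Nat.cast_pow, ZMod.natCast_zmod_val]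
    rw [h2, h4, ZMod.val_natCast]

open Classical in
theorem FCz.ite {c : α → Prop} (hc : CHp c) {F G : ∀ a, ZMod (r a)} (hF : FCz r F)
    (hG : FCz r G) : FCz r (fun a => if c a then F a else G a) := by
  refine FC.congr (FC.ite hc hF hG) ?_
  intro a
  by_cases h : c a
  · simp [h]
  · simp [h]

/-- the value as a natural number, for prime `r` -/
theorem FCz.val {F : ∀ a, ZMod (r a)} (hF : FCz r F) :
    FC (fun a => if (r a).Prime then (F a).val else 0) := hF

theorem FCz.subst {F : ∀ a, ℕ → ZMod (r a)}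
    (hF : FCz (fun p : α × BNat => r p.1) (fun p => F p.1 p.2.v)) {f : α → ℕ} (hf : FC f) :
    FCz r (fun a => F a (f a)) :=
  FC.subst (g := fun a v => if (r a).Prime then (F a v).val else 0) hF hf

end Vale.Agent.P337

end

section

/-!
P337, complexity side: powers, sums and products with values in `ZMod r`.
-/

namespace Vale.Agent.P337

open Vale.Agent.Lib.Common.PolyTime

variable {α β : Type} [TEnc α] [TEnc β]

variable {r : α → ℕ}

theorem FCz.pow (hr : FC r) {F : ∀ a, ZMod (r a)} (hF : FCz r F) {k : α → ℕ} (hk : FC k) :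
    FCz r (fun a => F a ^ k a) := by
  classical
  unfold FCz at hF ⊢
  have h1 := FC.powmod hF hk hr
  have h2 := FC.ite (CHp.prime hr) h1 (FC.const 0)
  refine h2.congr fun a => ?_
  by_cases hp : (r a).Prime
  · have : NeZero (r a) := ⟨hp.ne_zero⟩
    rw [if_pos hp, if_pos hp, if_pos hp, if_neg hp.ne_zero]
    have h3 : F a ^ k a = (((F a).val ^ k a : ℕ) : ZMod (r a)) := by
      rw [Nat.cast_pow, ZMod.natCast_zmod_val]
    dsimp only
    rw [h3, ZMod.val_natCast]
  · rw [if_neg hp, if_neg hp]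

theorem FCz.sum_range (hr : FC r) {M : α → ℕ} (hM : FC M) {F : ∀ a, ℕ → ZMod (r a)}
    (hF : FCz (fun p : α × BNat => r p.1) (fun p => F p.1 p.2.v)) :
    FCz r (fun a => ∑ i ∈ Finset.range (M a), F a i) := by
  classical
  unfold FCz at hF ⊢
  have h1 := FC.sum hM (F := fun a v => if (r a).Prime then (F a v).val else 0) hF
  have h2 := FC.ite (CHp.prime hr) (FC.mod h1 hr) (FC.const 0)
  refine h2.congr fun a => ?_
  by_cases hp : (r a).Prime
  · have : NeZero (r a) := ⟨hp.ne_zero⟩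
    rw [if_pos hp, if_pos hp]
    have h3 : ∑ i ∈ Finset.range (M a), F a i =
        ((∑ i ∈ Finset.range (M a), (if (r a).Prime then (F a i).val else 0) : ℕ) :
          ZMod (r a)) := by
      rw [Nat.cast_sum]
      refine Finset.sum_congr rfl fun i _ => ?_
      rw [if_pos hp, ZMod.natCast_zmod_val]
    dsimp only
    rw [h3, ZMod.val_natCast]
  · rw [if_neg hp, if_neg hp]

theorem FCz.prod_range (hr : FC r) {M : α → ℕ} (hM : FC M) {F : ∀ a, ℕ → ZMod (r a)}
    (hF : FCz (fun p : α × BNat => r p.1) (fun p => F p.1 p.2.v)) :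
    FCz r (fun a => ∏ i ∈ Finset.range (M a), F a i) := by
  unfold FCz at hF ⊢
  have h1 := FC.prodMod hM hr (F := fun a v => if (r a).Prime then (F a v).val else 0) hF
  refine h1.congr fun a => ?_
  by_cases hp : (r a).Prime
  · have : NeZero (r a) := ⟨hp.ne_zero⟩
    rw [if_pos hp, if_pos hp]
    have h3 : ∏ i ∈ Finset.range (M a), F a i =
        ((∏ i ∈ Finset.range (M a), (if (r a).Prime then (F a i).val else 0) : ℕ) :
          ZMod (r a)) := by
      rw [Nat.cast_prod]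
      refine Finset.prod_congr rfl fun i _ => ?_
      rw [if_pos hp, ZMod.natCast_zmod_val]
    dsimp only
    rw [h3, ZMod.val_natCast]
  · rw [if_neg hp, if_neg hp]

theorem FCz.sum_Ico (hr : FC r) {L M : α → ℕ} (hL : FC L) (hM : FC M) {F : ∀ a, ℕ → ZMod (r a)}
    (hF : FCz (fun p : α × BNat => r p.1) (fun p => F p.1 p.2.v)) :
    FCz r (fun a => ∑ i ∈ Finset.Ico (L a) (M a), F a i) := by
  classical
  have hr1 : FC (fun p : α × BNat => r p.1) := hr.pre (by fun_prop)
  have hc : CHp (fun p : α × BNat => L p.1 ≤ p.2.v) :=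
    CHp.le (hL.pre (φ := fun p : α × BNat => p.1) (by fun_prop))
      (FC.of_PT (f := fun p : α × BNat => p.2) (by fun_prop))
  have h0 : FCz (fun p : α × BNat => r p.1) (fun _ => 0) :=
    (FCz.cast hr1 (FC.const 0)).congr fun p _ => Nat.cast_zero
  have h1 := FCz.ite hc hF h0
  have h2 := FCz.sum_range hr hM (F := fun a i => if L a ≤ i then F a i else 0)
    (h1.congr fun p _ => by congr)
  refine h2.congr fun a _ => ?_
  rw [← Finset.sum_filter]
  refine Finset.sum_congr ?_ fun _ _ => rfl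
  ext i
  simp only [Finset.mem_filter, Finset.mem_range, Finset.mem_Ico]
  tauto

/-- sums over a unary range, the index being available in unary -/
theorem FCz.sum_unary (hr : FC r) {M : α → ℕ} (hM : PT M) {F : ∀ a, ℕ → ZMod (r a)}
    (hF : FCz (fun p : α × ℕ => r p.1) (fun p => F p.1 p.2)) :
    FCz r (fun a => ∑ i ∈ Finset.range (M a), F a i) := by
  have h1 : FCz (fun p : α × BNat => r p.1) (fun p => F p.1 (min p.2.v (M p.1))) :=
    hF.pre (φ := fun p : α × BNat => (p.1, min p.2.v (M p.1))) (by fun_prop)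
  have h2 := FCz.sum_range hr (FC.of_PTnat hM) (F := fun a i => F a (min i (M a))) h1
  refine h2.congr fun a _ => ?_
  refine Finset.sum_congr rfl fun i hi => ?_
  rw [min_eq_left (Finset.mem_range.1 hi).le]

theorem FCz.prod_unary (hr : FC r) {M : α → ℕ} (hM : PT M) {F : ∀ a, ℕ → ZMod (r a)}
    (hF : FCz (fun p : α × ℕ => r p.1) (fun p => F p.1 p.2)) :
    FCz r (fun a => ∏ i ∈ Finset.range (M a), F a i) := by
  have h1 : FCz (fun p : α × BNat => r p.1) (fun p => F p.1 (min p.2.v (M p.1))) :=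
    hF.pre (φ := fun p : α × BNat => (p.1, min p.2.v (M p.1))) (by fun_prop)
  have h2 := FCz.prod_range hr (FC.of_PTnat hM) (F := fun a i => F a (min i (M a))) h1
  refine h2.congr fun a _ => ?_
  refine Finset.prod_congr rfl fun i hi => ?_
  rw [min_eq_left (Finset.mem_range.1 hi).le]

/-- doubly exponential numbers modulo `r` -/
theorem FCz.twoTwoPow (hr : FC r) {E : α → ℕ} (hE : PT E) :
    FCz r (fun a => ((2 ^ 2 ^ E a : ℕ) : ZMod (r a))) := by
  have h1 := FCz.pow hr (FCz.cast hr (FC.const 2)) (FC.twoPow hE)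
  refine h1.congr fun a _ => ?_
  rw [Nat.cast_pow]

end Vale.Agent.P337

end

section

/-!
P337, complexity side: sums over vectors.
-/

namespace Vale.Agent.P337

open Vale.Agent.Lib.Common.PolyTime

variable {α β : Type} [TEnc α] [TEnc β]

variable {r : α → ℕ}

namespace FCzVecAux

theorem bval_drop (l : List Bool) (k : ℕ) : bval (l.drop k) = bval l / 2 ^ k := by
  induction k generalizing l with
  | zero => simp
  | succ k ih =>
    cases l with
    | nil => simp [bval]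
    | cons b l =>
      rw [List.drop_succ_cons, ih, pow_succ', ← Nat.div_div_eq_div_mul]
      congr 1
      show bval l = (b.toNat + 2 * bval l) / 2
      have := Bool.toNat_lt b
      omega

theorem bval_take (l : List Bool) (k : ℕ) : bval (l.take k) = bval l % 2 ^ k := by
  induction k generalizing l with
  | zero => simp [bval, Nat.mod_one]
  | succ k ih =>
    cases l with
    | nil => simp [bval]
    | cons b l =>
      rw [List.take_succ_cons]
      show b.toNat + 2 * bval (l.take k) = (b.toNat + 2 * bval l) % 2 ^ (k + 1)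
      rw [ih, pow_succ', Nat.mod_mul]
      have hb := Bool.toNat_lt b
      have h1 : (b.toNat + 2 * bval l) % 2 = b.toNat := by omega
      have h2 : (b.toNat + 2 * bval l) / 2 = bval l := by omega
      rw [h1, h2]

/-- the vector coded by a number -/
def dec (m N v : ℕ) : List BNat :=
  (List.range N).map fun i => ⟨v / (2 ^ m) ^ i % 2 ^ m⟩

theorem dec_eq (m N v : ℕ) : dec m N v =
    (List.range N).map fun i => ⟨bval (((Nat.bits v).drop (m * i)).take m)⟩ := by
  unfold dec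
  refine List.map_congr_left fun i _ => ?_
  rw [bval_take, bval_drop, bval_bits, pow_mul]

theorem vec_dec (m N v i : ℕ) :
    vec (dec m N v) i = if i < N then v / (2 ^ m) ^ i % 2 ^ m else 0 := by
  unfold vec dec
  rw [List.getD_eq_getElem?_getD, List.getElem?_map]
  by_cases h : i < N
  · rw [List.getElem?_range h, if_pos h]
    rfl
  · rw [if_neg h, List.getElem?_eq_none (by rw [List.length_range]; omega)]
    rfl

theorem PT_dec {m N : α → ℕ} (hm : PT m) (hN : PT N) {v : α → BNat} (hv : PT v) :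
    PT (fun a => dec (m a) (N a) (v a).v) := by
  have h : (fun a => dec (m a) (N a) (v a).v) = fun a => (List.range (N a)).map fun i =>
      (⟨bval (((Nat.bits (v a).v).drop (m a * i)).take (m a))⟩ : BNat) := by
    funext a
    exact dec_eq _ _ _
  rw [h]
  refine PT.map (f := fun a i =>
    (⟨bval (((Nat.bits (v a).v).drop (m a * i)).take (m a))⟩ : BNat)) ?_ (PT.range hN)
  have hm' : PT (fun p : α × ℕ => m p.1) := hm.comp (PT.fst PT.id)
  have hv' : PT (fun p : α × ℕ => v p.1) := hv.comp (PT.fst PT.id)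
  exact PT_ofBits (PT.take (PT.drop (PT_bits hv') (PT.mul hm' (PT.snd PT.id))) hm')

/-- the entries of the vector coded by `v` are in `[lo, hi)` -/
def Good (m N lo hi v : ℕ) : Prop :=
  ∀ i < N, lo ≤ vec (dec m N v) i ∧ vec (dec m N v) i < hi

open Classical in
theorem sum_eq {A : Type} [AddCommMonoid A] (m N lo hi : ℕ) (h : hi ≤ 2 ^ m)
    (f : (ℕ → ℕ) → A) :
    ∑ v ∈ Finset.range ((2 ^ m) ^ N),
      (if Good m N lo hi v then f (vec (dec m N v)) else 0) =
    ∑ z ∈ Fintype.piFinset (fun _ : Fin N => Finset.Ico lo hi), f (Prm.ext z) := by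
  rw [Finset.sum_range, ← Equiv.sum_comp (finFunctionFinEquiv (m := 2 ^ m) (n := N))]
  have key : ∀ w : Fin N → Fin (2 ^ m), vec (dec m N (finFunctionFinEquiv w : Fin _)) =
      Prm.ext (fun i => (w i : ℕ)) := by
    intro w
    funext i
    rw [vec_dec]
    unfold Prm.ext
    by_cases hi' : i < N
    · rw [if_pos hi', dif_pos hi']
      have h1 : (finFunctionFinEquiv.symm (finFunctionFinEquiv w)) ⟨i, hi'⟩ = w ⟨i, hi'⟩ := by
        rw [Equiv.symm_apply_apply]
      exact congrArg Fin.val h1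
    · rw [if_neg hi', dif_neg hi']
  have key2 : ∀ w : Fin N → Fin (2 ^ m),
      Good m N lo hi (finFunctionFinEquiv w : Fin _) ↔
        ∀ i : Fin N, (w i : ℕ) ∈ Finset.Ico lo hi := by
    intro w
    unfold Good
    rw [key]
    constructor
    · intro hw i
      have h1 := hw i i.2
      have h2 : Prm.ext (fun i => (w i : ℕ)) i = (w i : ℕ) := by
        unfold Prm.ext
        rw [dif_pos i.2]
      rw [h2] at h1
      exact Finset.mem_Ico.2 h1
    · intro hw i hi'
      have h2 : Prm.ext (fun i => (w i : ℕ)) i = (w ⟨i, hi'⟩ : ℕ) := by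
        unfold Prm.ext
        rw [dif_pos hi']
      rw [h2]
      exact Finset.mem_Ico.1 (hw ⟨i, hi'⟩)
  simp only [key2, key]
  rw [← Finset.sum_filter]
  refine Finset.sum_bij' (i := fun w _ => fun i => (w i : ℕ))
    (j := fun z hz => fun i => ⟨z i, lt_of_lt_of_le
      (Finset.mem_Ico.1 (Fintype.mem_piFinset.1 hz i)).2 h⟩) ?_ ?_ ?_ ?_ ?_
  · intro w hw
    exact Fintype.mem_piFinset.2 (Finset.mem_filter.1 hw).2
  · intro z hz
    exact Finset.mem_filter.2 ⟨Finset.mem_univ _, fun i => Fintype.mem_piFinset.1 hz i⟩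
  · intro w _
    rfl
  · intro z _
    rfl
  · intro w _
    rfl

end FCzVecAux

theorem FC.vec {l : α → List BNat} (hl : PT l) {i : α → ℕ} (hi : FC i) :
    FC (fun a => vec (l a) (i a)) := by
  refine FC.subst (g := fun a n => Vale.Agent.P337.vec (l a) n) ?_ hi
  have hl' : PT (fun p : α × BNat => l p.1) := hl.comp (PT.fst PT.id)
  have h1 : PT (fun p : α × BNat => (l p.1).getD (min p.2.v (l p.1).length) ⟨0⟩) :=
    PT.getD hl' (PT_cap (PT.snd PT.id) (PT.length hl')) (PT.const _)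
  refine (FC.of_PT h1).congr fun p => ?_
  unfold Vale.Agent.P337.vec
  rcases Nat.lt_or_ge p.2.v (l p.1).length with h | h
  · rw [min_eq_left h.le]
  · rw [min_eq_right h, List.getD_eq_default _ _ h, List.getD_eq_default _ _ le_rfl]

/-- sums over vectors of numbers, represented by lists -/
theorem FCz.sum_vec (hr : FC r) {N : α → ℕ} (hN : PT N) {lo hi : α → ℕ} (hlo : FC lo)
    (hhi : FC hi) {F : ∀ a, (ℕ → ℕ) → ZMod (r a)}
    (hF : FCz (fun p : α × List BNat => r p.1) (fun p => F p.1 (vec p.2))) :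
    FCz r (fun a => ∑ z ∈ Fintype.piFinset (fun _ : Fin (N a) => Finset.Ico (lo a) (hi a)),
      F a (Prm.ext z)) := by
  classical
  obtain ⟨⟨m, hm, hlt⟩, hhi'⟩ := id hhi
  have hm' : PT (fun p : α × BNat => m p.1) := hm.comp (PT.fst PT.id)
  have hN' : PT (fun p : α × BNat => N p.1) := hN.comp (PT.fst PT.id)
  have hdec : PT (fun p : α × BNat => FCzVecAux.dec (m p.1) (N p.1) p.2.v) :=
    FCzVecAux.PT_dec hm' hN' (PT.snd PT.id)
  have hr' : FC (fun p : α × BNat => r p.1) := hr.pre (PT.fst PT.id)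
  -- the summand
  have hG : FCz (fun p : α × BNat => r p.1)
      (fun p => F p.1 (vec (FCzVecAux.dec (m p.1) (N p.1) p.2.v))) :=
    FCz.pre (r := fun p : α × List BNat => r p.1) (F := fun p => F p.1 (vec p.2)) hF
      (φ := fun p : α × BNat => (p.1, FCzVecAux.dec (m p.1) (N p.1) p.2.v))
      (PT.pair (PT.fst PT.id) hdec)
  have hzero : FCz (fun p : α × BNat => r p.1) (fun p => (0 : ZMod (r p.1))) :=
    (FCz.cast hr' (FC.const 0)).congr fun p _ => Nat.cast_zero
  -- the condition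
  have hdec2 : PT (fun p : (α × BNat) × BNat => FCzVecAux.dec (m p.1.1) (N p.1.1) p.1.2.v) :=
    hdec.comp (PT.fst PT.id)
  have hidx : FC (fun p : (α × BNat) × BNat => p.2.v) := FC.of_PT (PT.snd PT.id)
  have hv2 : FC (fun p : (α × BNat) × BNat =>
      vec (FCzVecAux.dec (m p.1.1) (N p.1.1) p.1.2.v) p.2.v) := FC.vec hdec2 hidx
  have hlo2 : FC (fun p : (α × BNat) × BNat => lo p.1.1) := hlo.pre (PT.fst (PT.fst PT.id))
  have hhi2 : FC (fun p : (α × BNat) × BNat => hi p.1.1) := hhi.pre (PT.fst (PT.fst PT.id))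
  have hc : CHp (fun p : α × BNat =>
      FCzVecAux.Good (m p.1) (N p.1) (lo p.1) (hi p.1) p.2.v) :=
    CHp.forall_lt (M := fun p : α × BNat => N p.1) (FC.of_PTnat hN')
      (B := fun p i => lo p.1 ≤ vec (FCzVecAux.dec (m p.1) (N p.1) p.2.v) i ∧
        vec (FCzVecAux.dec (m p.1) (N p.1) p.2.v) i < hi p.1)
      ((CHp.le hlo2 hv2).and (CHp.lt hv2 hhi2))
  have hM : FC (fun a => (2 ^ m a) ^ N a) :=
    (FC.twoPow (PT.mul hm hN)).congr fun a => by rw [pow_mul]
  have hS := FCz.sum_range hr hM (F := fun a v =>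
    if FCzVecAux.Good (m a) (N a) (lo a) (hi a) v then
      F a (vec (FCzVecAux.dec (m a) (N a) v)) else 0) (FCz.ite hc hG hzero)
  refine hS.congr fun a _ => ?_
  have h1 := FCzVecAux.sum_eq (m a) (N a) (lo a) (hi a) (hlt a).le (F a)
  rw [← h1]

end Vale.Agent.P337

end

section

/-!
P337, complexity side: determinants.
-/

namespace Vale.Agent.P337

open Vale.Agent.Lib.Common.PolyTime

variable {α β : Type} [TEnc α] [TEnc β]

variable {r : α → ℕ}

namespace FCzDetAux

open Finset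

/-- sign of an ordered pair -/
def sg (R : Type) [CommRing R] (x y : ℕ) : R := if x < y then 1 else if x = y then 0 else -1

/-- the summand of the determinant -/
def term (R : Type) [CommRing R] (N : ℕ) (A : ℕ → ℕ → R) (z : ℕ → ℕ) : R :=
  ∏ j ∈ range N, ((∏ i ∈ range N, if i < j then sg R (z i) (z j) else 1) * A j (min (z j) N))

theorem sg_self (R : Type) [CommRing R] (x : ℕ) : sg R x x = 0 := by
  unfold sg
  rw [if_neg (lt_irrefl x), if_pos rfl]

theorem sg_ne (R : Type) [CommRing R] {x y : ℕ} (h : x ≠ y) :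
    sg R x y = if x < y then 1 else -1 := by
  unfold sg
  rw [if_neg h]

theorem ext_fin {N : ℕ} (z : Fin N → ℕ) (i : Fin N) : Prm.ext z i = z i := by
  unfold Prm.ext
  rw [dif_pos i.2]

theorem term_ext (R : Type) [CommRing R] {N : ℕ} (A : ℕ → ℕ → R) (z : Fin N → ℕ)
    (hz : ∀ i, z i < N) : term R N A (Prm.ext z) =
      ∏ j : Fin N, ((∏ i : Fin N, if i < j then sg R (z i) (z j) else 1) * A j (z j)) := by
  unfold term
  rw [Finset.prod_range]
  refine Finset.prod_congr rfl fun j _ => ?_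
  rw [Finset.prod_range, ext_fin, min_eq_left (hz j).le]
  congr 1
  refine Finset.prod_congr rfl fun i _ => ?_
  rw [ext_fin]
  rfl

theorem term_zero (R : Type) [CommRing R] {N : ℕ} (A : ℕ → ℕ → R) (z : Fin N → ℕ)
    (hz : ∀ i, z i < N) {i j : Fin N} (hij : i < j) (h : z i = z j) :
    term R N A (Prm.ext z) = 0 := by
  rw [term_ext R A z hz]
  apply Finset.prod_eq_zero (Finset.mem_univ j)
  have h1 : (∏ i : Fin N, if i < j then sg R (z i) (z j) else 1) = 0 := by
    apply Finset.prod_eq_zero (Finset.mem_univ i)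
    rw [if_pos hij, h, sg_self]
  rw [h1, zero_mul]

theorem term_perm (R : Type) [CommRing R] {N : ℕ} (A : ℕ → ℕ → R) (σ : Equiv.Perm (Fin N)) :
    term R N A (Prm.ext (fun i => (σ i : ℕ))) =
      (((Equiv.Perm.sign σ : ℤˣ) : ℤ) : R) * ∏ j : Fin N, A j (σ j) := by
  rw [term_ext R A _ (fun i => (σ i).2), Finset.prod_mul_distrib]
  congr 1
  rw [Equiv.Perm.sign_eq_prod_prod_Iio]
  rw [Units.coe_prod, Int.cast_prod]
  refine Finset.prod_congr rfl fun j _ => ?_
  rw [Units.coe_prod, Int.cast_prod]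
  rw [← Finset.prod_filter]
  have h1 : Finset.univ.filter (fun i : Fin N => i < j) = Finset.Iio j := by
    ext i
    simp
  rw [h1]
  refine Finset.prod_congr rfl fun i hi => ?_
  have hij : i < j := Finset.mem_Iio.1 hi
  have hne : (σ i : ℕ) ≠ (σ j : ℕ) := by
    intro h
    exact hij.ne (σ.injective (Fin.ext h))
  rw [sg_ne R hne]
  by_cases hlt : σ i < σ j
  · have hlt' : (σ i : ℕ) < (σ j : ℕ) := hlt
    rw [if_pos hlt, if_pos hlt']
    simp
  · have hlt' : ¬ (σ i : ℕ) < (σ j : ℕ) := hlt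
    rw [if_neg hlt, if_neg hlt']
    simp

theorem det_eq (R : Type) [CommRing R] (N : ℕ) (A : ℕ → ℕ → R) :
    Matrix.det (Matrix.of fun i j : Fin N => A i j) =
      ∑ z ∈ Fintype.piFinset (fun _ : Fin N => Finset.Ico 0 N), term R N A (Prm.ext z) := by
  rw [← Matrix.det_transpose, Matrix.det_apply']
  refine Finset.sum_of_injOn (fun σ : Equiv.Perm (Fin N) => fun i => (σ i : ℕ)) ?_ ?_ ?_ ?_
  · intro σ _ τ _ h
    ext i
    exact congrFun h i
  · intro σ _
    rw [Finset.mem_coe, Fintype.mem_piFinset]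
    intro i
    exact Finset.mem_Ico.2 ⟨Nat.zero_le _, (σ i).2⟩
  · intro z hz hnot
    rw [Fintype.mem_piFinset] at hz
    have hlt : ∀ i, z i < N := fun i => (Finset.mem_Ico.1 (hz i)).2
    have hninj : ¬ Function.Injective (fun i => (⟨z i, hlt i⟩ : Fin N)) := by
      intro hinj
      apply hnot
      refine ⟨Equiv.ofBijective _ (Finite.injective_iff_bijective.1 hinj), ?_, ?_⟩
      · simp
      · funext i
        rfl
    rw [Function.not_injective_iff] at hninj
    obtain ⟨i, j, hij, hne⟩ := hninj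
    have hij' : z i = z j := congrArg Fin.val hij
    rcases lt_or_gt_of_ne hne with h | h
    · exact term_zero R A z hlt h hij'
    · exact term_zero R A z hlt h hij'.symm
  · intro σ _
    rw [term_perm R A σ]
    rfl

end FCzDetAux

theorem FCz.det (hr : FC r) {N : α → ℕ} (hN : PT N) {A : ∀ a, ℕ → ℕ → ZMod (r a)}
    (hA : FCz (fun p : α × (ℕ × ℕ) => r p.1) (fun p => A p.1 p.2.1 p.2.2)) :
    FCz r (fun a => Matrix.det (Matrix.of fun i j : Fin (N a) => A a i j)) := by
  have h0 : FCz r (fun a => ∑ z ∈ Fintype.piFinset (fun _ : Fin (N a) => Finset.Ico 0 (N a)),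
      FCzDetAux.term (ZMod (r a)) (N a) (A a) (Prm.ext z)) := by
    refine FCz.sum_vec hr hN (FC.const 0) (FC.of_PTnat hN)
      (F := fun a z => FCzDetAux.term (ZMod (r a)) (N a) (A a) z) ?_
    -- products over `j`
    have hr1 : FC (fun p : α × List BNat => r p.1) := hr.pre (PT.fst PT.id)
    have hN1 : PT (fun p : α × List BNat => N p.1) := hN.comp (PT.fst PT.id)
    refine FCz.prod_unary hr1 hN1 (F := fun p j =>
      ((∏ i ∈ Finset.range (N p.1), if i < j then
        FCzDetAux.sg (ZMod (r p.1)) (vec p.2 i) (vec p.2 j) else 1) *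
          A p.1 j (min (vec p.2 j) (N p.1)))) ?_
    have hr2 : FC (fun q : (α × List BNat) × ℕ => r q.1.1) := hr.pre (PT.fst (PT.fst PT.id))
    have hN2 : PT (fun q : (α × List BNat) × ℕ => N q.1.1) := hN.comp (PT.fst (PT.fst PT.id))
    refine FCz.mul hr2 ?_ ?_
    · refine FCz.prod_unary hr2 hN2 (F := fun q i => if i < q.2 then
        FCzDetAux.sg (ZMod (r q.1.1)) (vec q.1.2 i) (vec q.1.2 q.2) else 1) ?_
      have hr3 : FC (fun t : ((α × List BNat) × ℕ) × ℕ => r t.1.1.1) :=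
        hr.pre (PT.fst (PT.fst (PT.fst PT.id)))
      have hl3 : PT (fun t : ((α × List BNat) × ℕ) × ℕ => t.1.1.2) := by fun_prop
      have hi3 : FC (fun t : ((α × List BNat) × ℕ) × ℕ => t.2) := FC.of_PTnat (by fun_prop)
      have hj3 : FC (fun t : ((α × List BNat) × ℕ) × ℕ => t.1.2) := FC.of_PTnat (by fun_prop)
      have hvi : FC (fun t : ((α × List BNat) × ℕ) × ℕ => vec t.1.1.2 t.2) := FC.vec hl3 hi3
      have hvj : FC (fun t : ((α × List BNat) × ℕ) × ℕ => vec t.1.1.2 t.1.2) := FC.vec hl3 hj3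
      have hone : FCz (fun t : ((α × List BNat) × ℕ) × ℕ => r t.1.1.1) (fun t => 1) :=
        (FCz.cast hr3 (FC.const 1)).congr fun p _ => Nat.cast_one
      have hzero : FCz (fun t : ((α × List BNat) × ℕ) × ℕ => r t.1.1.1) (fun t => 0) :=
        (FCz.cast hr3 (FC.const 0)).congr fun p _ => Nat.cast_zero
      have hmone : FCz (fun t : ((α × List BNat) × ℕ) × ℕ => r t.1.1.1) (fun t => -1) :=
        FCz.neg hr3 hone
      refine (FCz.ite (CHp.lt hi3 hj3) (FCz.ite (CHp.lt hvi hvj) hone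
        (FCz.ite (CHp.eq hvi hvj) hzero hmone)) hone).congr fun t _ => ?_
      unfold FCzDetAux.sg
      by_cases h1 : t.2 < t.1.2
      · by_cases h2 : vec t.1.1.2 t.2 < vec t.1.1.2 t.1.2
        · simp only [h1, h2, if_true]
        · by_cases h3 : vec t.1.1.2 t.2 = vec t.1.1.2 t.1.2
          · have h2' : ¬ vec t.1.1.2 t.1.2 < vec t.1.1.2 t.1.2 := lt_irrefl _
            simp only [h1, h3, h2', if_true, if_false]
          · simp only [h1, h2, h3, if_true, if_false]
      · simp only [h1, if_false]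
    · have hl2 : PT (fun q : (α × List BNat) × ℕ => q.1.2) := by fun_prop
      have hj2 : PT (fun q : (α × List BNat) × ℕ => q.2) := by fun_prop
      have hv : PT (fun q : (α × List BNat) × ℕ => q.1.2.getD q.2 (⟨0⟩ : BNat)) :=
        PT.getD hl2 hj2 (PT.const _)
      have hcap : PT (fun q : (α × List BNat) × ℕ => min (vec q.1.2 q.2) (N q.1.1)) :=
        PT_cap hv hN2
      exact FCz.pre (r := fun p : α × (ℕ × ℕ) => r p.1) (F := fun p => A p.1 p.2.1 p.2.2) hA
        (φ := fun q : (α × List BNat) × ℕ => (q.1.1, (q.2, min (vec q.1.2 q.2) (N q.1.1))))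
        (PT.pair (by fun_prop) (PT.pair hj2 hcap))
  refine h0.congr fun a _ => ?_
  rw [FCzDetAux.det_eq]

end Vale.Agent.P337

end

section

/-!
P337, complexity side: families of parameters.
-/

namespace Vale.Agent.P337

open Vale.Agent.Lib.Common.PolyTime

variable {α β : Type} [TEnc α] [TEnc β]

/-- families of parameters computable in the counting hierarchy -/
structure CPrm (P : α → Prm) : Prop where
  N : PT (fun x => (P x).N)
  e : PT (fun x => (P x).e)
  EL : PT (fun x => (P x).EL)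
  Es : PT (fun x => (P x).Es)
  ES : PT (fun x => (P x).ES)
  EC : PT (fun x => (P x).EC)
  qs : PT (fun x => (P x).qs)
  K : FC (fun x => (P x).K)
  M : FC (fun x => (P x).M)
  kap : FC (fun x => (P x).kap)
  a : FC (fun x => (P x).a)
  a' : FC (fun x => (P x).a')
  Z : FC (fun x => (P x).Z)
  Th : FC (fun x => (P x).Th)
  w0 : FC (fun x => (P x).w0)
  rho : FC (fun x => (P x).rho)
  q : FC (fun x => (P x).q)
  r : FC (fun x => (P x).r)

theorem CPrm.pre {P : α → Prm} (hP : CPrm P) {φ : β → α} (hφ : PT φ) :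
    CPrm (fun b => P (φ b)) where
  N := PT.comp (f := fun x => (P x).N) hP.N hφ
  e := PT.comp (f := fun x => (P x).e) hP.e hφ
  EL := PT.comp (f := fun x => (P x).EL) hP.EL hφ
  Es := PT.comp (f := fun x => (P x).Es) hP.Es hφ
  ES := PT.comp (f := fun x => (P x).ES) hP.ES hφ
  EC := PT.comp (f := fun x => (P x).EC) hP.EC hφ
  qs := PT.comp (f := fun x => (P x).qs) hP.qs hφ
  K := hP.K.pre hφ
  M := hP.M.pre hφ
  kap := hP.kap.pre hφ
  a := hP.a.pre hφ
  a' := hP.a'.pre hφ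
  Z := hP.Z.pre hφ
  Th := hP.Th.pre hφ
  w0 := hP.w0.pre hφ
  rho := hP.rho.pre hφ
  q := hP.q.pre hφ
  r := hP.r.pre hφ

end Vale.Agent.P337

end

section

/-!
P337, complexity side: evaluation of sparse polynomials and their derivatives.
-/

namespace Vale.Agent.P337

open Vale.Agent.Lib.Common.PolyTime

variable {α β : Type} [TEnc α] [TEnc β]

/-! ### derivatives of internal polynomials -/

/-- product of a binary and a unary number -/
theorem formA_PT_bmulUnary {f : α → BNat} {g : α → ℕ} (hf : PT f) (hg : PT g) :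
    PT (fun a => (⟨(f a).v * g a⟩ : BNat)) := by
  have h1 : PT (fun a => sz (f a)) := PT.comp PT_sz hf
  have h2 : PT (fun a => (⟨2 ^ (sz (f a) + g a)⟩ : BNat)) := PT_twoPow (PT.add h1 hg)
  have h3 := PT_bmulmod hf (PT_ofNat hg) h2
  have h4 : (fun a => (⟨(f a).v * g a⟩ : BNat)) =
      fun a => (⟨(f a).v * (⟨g a⟩ : BNat).v % (⟨2 ^ (sz (f a) + g a)⟩ : BNat).v⟩ : BNat) := by
    funext a
    have h5 : (f a).v * g a < 2 ^ (sz (f a) + g a) := by
      rw [pow_add]
      exact Nat.mul_lt_mul'' (lt_two_pow_sz (f a)) Nat.lt_two_pow_self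
    change (⟨(f a).v * g a⟩ : BNat) = ⟨(f a).v * g a % 2 ^ (sz (f a) + g a)⟩
    rw [Nat.mod_eq_of_lt h5]
  rw [h4]
  exact h3

/-- derivative of a monomial with respect to the variable `i` -/
def formA_dm (i : ℕ) (m : IMono) : IMono :=
  ((m.1.1, ⟨m.1.2.v * m.2.getD i 0⟩), m.2.set i (m.2.getD i 0 - 1))

/-- derivative of an internal polynomial with respect to the variable `i` -/
def formA_dp (i : ℕ) (q : IPoly) : IPoly := List.map (fun m => formA_dm i m) q

theorem formA_PT_dp {i : α → ℕ} (hi : PT i) {q : α → IPoly} (hq : PT q) :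
    PT (fun x => formA_dp (i x) (q x)) := by
  have h1 : PT (fun p : α × IMono => formA_dm (i p.1) p.2) := by
    have hi' : PT (fun p : α × IMono => i p.1) := hi.comp (PT.fst PT.id)
    have hm : PT (fun p : α × IMono => p.2) := PT.snd PT.id
    have he : PT (fun p : α × IMono => p.2.2.getD (i p.1) 0) :=
      PT.getD (PT.snd hm) hi' (PT.const 0)
    exact PT.pair (PT.pair (PT.fst (PT.fst hm))
      (formA_PT_bmulUnary (PT.snd (PT.fst hm)) he))
      (PT.set (PT.snd hm) hi' (PT.sub he (PT.const 1)))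
  exact PT.map (f := fun a m => formA_dm (i a) m) h1 hq

theorem formA_getD_set (l : List ℕ) (i j d : ℕ) (h : i < l.length) :
    (l.set i d).getD j 0 = if j = i then d else l.getD j 0 := by
  rw [List.getD_eq_getElem?_getD, List.getElem?_set, List.getD_eq_getElem?_getD]
  by_cases hij : i = j
  · subst hij
    simp [h]
  · rw [if_neg hij, if_neg (fun h => hij h.symm)]

theorem formA_toMv_dm (N i : ℕ) (hi : i < N) (m : IMono) :
    IMono.toMv N (formA_dm i m) = MvPolynomial.pderiv ⟨i, hi⟩ (IMono.toMv N m) := by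
  rw [IMono.toMv, IMono.toMv, MvPolynomial.pderiv_monomial]
  have hc : IMono.coef (formA_dm i m) = IMono.coef m * (m.2.getD i 0 : ℕ) := by
    obtain ⟨⟨b, c⟩, l⟩ := m
    cases b
    · simp [IMono.coef, formA_dm]
    · simp [IMono.coef, formA_dm]
  have he : (Finsupp.equivFunOnFinite.symm fun k : Fin N => m.2.getD (k : ℕ) 0) ⟨i, hi⟩ =
      m.2.getD i 0 := rfl
  rw [he, hc]
  by_cases h0 : m.2.getD i 0 = 0
  · rw [h0]
    simp
  · have hlen : i < m.2.length := by
      by_contra hcon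
      push Not at hcon
      exact h0 (List.getD_eq_default _ _ hcon)
    congr 2
    ext k
    rw [Finsupp.tsub_apply, Finsupp.single_apply]
    change (m.2.set i (m.2.getD i 0 - 1)).getD (k : ℕ) 0 = m.2.getD (k : ℕ) 0 - _
    rw [formA_getD_set _ _ _ _ hlen]
    by_cases hk : (k : ℕ) = i
    · rw [if_pos hk, if_pos (Fin.ext hk.symm), hk]
    · rw [if_neg hk, if_neg (fun h => hk (by rw [← h]))]
      simp

theorem formA_toMv_dp (N i : ℕ) (hi : i < N) (q : IPoly) :
    IPoly.toMv N (formA_dp i q) = MvPolynomial.pderiv ⟨i, hi⟩ (IPoly.toMv N q) := by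
  induction q with
  | nil => simp [IPoly.toMv, formA_dp]
  | cons m q ih =>
    have h1 : IPoly.toMv N (formA_dp i (m :: q)) =
        IMono.toMv N (formA_dm i m) + IPoly.toMv N (formA_dp i q) := by
      simp [IPoly.toMv, formA_dp]
    have h2 : IPoly.toMv N (m :: q) = IMono.toMv N m + IPoly.toMv N q := by
      simp [IPoly.toMv]
    rw [h1, h2, map_add, ih, formA_toMv_dm N i hi]

/-! ### the value as an explicit sum -/

theorem formA_sum_list {R : Type} [AddCommMonoid R] {γ : Type} (f : γ → R) (d : γ) (l : List γ) :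
    (List.map f l).sum = ∑ k ∈ Finset.range l.length, f (l.getD k d) := by
  induction l with
  | nil => simp
  | cons a l ih =>
    rw [List.length_cons, Finset.sum_range_succ', List.map_cons, List.sum_cons, ih]
    simp [add_comm]

theorem formA_eval (R : Type) [CommRing R] (N : ℕ) (g : ℕ → R) (q : IPoly) :
    MvPolynomial.eval (fun i : Fin N => g i)
      (MvPolynomial.map (Int.castRingHom R) (IPoly.toMv N q)) =
      ∑ k ∈ Finset.range q.length, ((IMono.coef (q.getD k ((false, ⟨0⟩), []))) : R) *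
        ∏ j ∈ Finset.range N, g j ^ (q.getD k ((false, ⟨0⟩), [])).2.getD j 0 := by
  rw [← formA_sum_list (fun m : IMono => ((IMono.coef m : ℤ) : R) *
    ∏ j ∈ Finset.range N, g j ^ m.2.getD j 0)]
  induction q with
  | nil => simp [IPoly.toMv]
  | cons m q ih =>
    have h2 : IPoly.toMv N (m :: q) = IMono.toMv N m + IPoly.toMv N q := by
      simp [IPoly.toMv]
    rw [h2, map_add, map_add, ih, List.map_cons, List.sum_cons]
    congr 1
    rw [IMono.toMv, MvPolynomial.map_monomial, MvPolynomial.eval_monomial, Finset.prod_range,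
      Finsupp.prod_fintype _ _ (fun i => pow_zero _)]
    rfl

theorem FCz_toMv {r : α → ℕ} (hr : FC r) {N : α → ℕ} (hN : PT N) {q : α → IPoly} (hq : PT q)
    {z : α → List BNat} (hz : PT z) :
    FCz r (fun x => MvPolynomial.eval (fun i : Fin (N x) => ((vec (z x) i : ℕ) : ZMod (r x)))
      (MvPolynomial.map (Int.castRingHom _) (IPoly.toMv (N x) (q x)))) := by
  have hr1 : FC (fun p : α × ℕ => r p.1) := hr.pre (PT.fst PT.id)
  have hr2 : FC (fun s : (α × ℕ) × ℕ => r s.1.1) := hr1.pre (PT.fst PT.id)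
  have hm : PT (fun p : α × ℕ => (q p.1).getD p.2 ((false, ⟨0⟩), [])) :=
    PT.getD (hq.comp (PT.fst PT.id)) (PT.snd PT.id) (PT.const _)
  have hcoef : FCz (fun p : α × ℕ => r p.1)
      (fun p => ((IMono.coef ((q p.1).getD p.2 ((false, ⟨0⟩), [])) : ℤ) : ZMod (r p.1))) := by
    have hv : FCz (fun p : α × ℕ => r p.1)
        (fun p => ((((q p.1).getD p.2 ((false, ⟨0⟩), [])).1.2.v : ℕ) : ZMod (r p.1))) :=
      FCz.cast hr1 (FC.of_PT (PT.snd (PT.fst hm)))
    have hc : CHp (fun p : α × ℕ => ((q p.1).getD p.2 ((false, ⟨0⟩), [])).1.1 = true) :=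
      CHp.of_PT (PT.fst (PT.fst hm))
    refine FCz.congr (FCz.ite hc (FCz.neg hr1 hv) hv) ?_
    intro p _
    rw [IMono.coef]
    by_cases h : ((q p.1).getD p.2 ((false, ⟨0⟩), [])).1.1 = true
    · rw [if_pos h, if_pos h]
      push_cast
      ring
    · rw [if_neg h, if_neg h]
      push_cast
      ring
  have hprod : FCz (fun p : α × ℕ => r p.1)
      (fun p => ∏ j ∈ Finset.range (N p.1), ((vec (z p.1) j : ℕ) : ZMod (r p.1)) ^
        ((q p.1).getD p.2 ((false, ⟨0⟩), [])).2.getD j 0) := by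
    refine FCz.prod_unary (r := fun p : α × ℕ => r p.1) hr1 (M := fun p : α × ℕ => N p.1)
      (hN.comp (PT.fst PT.id))
      (F := fun p j => ((vec (z p.1) j : ℕ) : ZMod (r p.1)) ^
        ((q p.1).getD p.2 ((false, ⟨0⟩), [])).2.getD j 0) ?_
    have hvec : PT (fun s : (α × ℕ) × ℕ => (z s.1.1).getD s.2 ⟨0⟩) :=
      PT.getD (hz.comp (PT.fst (PT.fst PT.id))) (PT.snd PT.id) (PT.const _)
    have hexp : PT (fun s : (α × ℕ) × ℕ =>
        ((q s.1.1).getD s.1.2 ((false, ⟨0⟩), [])).2.getD s.2 0) :=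
      PT.getD (PT.snd (hm.comp (PT.fst PT.id))) (PT.snd PT.id) (PT.const 0)
    exact FCz.pow hr2 (FCz.cast hr2 (FC.of_PT hvec)) (FC.of_PTnat hexp)
  have hsum := FCz.sum_unary hr (M := fun x => (q x).length) (PT.length hq)
    (F := fun x k => ((IMono.coef ((q x).getD k ((false, ⟨0⟩), [])) : ℤ) : ZMod (r x)) *
      ∏ j ∈ Finset.range (N x), ((vec (z x) j : ℕ) : ZMod (r x)) ^
        ((q x).getD k ((false, ⟨0⟩), [])).2.getD j 0) (FCz.mul hr1 hcoef hprod)
  refine FCz.congr hsum ?_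
  intro x _
  exact (formA_eval (ZMod (r x)) (N x) (fun j => ((vec (z x) j : ℕ) : ZMod (r x))) (q x)).symm

theorem FCz_toMv1 {r : α → ℕ} (hr : FC r) {N : α → ℕ} (hN : PT N) {q : α → IPoly} (hq : PT q)
    {z : α → List BNat} (hz : PT z) {i : α → ℕ} (hi : PT i) :
    FCz r (fun x => if h : i x < N x then
      MvPolynomial.eval (fun i : Fin (N x) => ((vec (z x) i : ℕ) : ZMod (r x)))
        (MvPolynomial.map (Int.castRingHom _)
          (MvPolynomial.pderiv ⟨i x, h⟩ (IPoly.toMv (N x) (q x)))) else 0) := by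
  have hc : CHp (fun x => i x < N x) := CHp.of_decide (PT.decide_lt hi hN)
  have h0 : FCz r (fun x => (0 : ZMod (r x))) :=
    FCz.congr (FCz.cast hr (FC.const 0)) (fun x _ => by simp)
  refine FCz.congr (FCz.ite hc (FCz_toMv hr hN (formA_PT_dp hi hq) hz) h0) ?_
  intro x _
  by_cases h : i x < N x
  · rw [if_pos h, dif_pos h, formA_toMv_dp]
  · rw [if_neg h, dif_neg h]

theorem FCz_toMv2 {r : α → ℕ} (hr : FC r) {N : α → ℕ} (hN : PT N) {q : α → IPoly} (hq : PT q)
    {z : α → List BNat} (hz : PT z) {i j : α → ℕ} (hi : PT i) (hj : PT j) :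
    FCz r (fun x => if h : i x < N x then if h' : j x < N x then
      MvPolynomial.eval (fun i : Fin (N x) => ((vec (z x) i : ℕ) : ZMod (r x)))
        (MvPolynomial.map (Int.castRingHom _)
          (MvPolynomial.pderiv ⟨j x, h'⟩
            (MvPolynomial.pderiv ⟨i x, h⟩ (IPoly.toMv (N x) (q x))))) else 0 else 0) := by
  have hc : CHp (fun x => i x < N x) := CHp.of_decide (PT.decide_lt hi hN)
  have h0 : FCz r (fun x => (0 : ZMod (r x))) :=
    FCz.congr (FCz.cast hr (FC.const 0)) (fun x _ => by simp)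
  refine FCz.congr (FCz.ite hc (FCz_toMv1 hr hN (formA_PT_dp hi hq) hz hj) h0) ?_
  intro x _
  by_cases h : i x < N x
  · rw [if_pos h, dif_pos h]
    by_cases h' : j x < N x
    · rw [dif_pos h', dif_pos h', formA_toMv_dp (N x) (i x) h]
    · rw [dif_neg h', dif_neg h']
  · rw [if_neg h, dif_neg h]

end Vale.Agent.P337

end

section

/-!
P337, complexity side: evaluation of the sum of squares.
-/

namespace Vale.Agent.P337

open Vale.Agent.Lib.Common.PolyTime

variable {α β : Type} [TEnc α] [TEnc β]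

/-- sums over lists as sums over ranges -/
theorem list_sum_map_eq_range {ι M : Type} [AddCommMonoid M] (f : ι → M) (d : ι) (l : List ι) :
    (List.map f l).sum = ∑ k ∈ Finset.range l.length, f (l.getD k d) := by
  induction l with
  | nil => simp
  | cons a l ih =>
    rw [List.map_cons, List.sum_cons, List.length_cons, Finset.sum_range_succ', ih, add_comm]
    simp

/-- value of an internal polynomial modulo `r` -/
noncomputable def vq0 (r N : ℕ) (q : IPoly) (l : List BNat) : ZMod r :=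
  MvPolynomial.eval (fun i : Fin N => ((vec l i : ℕ) : ZMod r))
    (MvPolynomial.map (Int.castRingHom _) (IPoly.toMv N q))

/-- value of a partial derivative of an internal polynomial modulo `r` -/
noncomputable def vq1 (r N : ℕ) (q : IPoly) (l : List BNat) (i : ℕ) : ZMod r :=
  if h : i < N then
    MvPolynomial.eval (fun i : Fin N => ((vec l i : ℕ) : ZMod r))
      (MvPolynomial.map (Int.castRingHom _)
        (MvPolynomial.pderiv ⟨i, h⟩ (IPoly.toMv N q))) else 0

/-- value of a second partial derivative of an internal polynomial modulo `r` -/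
noncomputable def vq2 (r N : ℕ) (q : IPoly) (l : List BNat) (i j : ℕ) : ZMod r :=
  if h : i < N then if h' : j < N then
    MvPolynomial.eval (fun i : Fin N => ((vec l i : ℕ) : ZMod r))
      (MvPolynomial.map (Int.castRingHom _)
        (MvPolynomial.pderiv ⟨j, h'⟩
          (MvPolynomial.pderiv ⟨i, h⟩ (IPoly.toMv N q)))) else 0 else 0

theorem ev0_eq_sum (P : Prm) (l : List BNat) :
    P.ev0 (vec l) = ∑ k ∈ Finset.range P.qs.length, vq0 P.r P.N (P.qs.getD k []) l ^ 2 := by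
  unfold Prm.ev0 Prm.p sqs
  rw [list_sum_map_eq_range _ ([] : IPoly), map_sum, map_sum]
  refine Finset.sum_congr rfl fun k _ => ?_
  rw [map_pow, map_pow]
  rfl

theorem ev1_eq_sum (P : Prm) (l : List BNat) (i : ℕ) :
    P.ev1 i (vec l) = ∑ k ∈ Finset.range P.qs.length,
      2 * (vq0 P.r P.N (P.qs.getD k []) l * vq1 P.r P.N (P.qs.getD k []) l i) := by
  unfold Prm.ev1 Prm.p sqs
  by_cases hi : i < P.N
  · rw [dif_pos hi, list_sum_map_eq_range _ ([] : IPoly), map_sum, map_sum, map_sum]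
    refine Finset.sum_congr rfl fun k _ => ?_
    rw [vq1, dif_pos hi, vq0, pow_two, Derivation.leibniz]
    simp only [smul_eq_mul, map_add, map_mul]
    change _ = 2 * (MvPolynomial.eval (P.pt (vec l)) _ * MvPolynomial.eval (P.pt (vec l)) _)
    ring
  · rw [dif_neg hi]
    refine (Finset.sum_eq_zero fun k _ => ?_).symm
    rw [vq1, dif_neg hi, mul_zero, mul_zero]

theorem ev2_eq_sum (P : Prm) (l : List BNat) (i j : ℕ) :
    P.ev2 i j (vec l) = ∑ k ∈ Finset.range P.qs.length,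
      2 * (vq1 P.r P.N (P.qs.getD k []) l j * vq1 P.r P.N (P.qs.getD k []) l i +
        vq0 P.r P.N (P.qs.getD k []) l * vq2 P.r P.N (P.qs.getD k []) l i j) := by
  unfold Prm.ev2 Prm.p sqs
  by_cases hi : i < P.N
  · by_cases hj : j < P.N
    · rw [dif_pos hi, dif_pos hj, list_sum_map_eq_range _ ([] : IPoly), map_sum, map_sum, map_sum,
        map_sum]
      refine Finset.sum_congr rfl fun k _ => ?_
      rw [vq1, dif_pos hj, vq1, dif_pos hi, vq2, dif_pos hi, dif_pos hj, vq0, pow_two,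
        Derivation.leibniz]
      simp only [smul_eq_mul, map_add, map_mul, Derivation.leibniz]
      change _ = 2 * (MvPolynomial.eval (P.pt (vec l)) _ * MvPolynomial.eval (P.pt (vec l)) _ +
        MvPolynomial.eval (P.pt (vec l)) _ * MvPolynomial.eval (P.pt (vec l)) _)
      ring
    · rw [dif_pos hi, dif_neg hj]
      refine (Finset.sum_eq_zero fun k _ => ?_).symm
      rw [vq1, dif_neg hj, vq2, dif_pos hi, dif_neg hj]
      ring
  · rw [dif_neg hi]
    refine (Finset.sum_eq_zero fun k _ => ?_).symm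
    rw [vq2, dif_neg hi, vq1, vq1, dif_neg hi]
    ring

variable {P : α → Prm}

theorem FCz_ev0 (hP : CPrm P) {z : α → List BNat} (hz : PT z) :
    FCz (fun x => (P x).r) (fun x => (P x).ev0 (vec (z x))) := by
  have hP1 : CPrm (fun p : α × ℕ => P p.1) := hP.pre (PT.fst PT.id)
  have hz1 : PT (fun p : α × ℕ => z p.1) := PT.comp (f := z) hz (PT.fst PT.id)
  have hq1 : PT (fun p : α × ℕ => (P p.1).qs.getD p.2 []) :=
    PT.getD hP1.qs (PT.snd PT.id) (PT.const [])
  have h0 : FCz (fun p : α × ℕ => (P p.1).r)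
      (fun p => vq0 (P p.1).r (P p.1).N ((P p.1).qs.getD p.2 []) (z p.1)) :=
    FCz_toMv hP1.r hP1.N hq1 hz1
  refine (FCz.sum_unary hP.r (PT.length hP.qs)
    (F := fun x k => vq0 (P x).r (P x).N ((P x).qs.getD k []) (z x) ^ 2)
    (FCz.pow hP1.r h0 (FC.const 2))).congr fun x _ => (ev0_eq_sum (P x) (z x)).symm

theorem FCz_ev1 (hP : CPrm P) {z : α → List BNat} (hz : PT z) {i : α → ℕ} (hi : PT i) :
    FCz (fun x => (P x).r) (fun x => (P x).ev1 (i x) (vec (z x))) := by
  have hP1 : CPrm (fun p : α × ℕ => P p.1) := hP.pre (PT.fst PT.id)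
  have hz1 : PT (fun p : α × ℕ => z p.1) := PT.comp (f := z) hz (PT.fst PT.id)
  have hi1 : PT (fun p : α × ℕ => i p.1) := PT.comp (f := i) hi (PT.fst PT.id)
  have hq1 : PT (fun p : α × ℕ => (P p.1).qs.getD p.2 []) :=
    PT.getD hP1.qs (PT.snd PT.id) (PT.const [])
  have h0 : FCz (fun p : α × ℕ => (P p.1).r)
      (fun p => vq0 (P p.1).r (P p.1).N ((P p.1).qs.getD p.2 []) (z p.1)) :=
    FCz_toMv hP1.r hP1.N hq1 hz1
  have h1 : FCz (fun p : α × ℕ => (P p.1).r)
      (fun p => vq1 (P p.1).r (P p.1).N ((P p.1).qs.getD p.2 []) (z p.1) (i p.1)) :=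
    FCz_toMv1 hP1.r hP1.N hq1 hz1 hi1
  have h2 : FCz (fun p : α × ℕ => (P p.1).r) (fun _ => 2) :=
    (FCz.cast hP1.r (FC.const 2)).congr fun x _ => by simp
  exact (FCz.sum_unary hP.r (PT.length hP.qs)
    (F := fun x k => 2 * (vq0 (P x).r (P x).N ((P x).qs.getD k []) (z x) *
      vq1 (P x).r (P x).N ((P x).qs.getD k []) (z x) (i x)))
    (FCz.mul hP1.r h2 (FCz.mul hP1.r h0 h1))).congr fun x _ => (ev1_eq_sum (P x) (z x) (i x)).symm

theorem FCz_ev2 (hP : CPrm P) {z : α → List BNat} (hz : PT z) {i j : α → ℕ} (hi : PT i)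
    (hj : PT j) : FCz (fun x => (P x).r) (fun x => (P x).ev2 (i x) (j x) (vec (z x))) := by
  have hP1 : CPrm (fun p : α × ℕ => P p.1) := hP.pre (PT.fst PT.id)
  have hz1 : PT (fun p : α × ℕ => z p.1) := PT.comp (f := z) hz (PT.fst PT.id)
  have hi1 : PT (fun p : α × ℕ => i p.1) := PT.comp (f := i) hi (PT.fst PT.id)
  have hj1 : PT (fun p : α × ℕ => j p.1) := PT.comp (f := j) hj (PT.fst PT.id)
  have hq1 : PT (fun p : α × ℕ => (P p.1).qs.getD p.2 []) :=
    PT.getD hP1.qs (PT.snd PT.id) (PT.const [])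
  have h0 : FCz (fun p : α × ℕ => (P p.1).r)
      (fun p => vq0 (P p.1).r (P p.1).N ((P p.1).qs.getD p.2 []) (z p.1)) :=
    FCz_toMv hP1.r hP1.N hq1 hz1
  have h1 : FCz (fun p : α × ℕ => (P p.1).r)
      (fun p => vq1 (P p.1).r (P p.1).N ((P p.1).qs.getD p.2 []) (z p.1) (i p.1)) :=
    FCz_toMv1 hP1.r hP1.N hq1 hz1 hi1
  have h1' : FCz (fun p : α × ℕ => (P p.1).r)
      (fun p => vq1 (P p.1).r (P p.1).N ((P p.1).qs.getD p.2 []) (z p.1) (j p.1)) :=
    FCz_toMv1 hP1.r hP1.N hq1 hz1 hj1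
  have h11 : FCz (fun p : α × ℕ => (P p.1).r)
      (fun p => vq2 (P p.1).r (P p.1).N ((P p.1).qs.getD p.2 []) (z p.1) (i p.1) (j p.1)) :=
    FCz_toMv2 hP1.r hP1.N hq1 hz1 hi1 hj1
  have h2 : FCz (fun p : α × ℕ => (P p.1).r) (fun _ => 2) :=
    (FCz.cast hP1.r (FC.const 2)).congr fun x _ => by simp
  exact (FCz.sum_unary hP.r (PT.length hP.qs)
    (F := fun x k => 2 * (vq1 (P x).r (P x).N ((P x).qs.getD k []) (z x) (j x) *
        vq1 (P x).r (P x).N ((P x).qs.getD k []) (z x) (i x) +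
      vq0 (P x).r (P x).N ((P x).qs.getD k []) (z x) *
        vq2 (P x).r (P x).N ((P x).qs.getD k []) (z x) (i x) (j x)))
    (FCz.mul hP1.r h2 (FCz.add hP1.r (FCz.mul hP1.r h1' h1) (FCz.mul hP1.r h0 h11)))).congr
      fun x _ => (ev2_eq_sum (P x) (z x) (i x) (j x)).symm

end Vale.Agent.P337

end

section

/-!
P337, complexity side: the gradient system.
-/

namespace Vale.Agent.P337

open Vale.Agent.Lib.Common.PolyTime

variable {α β : Type} [TEnc α] [TEnc β]

variable {P : α → Prm}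

theorem CPrm.PT_d (hP : CPrm P) : PT (fun x => (P x).d) :=
  PT.sub (PT.mul (PT.const 2) hP.e) (PT.const 1)

theorem FC_D (hP : CPrm P) : FC (fun x => (P x).D) :=
  (FC.of_PTnat hP.PT_d).powUnary hP.N

theorem FCz_L (hP : CPrm P) : FCz (fun x => (P x).r) (fun x => (((P x).L : ℕ) : ZMod (P x).r)) :=
  FCz.twoTwoPow hP.r hP.EL

theorem FCz_b (hP : CPrm P) {i : α → ℕ} (hi : PT i) :
    FCz (fun x => (P x).r) (fun x => (((P x).b (i x) : ℕ) : ZMod (P x).r)) := by
  refine (FCz.mul hP.r (FCz.twoTwoPow hP.r hP.Es)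
    (FCz.cast hP.r (FC.twoPow (PT.mul hi hP.PT_d)))).congr fun x _ => ?_
  simp only [Prm.b]
  push_cast
  rfl

theorem FC_w (hP : CPrm P) {k : α → ℕ} (hk : FC k) : FC (fun x => (P x).w (k x)) := by
  classical
  have h0 : CHp (fun x : α => k x = 0) := CHp.eq hk (FC.const 0)
  refine (FC.ite h0 hP.w0 (FC.powmod hP.rho hk hP.q)).congr fun x => ?_
  by_cases h : k x = 0 <;> simp [Prm.w, h]

theorem FCz_gz (hP : CPrm P) {z : α → List BNat} (hz : PT z) :
    FCz (fun x => (P x).r) (fun x => (P x).gz (vec (z x))) := by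
  have hr1 : FC (fun p : α × ℕ => (P p.1).r) := hP.r.pre (PT.fst PT.id)
  have hi1 : PT (fun p : α × ℕ => p.2) := PT.snd PT.id
  have hz1 : PT (fun p : α × ℕ => z p.1) := PT.comp (f := z) hz (PT.fst PT.id)
  have he1 : PT (fun p : α × ℕ => (P p.1).e) := PT.comp (f := fun x => (P x).e) hP.e (PT.fst PT.id)
  have hv1 : FCz (fun p : α × ℕ => (P p.1).r)
      (fun p => ((vec (z p.1) p.2 : ℕ) : ZMod (P p.1).r)) :=
    FCz.cast hr1 (FC.vec hz1 (FC.of_PTnat hi1))
  refine FCz.add hP.r (FCz.add hP.r (FCz.mul hP.r ?_ (FCz_ev0 hP hz)) ?_) ?_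
  · refine (FCz.mul hP.r (FCz.cast hP.r (FC.of_PTnat (PT.mul (PT.const 2) hP.e)))
      (FCz_L hP)).congr fun x _ => ?_
    push_cast
    rfl
  · exact FCz.sum_unary hP.r hP.N (F := fun x i => ((vec (z x) i : ℕ) : ZMod (P x).r) ^ (2 * (P x).e))
      (FCz.pow hr1 hv1 (FC.of_PTnat (PT.mul (PT.const 2) he1)))
  · refine FCz.sum_unary hP.r hP.N
      (F := fun x i => ((2 * (P x).e * (P x).b i : ℕ) : ZMod (P x).r) *
        ((vec (z x) i : ℕ) : ZMod (P x).r)) ?_
    refine FCz.mul hr1 ((FCz.mul hr1 (FCz.cast hr1 (FC.of_PTnat (PT.mul (PT.const 2) he1)))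
      (FCz_b (P := fun p : α × ℕ => P p.1) (hP.pre (PT.fst PT.id)) hi1)).congr fun x _ => ?_) hv1
    push_cast
    rfl

theorem FCz_Hz (hP : CPrm P) {z : α → List BNat} (hz : PT z) {i : α → ℕ} (hi : PT i) :
    FCz (fun x => (P x).r) (fun x => (P x).Hz (i x) (vec (z x))) :=
  FCz.sub hP.r (FCz.neg hP.r (FCz.mul hP.r (FCz_L hP) (FCz_ev1 hP hz hi))) (FCz_b hP hi)

theorem FCz_Jent (hP : CPrm P) {z : α → List BNat} (hz : PT z) {i j : α → ℕ} (hi : PT i)
    (hj : PT j) : FCz (fun x => (P x).r) (fun x => (P x).Jent (i x) (j x) (vec (z x))) := by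
  classical
  have h0 : CHp (fun x : α => i x = j x) := CHp.eq (FC.of_PTnat hi) (FC.of_PTnat hj)
  have hzero : FCz (fun x => (P x).r) (fun _ => 0) :=
    (FCz.cast hP.r (FC.const 0)).congr (fun a _ => by simp)
  have h1 : FCz (fun x => (P x).r) (fun x => if i x = j x then
      (((P x).d : ℕ) : ZMod (P x).r) * ((vec (z x) (i x) : ℕ) : ZMod (P x).r) ^ ((P x).d - 1)
      else 0) := by
    refine (FCz.ite h0 (FCz.mul hP.r (FCz.cast hP.r (FC.of_PTnat hP.PT_d))
      (FCz.pow hP.r (FCz.cast hP.r (FC.vec hz (FC.of_PTnat hi)))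
        (FC.of_PTnat (PT.sub hP.PT_d (PT.const 1))))) hzero).congr fun x _ => ?_
    by_cases h : i x = j x <;> simp [h]
  exact FCz.add hP.r h1 (FCz.mul hP.r (FCz_L hP) (FCz_ev2 hP hz hi hj))

theorem FCz_Jz (hP : CPrm P) {z : α → List BNat} (hz : PT z) :
    FCz (fun x => (P x).r) (fun x => (P x).Jz (vec (z x))) := by
  refine FCz.det hP.r hP.N (A := fun x i j => (P x).Jent i j (vec (z x))) ?_
  exact FCz_Jent (P := fun p : α × (ℕ × ℕ) => P p.1) (hP.pre (PT.fst PT.id))
    (z := fun p => z p.1) (PT.comp (f := z) hz (PT.fst PT.id))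
    (i := fun p => p.2.1) (j := fun p => p.2.2) (PT.fst (PT.snd PT.id)) (PT.snd (PT.snd PT.id))

theorem FCz_Tz (hP : CPrm P) {z : α → List BNat} (hz : PT z) :
    FCz (fun x => (P x).r) (fun x => (P x).Tz (vec (z x))) := by
  have hr1 : FC (fun p : α × ℕ => (P p.1).r) := hP.r.pre (PT.fst PT.id)
  have hr2 : FC (fun p : (α × ℕ) × BNat => (P p.1.1).r) := hP.r.pre (PT.fst (PT.fst PT.id))
  have hP2 : CPrm (fun p : (α × ℕ) × BNat => P p.1.1) := hP.pre (PT.fst (PT.fst PT.id))
  have hz2 : PT (fun p : (α × ℕ) × BNat => z p.1.1) :=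
    PT.comp (f := z) hz (PT.fst (PT.fst PT.id))
  have hi2 : PT (fun p : (α × ℕ) × BNat => p.1.2) := PT.snd (PT.fst PT.id)
  have hk2 : FC (fun p : (α × ℕ) × BNat => p.2.v) := FC.of_PT (PT.snd PT.id)
  have hv2 : FCz (fun p : (α × ℕ) × BNat => (P p.1.1).r)
      (fun p => ((vec (z p.1.1) p.1.2 : ℕ) : ZMod (P p.1.1).r)) :=
    FCz.cast hr2 (FC.vec hz2 (FC.of_PTnat hi2))
  have hin : FCz (fun p : α × ℕ => (P p.1).r) (fun p =>
      ∑ k ∈ Finset.range ((P p.1).K + 1), (P p.1).Hz p.2 (vec (z p.1)) ^ k *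
        (((vec (z p.1) p.2 : ℕ) : ZMod (P p.1).r)⁻¹) ^ ((P p.1).d * (k + 1) - 1)) := by
    refine FCz.sum_range hr1 ((hP.K.add (FC.const 1)).pre (PT.fst PT.id))
      (F := fun p k => (P p.1).Hz p.2 (vec (z p.1)) ^ k *
        (((vec (z p.1) p.2 : ℕ) : ZMod (P p.1).r)⁻¹) ^ ((P p.1).d * (k + 1) - 1)) ?_
    exact FCz.mul hr2 (FCz.pow hr2 (FCz_Hz hP2 hz2 hi2) hk2)
      (FCz.pow hr2 (FCz.inv hr2 hv2) (((FC.of_PTnat hP2.PT_d).mul (hk2.add (FC.const 1))).sub
        (FC.const 1)))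
  exact FCz.mul hP.r (FCz_Jz hP hz) (FCz.prod_unary hP.r hP.N
    (F := fun x i => ∑ k ∈ Finset.range ((P x).K + 1), (P x).Hz i (vec (z x)) ^ k *
      (((vec (z x) i : ℕ) : ZMod (P x).r)⁻¹) ^ ((P x).d * (k + 1) - 1)) hin)

end Vale.Agent.P337

end

section

/-!
P337, complexity side: traces, elementary symmetric functions, derivatives.
-/

namespace Vale.Agent.P337

open Vale.Agent.Lib.Common.PolyTime

variable {α β : Type} [TEnc α] [TEnc β]

theorem FCz.natConst {r : α → ℕ} (hr : FC r) (n : ℕ) :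
    FCz r (fun a => ((n : ℕ) : ZMod (r a))) := FCz.cast hr (FC.const n)

theorem FCz.oneC {r : α → ℕ} (hr : FC r) : FCz r (fun _ => 1) :=
  (FCz.natConst hr 1).congr fun a _ => by simp

theorem FCz.negOneC {r : α → ℕ} (hr : FC r) : FCz r (fun _ => -1) := FCz.neg hr (FCz.oneC hr)

theorem FCz.factC {r : α → ℕ} (hr : FC r) {l : α → ℕ} (hl : FC l) :
    FCz r (fun a => (((l a).factorial : ℕ) : ZMod (r a))) := by
  refine (FCz.prod_range hr hl (F := fun a i => (((i + 1 : ℕ) : ℕ) : ZMod (r a))) ?_).congr ?_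
  · exact FCz.cast (hr.pre (PT.fst PT.id)) ((FC.of_PT (PT.snd PT.id)).add (FC.const 1))
  · intro a _
    rw [← Finset.prod_range_add_one_eq_factorial]
    push_cast
    rfl

theorem FCz.descFactC {r : α → ℕ} (hr : FC r) {n k : α → ℕ} (hn : FC n) (hk : FC k) :
    FCz r (fun a => (((n a).descFactorial (k a) : ℕ) : ZMod (r a))) := by
  refine (FCz.prod_range hr hk (F := fun a i => (((n a - i : ℕ) : ℕ) : ZMod (r a))) ?_).congr ?_
  · exact FCz.cast (hr.pre (PT.fst PT.id)) ((hn.pre (PT.fst PT.id)).sub (FC.of_PT (PT.snd PT.id)))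
  · intro a _
    rw [Nat.descFactorial_eq_prod_range]
    push_cast
    rfl

variable {P : α → Prm}

theorem FCz_trz (hP : CPrm P) {F : ∀ x, (ℕ → ℕ) → ZMod (P x).r}
    (hF : FCz (fun p : α × List BNat => (P p.1).r) (fun p => F p.1 (vec p.2))) :
    FCz (fun x => (P x).r) (fun x => (P x).trz (F x)) := by
  have hsum := FCz.sum_vec hP.r hP.N (FC.const 1) hP.r
    (F := fun x v => F x v * (P x).Tz v)
    (FCz.mul (hP.r.pre (PT.fst PT.id)) hF (FCz_Tz (hP.pre (PT.fst PT.id)) (PT.snd PT.id)))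
  exact FCz.mul hP.r (FCz.pow hP.r (FCz.negOneC hP.r) (FC.of_PTnat hP.N)) hsum

theorem FCz_pw (hP : CPrm P) {j : α → ℕ} (hj : FC j) :
    FCz (fun x => (P x).r) (fun x => (P x).pw (j x)) :=
  FCz_trz hP (F := fun x z => (P x).gz z ^ j x)
    (FCz.pow (hP.r.pre (PT.fst PT.id)) (FCz_gz (hP.pre (PT.fst PT.id)) (PT.snd PT.id))
      (hj.pre (PT.fst PT.id)))

theorem FCz_expF (hP : CPrm P) {S : ∀ x, ℕ → ZMod (P x).r}
    (hS : FCz (fun p : α × BNat => (P p.1).r) (fun p => S p.1 p.2.v)) {j : α → ℕ} (hj : FC j) :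
    FCz (fun x => (P x).r) (fun x => (P x).expF (S x) (j x)) := by
  have hr1 : FC (fun p : α × BNat => (P p.1).r) := hP.r.pre (PT.fst PT.id)
  have hr2 : FC (fun p : (α × BNat) × BNat => (P p.1.1).r) := hP.r.pre (PT.fst (PT.fst PT.id))
  have hr3 : FC (fun p : ((α × BNat) × BNat) × BNat => (P p.1.1.1).r) :=
    hP.r.pre (PT.fst (PT.fst (PT.fst PT.id)))
  have hi3 : FC (fun p : ((α × BNat) × BNat) × BNat => p.2.v) := FC.of_PT (PT.snd PT.id)
  have hx3 : FC (fun p : ((α × BNat) × BNat) × BNat => p.1.2.v) :=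
    FC.of_PT (PT.snd (PT.fst PT.id))
  have hS3 : FCz (fun p : ((α × BNat) × BNat) × BNat => (P p.1.1.1).r)
      (fun p => S p.1.1.1 p.2.v) :=
    hS.pre (φ := fun p : ((α × BNat) × BNat) × BNat => (p.1.1.1, p.2))
      (PT.pair (PT.fst (PT.fst (PT.fst PT.id))) (PT.snd PT.id))
  have h3 : FCz (fun p : (α × BNat) × BNat => (P p.1.1).r) (fun p =>
      ∑ i ∈ Finset.Ico 1 ((P p.1.1).D + 1), (-1) ^ (i - 1) * S p.1.1 i *
        ((i : ℕ) : ZMod (P p.1.1).r)⁻¹ * ((p.2.v : ℕ) : ZMod (P p.1.1).r) ^ i) := by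
    refine FCz.sum_Ico hr2 (FC.const 1)
      (((FC_D hP).pre (PT.fst (PT.fst PT.id))).add (FC.const 1))
      (F := fun p i => (-1) ^ (i - 1) * S p.1.1 i *
        ((i : ℕ) : ZMod (P p.1.1).r)⁻¹ * ((p.2.v : ℕ) : ZMod (P p.1.1).r) ^ i) ?_
    exact FCz.mul hr3 (FCz.mul hr3 (FCz.mul hr3
      (FCz.pow hr3 (FCz.negOneC hr3) (hi3.sub (FC.const 1))) hS3)
      (FCz.inv hr3 (FCz.cast hr3 hi3))) (FCz.pow hr3 (FCz.cast hr3 hx3) hi3)
  have hl2 : FC (fun p : (α × BNat) × BNat => p.1.2.v) := FC.of_PT (PT.snd (PT.fst PT.id))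
  have hx2 : FC (fun p : (α × BNat) × BNat => p.2.v) := FC.of_PT (PT.snd PT.id)
  have hj2 : FC (fun p : (α × BNat) × BNat => j p.1.1) := hj.pre (PT.fst (PT.fst PT.id))
  have h2 : FCz (fun p : α × BNat => (P p.1).r) (fun p =>
      ∑ x ∈ Finset.Ico 1 (P p.1).r,
      (∑ i ∈ Finset.Ico 1 ((P p.1).D + 1), (-1) ^ (i - 1) * S p.1 i *
        ((i : ℕ) : ZMod (P p.1).r)⁻¹ * ((x : ℕ) : ZMod (P p.1).r) ^ i) ^ p.2.v *
        (((x : ℕ) : ZMod (P p.1).r)⁻¹) ^ (j p.1)) := by
    refine FCz.sum_Ico hr1 (FC.const 1) hr1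
      (F := fun p x => (∑ i ∈ Finset.Ico 1 ((P p.1).D + 1), (-1) ^ (i - 1) * S p.1 i *
        ((i : ℕ) : ZMod (P p.1).r)⁻¹ * ((x : ℕ) : ZMod (P p.1).r) ^ i) ^ p.2.v *
        (((x : ℕ) : ZMod (P p.1).r)⁻¹) ^ (j p.1)) ?_
    exact FCz.mul hr2 (FCz.pow hr2 h3 hl2) (FCz.pow hr2 (FCz.inv hr2 (FCz.cast hr2 hx2)) hj2)
  refine FCz.sum_range hP.r (hj.add (FC.const 1))
    (F := fun a l => ((l.factorial : ℕ) : ZMod (P a).r)⁻¹ *
    (-∑ x ∈ Finset.Ico 1 (P a).r,
      (∑ i ∈ Finset.Ico 1 ((P a).D + 1),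
        (-1) ^ (i - 1) * S a i * ((i : ℕ) : ZMod (P a).r)⁻¹ * ((x : ℕ) : ZMod (P a).r) ^ i) ^ l *
        (((x : ℕ) : ZMod (P a).r)⁻¹) ^ (j a))) ?_
  exact FCz.mul hr1 (FCz.inv hr1 (FCz.factC hr1 (FC.of_PT (PT.snd PT.id)))) (FCz.neg hr1 h2)

theorem FCz_fd (hP : CPrm P) {k : α → ℕ} (hk : FC k) {X : ∀ x, ZMod (P x).r}
    (hX : FCz (fun x => (P x).r) X) : FCz (fun x => (P x).r) (fun x => (P x).fd (k x) (X x)) := by
  have hr1 : FC (fun p : α × BNat => (P p.1).r) := hP.r.pre (PT.fst PT.id)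
  have hD1 : FC (fun p : α × BNat => (P p.1).D) := (FC_D hP).pre (PT.fst PT.id)
  have hj1 : FC (fun p : α × BNat => p.2.v) := FC.of_PT (PT.snd PT.id)
  have hk1 : FC (fun p : α × BNat => k p.1) := hk.pre (PT.fst PT.id)
  have hX1 : FCz (fun p : α × BNat => (P p.1).r) (fun p => X p.1) := hX.pre (PT.fst PT.id)
  have hpw : FCz (fun p : (α × BNat) × BNat => (P p.1.1).r) (fun p => (P p.1.1).pw p.2.v) :=
    FCz_pw (P := fun p : (α × BNat) × BNat => P p.1.1) (hP.pre (PT.fst (PT.fst PT.id)))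
      (FC.of_PT (PT.snd PT.id))
  have hexp : FCz (fun p : α × BNat => (P p.1).r) (fun p => (P p.1).expF (P p.1).pw p.2.v) :=
    FCz_expF (P := fun p : α × BNat => P p.1) (hP.pre (PT.fst PT.id))
      (S := fun p => (P p.1).pw) hpw hj1
  refine FCz.sum_range hP.r ((FC_D hP).add (FC.const 1))
    (F := fun a j => (-1) ^ j * (P a).expF (P a).pw j *
    ((((P a).D - j).descFactorial (k a) : ℕ) : ZMod (P a).r) * (X a) ^ ((P a).D - j - k a)) ?_
  exact FCz.mul hr1 (FCz.mul hr1 (FCz.mul hr1 (FCz.pow hr1 (FCz.negOneC hr1) hj1) hexp)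
    (FCz.descFactC hr1 (hD1.sub hj1) hk1)) (FCz.pow hr1 hX1 ((hD1.sub hj1).sub hk1))

end Vale.Agent.P337

end

section

/-!
P337, complexity side: the isolating polynomial and the final formula.
-/

namespace Vale.Agent.P337

open Vale.Agent.Lib.Common.PolyTime

variable {α β : Type} [TEnc α] [TEnc β]

variable {P : α → Prm}

theorem FCz_yz (hP : CPrm P) {k : α → ℕ} (hk : FC k) {X : ∀ x, ZMod (P x).r}
    (hX : FCz (fun x => (P x).r) X) : FCz (fun x => (P x).r) (fun x => (P x).yz (k x) (X x)) := by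
  classical
  have h0 : CHp (fun x : α => k x = 0) := CHp.eq hk (FC.const 0)
  have h1 : FCz (fun x => (P x).r) (fun x => if k x = 0 then
      ((2 ^ 2 ^ (P x).EC : ℕ) : ZMod (P x).r) - X x else (P x).fd (k x) (X x)) :=
    (FCz.ite h0 (FCz.sub hP.r (FCz.twoTwoPow hP.r hP.EC) hX) (FCz_fd hP hk hX)).congr
      fun x _ => by
        by_cases h : k x = 0 <;> simp [h]
  exact FCz.mul hP.r (FCz.twoTwoPow hP.r hP.ES) h1

theorem FCz.twoPowC {r : α → ℕ} (hr : FC r) {i : α → ℕ} (hi : FC i) :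
    FCz r (fun a => 2 ^ i a) :=
  (FCz.pow hr (FCz.natConst hr 2) hi).congr fun a _ => by simp

theorem FCz_Pmz (hP : CPrm P) {X : ∀ x, ZMod (P x).r}
    (hX : FCz (fun x => (P x).r) X) : FCz (fun x => (P x).r) (fun x => (P x).Pmz (X x)) := by
  have hr1 : FC (fun p : α × BNat => (P p.1).r) := hP.r.pre (PT.fst PT.id)
  have hX1 : FCz (fun p : α × BNat => (P p.1).r) (fun p => X p.1) := hX.pre (PT.fst PT.id)
  refine FCz.prod_range hP.r (hP.M.add (FC.const 1))
    (F := fun a i => (X a - 2 ^ i) ^ (2 * (P a).kap)) ?_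
  exact FCz.pow hr1 (FCz.sub hr1 hX1 (FCz.twoPowC hr1 (FC.of_PT (PT.snd PT.id))))
    (((FC.const 2).mul hP.kap).pre (PT.fst PT.id))

theorem FCz_Ppz (hP : CPrm P) {X : ∀ x, ZMod (P x).r}
    (hX : FCz (fun x => (P x).r) X) : FCz (fun x => (P x).r) (fun x => (P x).Ppz (X x)) := by
  have hr1 : FC (fun p : α × BNat => (P p.1).r) := hP.r.pre (PT.fst PT.id)
  have hX1 : FCz (fun p : α × BNat => (P p.1).r) (fun p => X p.1) := hX.pre (PT.fst PT.id)
  refine FCz.prod_range hP.r (hP.M.add (FC.const 1))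
    (F := fun a i => (X a + 2 ^ i) ^ (2 * (P a).kap)) ?_
  exact FCz.pow hr1 (FCz.add hr1 hX1 (FCz.twoPowC hr1 (FC.of_PT (PT.snd PT.id))))
    (((FC.const 2).mul hP.kap).pre (PT.fst PT.id))

theorem FCz_Bz (hP : CPrm P) {k : α → ℕ} (hk : FC k) {X : ∀ x, ZMod (P x).r}
    (hX : FCz (fun x => (P x).r) X) : FCz (fun x => (P x).r) (fun x => (P x).Bz (k x) (X x)) := by
  have hy := FCz_yz hP hk hX
  exact FCz.add hP.r (FCz.mul hP.r (FCz.cast hP.r hP.a) (FCz_Pmz hP hy))
    (FCz.mul hP.r (FCz.cast hP.r hP.a') (FCz_Ppz hP hy))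

theorem FCz_PPz (hP : CPrm P) {X : ∀ x, ZMod (P x).r}
    (hX : FCz (fun x => (P x).r) X) : FCz (fun x => (P x).r) (fun x => (P x).PPz (X x)) := by
  classical
  have hr1 : FC (fun p : α × BNat => (P p.1).r) := hP.r.pre (PT.fst PT.id)
  have hr2 : FC (fun p : (α × BNat) × BNat => (P p.1.1).r) := hP.r.pre (PT.fst (PT.fst PT.id))
  have hX1 : FCz (fun p : α × BNat => (P p.1).r) (fun p => X p.1) := hX.pre (PT.fst PT.id)
  have hX2 : FCz (fun p : (α × BNat) × BNat => (P p.1.1).r) (fun p => X p.1.1) :=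
    hX.pre (PT.fst (PT.fst PT.id))
  have hP1 : CPrm (fun p : α × BNat => P p.1) := hP.pre (PT.fst PT.id)
  have hP2 : CPrm (fun p : (α × BNat) × BNat => P p.1.1) := hP.pre (PT.fst (PT.fst PT.id))
  have hk1 : FC (fun p : α × BNat => p.2.v) := FC.of_PT (PT.snd PT.id)
  have hk2 : FC (fun p : (α × BNat) × BNat => p.1.2.v) := FC.of_PT (PT.snd (PT.fst PT.id))
  have hj2 : FC (fun p : (α × BNat) × BNat => p.2.v) := FC.of_PT (PT.snd PT.id)
  have hB2 : FCz (fun p : (α × BNat) × BNat => (P p.1.1).r)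
      (fun p => (P p.1.1).Bz p.2.v (X p.1.1)) := FCz_Bz hP2 hj2 hX2
  have hB1 : FCz (fun p : α × BNat => (P p.1).r) (fun p => (P p.1).Bz p.2.v (X p.1)) :=
    FCz_Bz hP1 hk1 hX1
  have hprod1 : FCz (fun p : α × BNat => (P p.1).r) (fun p =>
      ∏ j ∈ Finset.range (P p.1).D, if j = p.2.v then 1 else (P p.1).Bz j (X p.1)) := by
    refine FCz.prod_range hr1 ((FC_D hP).pre (PT.fst PT.id))
      (F := fun p j => if j = p.2.v then 1 else (P p.1).Bz j (X p.1)) ?_
    refine (FCz.ite (CHp.eq hj2 hk2) (FCz.oneC hr2) hB2).congr fun x _ => ?_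
    by_cases h : x.2.v = x.1.2.v <;> simp [h]
  have hprod : FCz (fun x : α => (P x).r) (fun x =>
      ∏ j ∈ Finset.range (P x).D, (P x).Bz j (X x)) :=
    FCz.prod_range hP.r (FC_D hP) (F := fun x j => (P x).Bz j (X x)) hB1
  refine FCz.sub hP.r ?_ (FCz.mul hP.r (FCz.cast hP.r hP.Th) hprod)
  refine FCz.sum_range hP.r (FC_D hP)
    (F := fun x k => ((((P x).Z * (P x).w k * (P x).a : ℕ)) : ZMod (P x).r) *
      (P x).Pmz ((P x).yz k (X x)) *
      ∏ j ∈ Finset.range (P x).D, if j = k then 1 else (P x).Bz j (X x)) ?_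
  exact FCz.mul hr1 (FCz.mul hr1 (FCz.cast hr1 ((hP1.Z.mul (FC_w hP1 hk1)).mul hP1.a))
    (FCz_Pmz hP1 (FCz_yz hP1 hk1 hX1))) hprod1

theorem FCz_form (hP : CPrm P) : FCz (fun x => (P x).r) (fun x => (P x).form) := by
  have hP2 : CPrm (fun p : (α × BNat) × List BNat => P p.1.1) :=
    hP.pre (PT.fst (PT.fst PT.id))
  have hr2 : FC (fun p : (α × BNat) × List BNat => (P p.1.1).r) := hP2.r
  have hk2 : FC (fun p : (α × BNat) × List BNat => p.1.2.v) := FC.of_PT (PT.snd (PT.fst PT.id))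
  have hg : FCz (fun p : (α × BNat) × List BNat => (P p.1.1).r)
      (fun p => (P p.1.1).gz (vec p.2)) :=
    FCz_gz hP2 (PT.snd PT.id)
  refine FCz_expF hP (S := fun x k => (P x).trz (fun z => (P x).PPz ((P x).gz z) ^ k)) ?_ (FC_D hP)
  exact FCz_trz (P := fun p : α × BNat => P p.1) (hP.pre (PT.fst PT.id))
    (F := fun p z => (P p.1).PPz ((P p.1).gz z) ^ p.2.v)
    (FCz.pow hr2 (FCz_PPz hP2 hg) hk2)

end Vale.Agent.P337

end

section

/-!
P337, complexity side: the sign of a doubly exponentially large integer whose residues are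
computable in the counting hierarchy.
-/

namespace Vale.Agent.P337

open Vale.Agent.Lib.Common.PolyTime

variable {α : Type} [TEnc α]

theorem sgn_FC_pow {E : α → ℕ} (hE : PT E) {β : Type} [TEnc β] {φ : β → α} (hφ : PT φ) :
    FC (fun b => 2 ^ E (φ b)) :=
  FC.pre (FC.twoPow hE) hφ

/-- membership in the set of primes, as a predicate in the hierarchy -/
theorem sgn_CHp_mem {E1 E2 : α → ℕ} (hE1 : PT E1) {β : Type} [TEnc β] {φ : β → α} (hφ : PT φ)
    {ρ : β → BNat} (hρ : PT ρ) (hE2 : PT E2) :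
    CHp (fun b => (ρ b).v ∈ prs (E1 (φ b)) (E2 (φ b))) := by
  have h1 : CHp (fun b => (ρ b).v < 2 ^ E2 (φ b)) := CHp.lt (FC.of_PT hρ) (sgn_FC_pow hE2 hφ)
  have h2 : CHp (fun b => 2 ^ E1 (φ b) < (ρ b).v) := CHp.lt (sgn_FC_pow hE1 hφ) (FC.of_PT hρ)
  have h3 : CHp (fun b => ((ρ b).v).Prime) := CHp.prime (FC.of_PT hρ)
  refine CHp.congr (h1.and (h2.and h3)) fun b => ?_
  rw [prs, Finset.mem_filter, Finset.mem_range]

/-- the product of the other primes, modulo `r` -/
theorem sgn_FCz_prod {E1 E2 : α → ℕ} (hE1 : PT E1) (hE2 : PT E2) :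
    FCz (fun q : (α × BNat) × BNat => q.2.v)
      (fun q => ((∏ t ∈ (prs (E1 q.1.1) (E2 q.1.1)).erase q.2.v, t : ℕ) : ZMod q.2.v)) := by
  classical
  have hr : FC (fun q : (α × BNat) × BNat => q.2.v) := FC.of_PT (by fun_prop)
  have hr' : FC (fun p : ((α × BNat) × BNat) × BNat => p.1.2.v) := FC.of_PT (by fun_prop)
  have hφ : PT (fun q : (α × BNat) × BNat => q.1.1) := by fun_prop
  have hφ' : PT (fun p : ((α × BNat) × BNat) × BNat => p.1.1.1) := by fun_prop
  have hc1 : CHp (fun p : ((α × BNat) × BNat) × BNat =>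
      p.2.v ∈ prs (E1 p.1.1.1) (E2 p.1.1.1)) := sgn_CHp_mem hE1 hφ' (by fun_prop) hE2
  have hc2 : CHp (fun p : ((α × BNat) × BNat) × BNat => ¬ (p.2.v = p.1.2.v)) :=
    CHp.not (CHp.eq (FC.of_PT (f := fun p : ((α × BNat) × BNat) × BNat => p.2) (by fun_prop))
      (FC.of_PT (f := fun p : ((α × BNat) × BNat) × BNat => p.1.2) (by fun_prop)))
  have hF : FCz (fun p : ((α × BNat) × BNat) × BNat => p.1.2.v)
      (fun p => if (p.2.v ∈ prs (E1 p.1.1.1) (E2 p.1.1.1) ∧ ¬ (p.2.v = p.1.2.v))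
        then ((p.2.v : ℕ) : ZMod p.1.2.v) else ((1 : ℕ) : ZMod p.1.2.v)) := by
    refine FCz.congr (FCz.ite (hc1.and hc2)
      (FCz.cast hr' (FC.of_PT (f := fun p : ((α × BNat) × BNat) × BNat => p.2) (by fun_prop)))
      (FCz.cast hr' (FC.const 1))) fun p _ => ?_
    by_cases h : p.2.v ∈ prs (E1 p.1.1.1) (E2 p.1.1.1) ∧ ¬ (p.2.v = p.1.2.v)
    · rw [if_pos h, if_pos h]
    · rw [if_neg h, if_neg h]
  have hP := FCz.prod_range (α := (α × BNat) × BNat) (r := fun q => q.2.v) hr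
    (M := fun q => 2 ^ E2 q.1.1) (sgn_FC_pow hE2 hφ)
    (F := fun q t => if (t ∈ prs (E1 q.1.1) (E2 q.1.1) ∧ ¬ (t = q.2.v))
        then ((t : ℕ) : ZMod q.2.v) else ((1 : ℕ) : ZMod q.2.v)) hF
  refine FCz.congr hP fun q _ => ?_
  rw [Nat.cast_prod]
  have hsub : (prs (E1 q.1.1) (E2 q.1.1)).erase q.2.v =
      (Finset.range (2 ^ E2 q.1.1)).filter
        (fun t => t ∈ prs (E1 q.1.1) (E2 q.1.1) ∧ ¬ (t = q.2.v)) := by
    ext t
    simp only [Finset.mem_erase, Finset.mem_filter, Finset.mem_range, prs]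
    tauto
  rw [hsub, Finset.prod_filter]
  refine Finset.prod_congr rfl fun t _ => ?_
  rw [Nat.cast_one]

/-- the approximations are computable -/
theorem FC_crtA {X : α → ℤ} {E1 E2 : α → ℕ} (hE1 : PT E1) (hE2 : PT E2)
    {F : ∀ _ : α, ∀ r : ℕ, ZMod r}
    (hF : FCz (fun p : α × BNat => p.2.v) (fun p => F p.1 p.2.v))
    (hX : ∀ a r, r ∈ prs (E1 a) (E2 a) → ((X a : ℤ) : ZMod r) = F a r) :
    FC (fun p : α × BNat => crtA (prs (E1 p.1) (E2 p.1)) (X p.1) (E2 p.1 + 10) p.2.v) := by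
  classical
  have hr : FC (fun q : (α × BNat) × BNat => q.2.v) := FC.of_PT (by fun_prop)
  have hφ : PT (fun q : (α × BNat) × BNat => q.1.1) := by fun_prop
  have hφ1 : PT (fun q : α × BNat => q.1) := by fun_prop
  have hF' : FCz (fun q : (α × BNat) × BNat => q.2.v) (fun q => F q.1.1 q.2.v) :=
    FCz.pre hF (φ := fun q : (α × BNat) × BNat => (q.1.1, q.2)) (by fun_prop)
  have h2 : FCz (fun q : (α × BNat) × BNat => q.2.v)
      (fun q => (((2 : ℕ) : ZMod q.2.v)) ^ q.1.2.v) :=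
    FCz.pow hr (FCz.cast hr (FC.const 2)) (FC.of_PT (by fun_prop))
  have hT : FCz (fun q : (α × BNat) × BNat => q.2.v)
      (fun q => F q.1.1 q.2.v *
        ((∏ t ∈ (prs (E1 q.1.1) (E2 q.1.1)).erase q.2.v, t : ℕ) : ZMod q.2.v)⁻¹ *
        (((2 : ℕ) : ZMod q.2.v)) ^ q.1.2.v) :=
    FCz.mul hr (FCz.mul hr hF' (FCz.inv hr (sgn_FCz_prod hE1 hE2))) h2
  have hTv := FCz.val hT
  have hpw : FC (fun q : (α × BNat) × BNat => 2 ^ (E2 q.1.1 + 10)) :=
    sgn_FC_pow (E := fun a => E2 a + 10) (by fun_prop) hφ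
  have hpw1 : FC (fun q : α × BNat => 2 ^ (E2 q.1 + 10)) :=
    sgn_FC_pow (E := fun a => E2 a + 10) (by fun_prop) hφ1
  have hmem : CHp (fun q : (α × BNat) × BNat => q.2.v ∈ prs (E1 q.1.1) (E2 q.1.1)) :=
    sgn_CHp_mem hE1 hφ (by fun_prop) hE2
  have hterm0 := FC.ite hmem (FC.div (FC.mul hpw hTv) hr) (FC.const 0)
  have hterm : FC (fun q : (α × BNat) × BNat => if q.2.v ∈ prs (E1 q.1.1) (E2 q.1.1) then
      2 ^ (E2 q.1.1 + 10) * (if (q.2.v).Prime then (F q.1.1 q.2.v *
        ((∏ t' ∈ (prs (E1 q.1.1) (E2 q.1.1)).erase q.2.v, t' : ℕ) : ZMod q.2.v)⁻¹ *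
        (((2 : ℕ) : ZMod q.2.v)) ^ q.1.2.v).val else 0) / q.2.v else 0) := by
    refine FC.congr hterm0 fun q => ?_
    by_cases h : q.2.v ∈ prs (E1 q.1.1) (E2 q.1.1)
    · rw [if_pos h, if_pos h]
    · rw [if_neg h, if_neg h]
  have hsum := FC.sum (α := α × BNat) (M := fun p => 2 ^ E2 p.1) (sgn_FC_pow hE2 hφ1)
    (F := fun p t => if t ∈ prs (E1 p.1) (E2 p.1) then 2 ^ (E2 p.1 + 10) *
      (if t.Prime then (F p.1 t * ((∏ t' ∈ (prs (E1 p.1) (E2 p.1)).erase t, t' : ℕ) : ZMod t)⁻¹ *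
        (((2 : ℕ) : ZMod t)) ^ p.2.v).val else 0) / t else 0) hterm
  refine FC.congr (FC.mod hsum hpw1) fun p => ?_
  rw [crtA]
  congr 1
  have hsub : prs (E1 p.1) (E2 p.1) = (Finset.range (2 ^ E2 p.1)).filter
      (fun t => t ∈ prs (E1 p.1) (E2 p.1)) := by
    ext t
    simp only [Finset.mem_filter, Finset.mem_range, prs]
    tauto
  conv_rhs => rw [hsub]
  rw [Finset.sum_filter]
  refine Finset.sum_congr rfl fun t _ => ?_
  by_cases ht : t ∈ prs (E1 p.1) (E2 p.1)
  · rw [if_pos ht, if_pos ht]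
    have htp : t.Prime := (Finset.mem_filter.1 ht).2.2
    rw [if_pos htp, ← hsub, crtT, hX p.1 t ht, Nat.cast_ofNat]
  · rw [if_neg ht, if_neg ht]

theorem CHp.neg_of_residues {X : α → ℤ} {E1 E2 : α → ℕ} (hE1 : PT E1) (hE2 : PT E2)
    {F : ∀ _ : α, ∀ r : ℕ, ZMod r}
    (hF : FCz (fun p : α × BNat => p.2.v) (fun p => F p.1 p.2.v))
    (hX : ∀ a r, r ∈ prs (E1 a) (E2 a) → ((X a : ℤ) : ZMod r) = F a r)
    (hbig : ∀ a, 16 * |X a| < (∏ r ∈ prs (E1 a) (E2 a), r : ℕ)) : CHp (fun a => X a < 0) := by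
  have hA := FC_crtA hE1 hE2 hF hX
  have hA2 : FC (fun q : (α × BNat) × BNat =>
      crtA (prs (E1 q.1.1) (E2 q.1.1)) (X q.1.1) (E2 q.1.1 + 10) q.2.v) :=
    FC.pre hA (φ := fun q : (α × BNat) × BNat => (q.1.1, q.2)) (by fun_prop)
  have hφ : PT (fun q : (α × BNat) × BNat => q.1.1) := by fun_prop
  have hφ1 : PT (fun q : α × BNat => q.1) := by fun_prop
  have hpw : FC (fun q : (α × BNat) × BNat => 2 ^ (E2 q.1.1 + 10)) :=
    sgn_FC_pow (E := fun a => E2 a + 10) (by fun_prop) hφ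
  have hpw1 : FC (fun q : α × BNat => 2 ^ (E2 q.1 + 10)) :=
    sgn_FC_pow (E := fun a => E2 a + 10) (by fun_prop) hφ1
  have hin : CHp (fun q : (α × BNat) × BNat =>
      8 * crtA (prs (E1 q.1.1) (E2 q.1.1)) (X q.1.1) (E2 q.1.1 + 10) q.2.v <
        2 ^ (E2 q.1.1 + 10) ∨ 7 * 2 ^ (E2 q.1.1 + 10) ≤
      8 * crtA (prs (E1 q.1.1) (E2 q.1.1)) (X q.1.1) (E2 q.1.1 + 10) q.2.v) :=
    CHp.or (CHp.lt (FC.mul (FC.const 8) hA2) hpw)
      (CHp.le (FC.mul (FC.const 7) hpw) (FC.mul (FC.const 8) hA2))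
  have hall := CHp.forall_lt (α := α × BNat) (M := fun p => p.2.v) (FC.of_PT (by fun_prop))
    (B := fun p i => 8 * crtA (prs (E1 p.1) (E2 p.1)) (X p.1) (E2 p.1 + 10) i <
        2 ^ (E2 p.1 + 10) ∨ 7 * 2 ^ (E2 p.1 + 10) ≤
      8 * crtA (prs (E1 p.1) (E2 p.1)) (X p.1) (E2 p.1 + 10) i) hin
  have hB := CHp.and hall (CHp.and (CHp.le hpw1 (FC.mul (FC.const 2) hA))
    (CHp.lt (FC.mul (FC.const 8) hA) (FC.mul (FC.const 7) hpw1)))
  have hM : FC (fun a => E2 a * 2 ^ E2 a + 1) :=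
    FC.add (FC.mul (FC.of_PTnat hE2) (FC.twoPow hE2)) (FC.const 1)
  have hex := CHp.exists_lt hM (B := fun a j =>
    (∀ i < j, 8 * crtA (prs (E1 a) (E2 a)) (X a) (E2 a + 10) i <
        2 ^ (E2 a + 10) ∨ 7 * 2 ^ (E2 a + 10) ≤
      8 * crtA (prs (E1 a) (E2 a)) (X a) (E2 a + 10) i) ∧
    2 ^ (E2 a + 10) ≤ 2 * crtA (prs (E1 a) (E2 a)) (X a) (E2 a + 10) j ∧
    8 * crtA (prs (E1 a) (E2 a)) (X a) (E2 a + 10) j < 7 * 2 ^ (E2 a + 10)) hB
  refine CHp.congr hex fun a => ?_
  have hcard : (prs (E1 a) (E2 a)).card ≤ 2 ^ E2 a := by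
    refine (Finset.card_filter_le _ _).trans ?_
    rw [Finset.card_range]
  have hs : 1024 * (prs (E1 a) (E2 a)).card ≤ 2 ^ (E2 a + 10) := by
    rw [pow_add]
    have : (2 : ℕ) ^ 10 = 1024 := by norm_num
    rw [this, mul_comm]
    exact Nat.mul_le_mul_right _ hcard
  exact (crt_sign (prs (E1 a) (E2 a)) (fun r hr => (Finset.mem_filter.1 hr).2.2) (X a)
    (E2 a + 10) (E2 a * 2 ^ E2 a) hs (hbig a) (prod_prs_le _ _)).symm

end Vale.Agent.P337

end
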