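import Mathlib
import Vale.Agent.Lib.P337.M.Uni

section

/-!
P337, univariate criterion: Thom's lemma.
-/

namespace Vale.Agent.P337

open Polynomial

private theorem thom_mono (p : ℝ[X]) {x y : ℝ}
    (h : ∀ t ∈ Set.Icc x y, 0 < (derivative p).eval t) :
    StrictMonoOn (fun t => p.eval t) (Set.Icc x y) := by
  refine strictMonoOn_of_deriv_pos (convex_Icc x y) p.continuous.continuousOn fun t ht => ?_
  rw [Polynomial.deriv]
  exact h t (interior_subset ht)

private theorem thom_anti (p : ℝ[X]) {x y : ℝ}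
    (h : ∀ t ∈ Set.Icc x y, (derivative p).eval t < 0) :
    StrictAntiOn (fun t => p.eval t) (Set.Icc x y) := by
  refine strictAntiOn_of_deriv_neg (convex_Icc x y) p.continuous.continuousOn fun t ht => ?_
  rw [Polynomial.deriv]
  exact h t (interior_subset ht)

/-- equal signs at the two ends, and strictly monotone: no zero -/
private theorem thom_step (p : ℝ[X]) {x y : ℝ} (hxy : x < y)
    (hs : SignType.sign (p.eval x) = SignType.sign (p.eval y))
    (h : (∀ t ∈ Set.Icc x y, 0 < (derivative p).eval t) ∨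
      ∀ t ∈ Set.Icc x y, (derivative p).eval t < 0) :
    (∀ t ∈ Set.Icc x y, 0 < p.eval t) ∨ ∀ t ∈ Set.Icc x y, p.eval t < 0 := by
  have hx : x ∈ Set.Icc x y := ⟨le_rfl, hxy.le⟩
  have hy : y ∈ Set.Icc x y := ⟨hxy.le, le_rfl⟩
  rcases h with h | h
  · have hm := thom_mono p h
    have hlt : p.eval x < p.eval y := hm hx hy hxy
    rcases lt_trichotomy (p.eval x) 0 with h1 | h1 | h1
    · right
      have h2 : p.eval y < 0 := by
        rw [sign_neg h1] at hs
        exact sign_eq_neg_one_iff.mp hs.symm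
      intro t ht
      exact (hm.monotoneOn ht hy ht.2).trans_lt h2
    · exfalso
      rw [h1, sign_zero] at hs
      have := sign_eq_zero_iff.mp hs.symm
      linarith
    · left
      intro t ht
      exact h1.trans_le (hm.monotoneOn hx ht ht.1)
  · have hm := thom_anti p h
    have hlt : p.eval y < p.eval x := hm hx hy hxy
    rcases lt_trichotomy (p.eval x) 0 with h1 | h1 | h1
    · right
      intro t ht
      exact (hm.antitoneOn hx ht ht.1).trans_lt h1
    · exfalso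
      rw [h1, sign_zero] at hs
      have := sign_eq_zero_iff.mp hs.symm
      linarith
    · left
      have h2 : 0 < p.eval y := by
        rw [sign_pos h1] at hs
        exact sign_eq_one_iff.mp hs.symm
      intro t ht
      exact h2.trans_le (hm.antitoneOn ht hy ht.2)

private theorem thom_lt {f : ℝ[X]} {D : ℕ} (hf : f.natDegree = D) (hD : 1 ≤ D) {x y : ℝ}
    (hxy : x < y) (hx : f.eval x = 0) (hy : f.eval y = 0) :
    ∃ k, 1 ≤ k ∧ k < D ∧ SignType.sign ((derivative^[k] f).eval x) ≠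
      SignType.sign ((derivative^[k] f).eval y) := by
  by_contra hcon
  push Not at hcon
  have hP : ∀ j < D, (∀ t ∈ Set.Icc x y, 0 < (derivative^[D - j] f).eval t) ∨
      ∀ t ∈ Set.Icc x y, (derivative^[D - j] f).eval t < 0 := by
    intro j
    induction j with
    | zero =>
      intro _
      rw [Nat.sub_zero]
      have hf0 : f ≠ 0 := by
        rintro rfl
        rw [Polynomial.natDegree_zero] at hf
        omega
      have hconst : derivative^[D] f = C ((D.factorial : ℝ) * f.leadingCoeff) := by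
        have h1 : (derivative^[D] f).natDegree ≤ 0 := by
          refine (Polynomial.natDegree_iterate_derivative f D).trans ?_
          omega
        rw [Polynomial.eq_C_of_natDegree_le_zero h1]
        congr 1
        rw [Polynomial.coeff_iterate_derivative, zero_add, Nat.descFactorial_self, nsmul_eq_mul,
          Polynomial.leadingCoeff, hf]
      have hne : (D.factorial : ℝ) * f.leadingCoeff ≠ 0 :=
        mul_ne_zero (Nat.cast_ne_zero.mpr D.factorial_ne_zero)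
          (Polynomial.leadingCoeff_ne_zero.mpr hf0)
      rcases lt_or_gt_of_ne hne with h | h
      · right
        intro t _
        rw [hconst, eval_C]
        exact h
      · left
        intro t _
        rw [hconst, eval_C]
        exact h
    | succ j ih =>
      intro hj
      have h1 := ih (by omega)
      have e : D - j = (D - (j + 1)) + 1 := by omega
      rw [e] at h1
      simp only [Function.iterate_succ_apply'] at h1
      exact thom_step _ hxy (hcon _ (by omega) (by omega)) h1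
  have h1 := hP (D - 1) (by omega)
  have e : D - (D - 1) = 1 := by omega
  rw [e] at h1
  simp only [Function.iterate_one] at h1
  have hxm : x ∈ Set.Icc x y := ⟨le_rfl, hxy.le⟩
  have hym : y ∈ Set.Icc x y := ⟨hxy.le, le_rfl⟩
  rcases h1 with h | h
  · have := thom_mono f h hxm hym hxy
    simp only [hx, hy] at this
    exact lt_irrefl _ this
  · have := thom_anti f h hxm hym hxy
    simp only [hx, hy] at this
    exact lt_irrefl _ this

/-- Thom's lemma: distinct real roots are distinguished by the signs of the derivatives -/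
theorem thom {f : ℝ[X]} {D : ℕ} (hf : f.natDegree = D) (hD : 1 ≤ D) {x y : ℝ} (hxy : x ≠ y)
    (hx : f.eval x = 0) (hy : f.eval y = 0) :
    ∃ k, 1 ≤ k ∧ k < D ∧ SignType.sign ((derivative^[k] f).eval x) ≠
      SignType.sign ((derivative^[k] f).eval y) := by
  rcases lt_or_gt_of_ne hxy with h | h
  · exact thom_lt hf hD h hx hy
  · obtain ⟨k, h1, h2, h3⟩ := thom_lt hf hD h hy hx
    exact ⟨k, h1, h2, h3.symm⟩

end Vale.Agent.P337

end

section

/-!
P337, univariate criterion: hashing of sign vectors.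
-/

namespace Vale.Agent.P337

open Polynomial in
/-- difference polynomial of two vectors -/
noncomputable def hashPoly (D q : ℕ) (a b : ℕ → ℕ) : Polynomial (ZMod q) :=
  ∑ k ∈ Finset.Ico 1 D, C ((a k : ZMod q) - (b k : ZMod q)) * X ^ k

theorem hashPoly_coeff (D q : ℕ) (a b : ℕ → ℕ) (k : ℕ) (h1 : 1 ≤ k) (h2 : k < D) :
    (hashPoly D q a b).coeff k = (a k : ZMod q) - (b k : ZMod q) := by
  unfold hashPoly
  rw [Polynomial.finsetSum_coeff]
  rw [Finset.sum_eq_single_of_mem k (Finset.mem_Ico.2 ⟨h1, h2⟩)]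
  · rw [Polynomial.coeff_C_mul, Polynomial.coeff_X_pow, if_pos rfl, mul_one]
  · intro l _ hl
    rw [Polynomial.coeff_C_mul, Polynomial.coeff_X_pow, if_neg (Ne.symm hl), mul_zero]

theorem hashPoly_natDegree (D q : ℕ) (a b : ℕ → ℕ) : (hashPoly D q a b).natDegree ≤ D := by
  unfold hashPoly
  refine Polynomial.natDegree_sum_le_of_forall_le _ _ fun k hk => ?_
  exact (Polynomial.natDegree_C_mul_X_pow_le _ _).trans (Finset.mem_Ico.1 hk).2.le

theorem hashPoly_eval (D q : ℕ) (a b : ℕ → ℕ) (x : ZMod q) :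
    (hashPoly D q a b).eval x
      = ∑ k ∈ Finset.Ico 1 D, x ^ k * (a k : ZMod q) - ∑ k ∈ Finset.Ico 1 D, x ^ k * (b k : ZMod q) := by
  unfold hashPoly
  rw [Polynomial.eval_finsetSum, ← Finset.sum_sub_distrib]
  refine Finset.sum_congr rfl fun k _ => ?_
  simp only [Polynomial.eval_mul, Polynomial.eval_C, Polynomial.eval_pow, Polynomial.eval_X]
  ring

theorem hashPoly_ne_zero {D q : ℕ} (hq2 : 2 < q) (a b : ℕ → ℕ) (ha : ∀ k, a k ≤ 2)
    (hb : ∀ k, b k ≤ 2) (h : ∃ k, 1 ≤ k ∧ k < D ∧ a k ≠ b k) : hashPoly D q a b ≠ 0 := by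
  obtain ⟨k, h1, h2, h3⟩ := h
  intro h0
  have h4 := hashPoly_coeff D q a b k h1 h2
  rw [h0, Polynomial.coeff_zero] at h4
  have h5 : (a k : ZMod q) = (b k : ZMod q) := (sub_eq_zero.1 h4.symm)
  rw [ZMod.natCast_eq_natCast_iff'] at h5
  rw [Nat.mod_eq_of_lt (lt_of_le_of_lt (ha k) hq2), Nat.mod_eq_of_lt (lt_of_le_of_lt (hb k) hq2)] at h5
  exact h3 h5

/-- polynomial hashing modulo a prime separates finitely many vectors with entries `0, 1, 2` -/
theorem exists_hash {D q : ℕ} (hq : q.Prime) (hq2 : 2 < q) {ι : Type} (s : Finset ι)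
    (hs : s.card ≤ D) (hqD : D ^ 3 < q) (v : ι → ℕ → ℕ) (hv : ∀ i k, v i k ≤ 2)
    (hne : ∀ i ∈ s, ∀ j ∈ s, i ≠ j → ∃ k, 1 ≤ k ∧ k < D ∧ v i k ≠ v j k) :
    ∃ rho < q, ∀ i ∈ s, ∀ j ∈ s, i ≠ j →
      ∑ k ∈ Finset.Ico 1 D, (rho ^ k % q) * v i k ≠ ∑ k ∈ Finset.Ico 1 D, (rho ^ k % q) * v j k := by
  classical
  have : Fact q.Prime := ⟨hq⟩
  have : NeZero q := ⟨hq.ne_zero⟩
  let bad : Finset (ZMod q) :=
    s.offDiag.biUnion fun p => (hashPoly D q (v p.1) (v p.2)).roots.toFinset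
  have hbad : bad.card ≤ D ^ 3 := by
    have h1 : bad.card ≤ s.offDiag.card * D := by
      refine Finset.card_biUnion_le_card_mul _ _ _ fun p _ => ?_
      exact (Multiset.toFinset_card_le _).trans
        ((Polynomial.card_roots' _).trans (hashPoly_natDegree D q _ _))
    have h2 : s.offDiag.card ≤ D * D := by
      rw [Finset.offDiag_card]
      exact (Nat.sub_le _ _).trans (Nat.mul_le_mul hs hs)
    calc bad.card ≤ s.offDiag.card * D := h1
      _ ≤ D * D * D := Nat.mul_le_mul_right _ h2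
      _ = D ^ 3 := by ring
  have hcard : bad.card < (Finset.univ : Finset (ZMod q)).card := by
    rw [Finset.card_univ, ZMod.card]
    exact lt_of_le_of_lt hbad hqD
  obtain ⟨x, -, hx⟩ := Finset.exists_mem_notMem_of_card_lt_card hcard
  refine ⟨x.val, ZMod.val_lt x, fun i hi j hj hij heq => hx ?_⟩
  refine Finset.mem_biUnion.2 ⟨(i, j), Finset.mem_offDiag.2 ⟨hi, hj, hij⟩, ?_⟩
  rw [Multiset.mem_toFinset, Polynomial.mem_roots
    (hashPoly_ne_zero hq2 _ _ (hv i) (hv j) (hne i hi j hj hij)), Polynomial.IsRoot.def,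
    hashPoly_eval]
  have key : ∀ i : ι, ((∑ k ∈ Finset.Ico 1 D, (x.val ^ k % q) * v i k : ℕ) : ZMod q)
      = ∑ k ∈ Finset.Ico 1 D, x ^ k * (v i k : ZMod q) := by
    intro i
    rw [Nat.cast_sum]
    refine Finset.sum_congr rfl fun k _ => ?_
    rw [Nat.cast_mul, ZMod.natCast_mod, Nat.cast_pow, ZMod.natCast_zmod_val]
  rw [← key i, ← key j, heq, sub_self]

end Vale.Agent.P337

end

section

/-!
P337, univariate criterion: lower bounds for nonzero values at algebraic integers.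
-/

namespace Vale.Agent.P337

open Polynomial

theorem rootGap_prod_le {F : ℂ → ℂ} {Y : ℝ} (hY : 1 ≤ Y) (T : Multiset ℂ)
    (h : ∀ z ∈ T, ‖F z‖ ≤ Y) : (T.map fun z => ‖F z‖).prod ≤ Y ^ T.card := by
  induction T using Multiset.induction_on with
  | empty => simp
  | cons a T ih =>
    rw [Multiset.map_cons, Multiset.prod_cons, Multiset.card_cons, pow_succ, mul_comm]
    refine mul_le_mul (ih fun z hz => h z (Multiset.mem_cons_of_mem hz))
      (h a (Multiset.mem_cons_self a T)) (norm_nonneg _) (by positivity)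

/-- the characteristic polynomial of `h` on the roots of `f` is an integer polynomial -/
theorem rootGap_charpoly {f h : ℤ[X]} (hf : f.Monic) :
    ∃ P : ℤ[X], P.map (Int.castRingHom ℂ) =
      ((f.map (Int.castRingHom ℂ)).roots.map
        fun z => X - C ((h.map (Int.castRingHom ℂ)).eval z)).prod := by
  set ι : ℤ →+* ℂ := Int.castRingHom ℂ with hι
  set f' : ℤ[X][X] := f.map C with hf'
  set g' : ℤ[X][X] := C X - h.map C with hg'
  refine ⟨resultant f' g' f.natDegree h.natDegree, ?_⟩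
  refine Polynomial.funext fun t => ?_
  -- evaluate at `t`
  set φ : ℤ[X] →+* ℂ := eval₂RingHom ι t with hφ
  have h1 : φ (resultant f' g' f.natDegree h.natDegree) =
      resultant (f'.map φ) (g'.map φ) f.natDegree h.natDegree := by
    rw [resultant_map_map]
  have h2 : f'.map φ = f.map ι := by
    rw [hf', Polynomial.map_map]
    congr 1
    ext x
    simp
  have h3 : g'.map φ = C t - h.map ι := by
    rw [hg', Polynomial.map_sub, Polynomial.map_map, Polynomial.map_C]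
    congr 1
    · simp [hφ]
    · congr 1
      ext x
      simp
  have h4 : (Polynomial.map ι (resultant f' g' f.natDegree h.natDegree)).eval t =
      φ (resultant f' g' f.natDegree h.natDegree) := by
    rw [hφ, coe_eval₂RingHom, eval_map]
  have hmon : (f.map ι).Monic := hf.map _
  have hdeg : (f.map ι).natDegree = f.natDegree := hf.natDegree_map _
  rw [h4, h1, h2, h3, ← hdeg, resultant_eq_prod_eval _ _ _ _ (IsAlgClosed.splits _),
    hmon.leadingCoeff, one_pow, one_mul, eval_multiset_prod, Multiset.map_map]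
  · congr 1
    refine Multiset.map_congr rfl fun z _ => ?_
    simp
  · refine (natDegree_sub_le _ _).trans ?_
    rw [natDegree_C]
    simpa using natDegree_map_le

/-- for monic integer `f` and integer `h`, nonzero values of `h` at roots of `f` are not small -/
theorem root_gap {f h : ℤ[X]} (hf : f.Monic) {D : ℕ} (hD : f.natDegree = D) {Y : ℝ} (hY : 1 ≤ Y)
    (hb : ∀ z ∈ (f.map (Int.castRingHom ℂ)).roots, ‖(h.map (Int.castRingHom ℂ)).eval z‖ ≤ Y)
    {z : ℂ} (hz : z ∈ (f.map (Int.castRingHom ℂ)).roots)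
    (hne : (h.map (Int.castRingHom ℂ)).eval z ≠ 0) :
    1 ≤ ‖(h.map (Int.castRingHom ℂ)).eval z‖ * Y ^ D := by
  classical
  obtain ⟨P, hP⟩ := rootGap_charpoly (h := h) hf
  set R : Multiset ℂ := (f.map (Int.castRingHom ℂ)).roots with hR
  set F : ℂ → ℂ := fun z => (h.map (Int.castRingHom ℂ)).eval z with hF
  set S : Multiset ℂ := R.filter fun z => F z ≠ 0 with hS
  set S0 : Multiset ℂ := R.filter fun z => ¬ F z ≠ 0 with hS0
  have hsplit : S + S0 = R := Multiset.filter_add_not _ _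
  have hprod : (R.map fun z => X - C (F z)).prod =
      (S.map fun z => X - C (F z)).prod * X ^ S0.card := by
    rw [← hsplit, Multiset.map_add, Multiset.prod_add]
    congr 1
    rw [← Multiset.prod_replicate]
    congr 1
    refine Multiset.eq_replicate.2 ⟨by simp, fun b hb => ?_⟩
    obtain ⟨w, hw, rfl⟩ := Multiset.mem_map.1 hb
    have : F w = 0 := by
      have := (Multiset.mem_filter.1 hw).2
      exact not_not.1 this
    simp [this]
  have hcoeff : ((P.coeff S0.card : ℤ) : ℂ) = (S.map fun z => -F z).prod := by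
    have h1 : (P.map (Int.castRingHom ℂ)).coeff S0.card = ((P.coeff S0.card : ℤ) : ℂ) := by
      rw [coeff_map]
      rfl
    have h2 : ((S.map fun z => X - C (F z)).prod * X ^ S0.card).coeff S0.card =
        ((S.map fun z => X - C (F z)).prod).coeff 0 := by
      have := coeff_mul_X_pow ((S.map fun z => X - C (F z)).prod) S0.card 0
      simpa using this
    rw [← h1, hP, hprod, h2, coeff_zero_eq_eval_zero, eval_multiset_prod, Multiset.map_map]
    congr 1
    refine Multiset.map_congr rfl fun z _ => ?_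
    simp
  have hne0 : (S.map fun z => -F z).prod ≠ 0 := by
    intro h0
    obtain ⟨w, hw, hw0⟩ := Multiset.mem_map.1 (Multiset.prod_eq_zero_iff.1 h0)
    exact (Multiset.mem_filter.1 hw).2 (neg_eq_zero.1 hw0)
  have hint : P.coeff S0.card ≠ 0 := by
    intro h0
    rw [h0] at hcoeff
    exact hne0 (by rw [← hcoeff]; simp)
  have hnorm1 : 1 ≤ ‖((P.coeff S0.card : ℤ) : ℂ)‖ := by
    rw [Complex.norm_intCast]
    have := Int.one_le_abs hint
    exact_mod_cast this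
  have hnorm2 : ‖(S.map fun z => -F z).prod‖ = (S.map fun z => ‖F z‖).prod := by
    have := map_multiset_prod (normHom : ℂ →*₀ ℝ) (S.map fun z => -F z)
    rw [Multiset.map_map] at this
    simpa using this
  have hzS : z ∈ S := Multiset.mem_filter.2 ⟨hz, hne⟩
  rw [hcoeff, hnorm2, ← Multiset.cons_erase hzS, Multiset.map_cons, Multiset.prod_cons] at hnorm1
  refine hnorm1.trans (mul_le_mul_of_nonneg_left ?_ (norm_nonneg _))
  have hle : ((S.erase z).map fun z => ‖F z‖).prod ≤ Y ^ (S.erase z).card := by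
    refine rootGap_prod_le hY _ fun w hw => ?_
    exact hb w (Multiset.mem_of_mem_filter (Multiset.mem_of_mem_erase hw))
  refine hle.trans (pow_le_pow_right₀ hY ?_)
  calc (S.erase z).card ≤ S.card := Multiset.card_erase_le
    _ ≤ R.card := Multiset.card_le_card (Multiset.filter_le _ _)
    _ ≤ (f.map (Int.castRingHom ℂ)).natDegree := card_roots' _
    _ ≤ D := by rw [← hD]; exact natDegree_map_le

end Vale.Agent.P337

end

section

/-!
P337, univariate criterion: the values at the real roots.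
-/

namespace Vale.Agent.P337

open Polynomial

namespace UP

variable (U : UP)

/-- the step function quotient -/
noncomputable def rrq (t : ℝ) : ℝ :=
  (U.a : ℝ) * U.pm t / ((U.a : ℝ) * U.pm t + (U.a' : ℝ) * U.pp t)

/-- denominators at a number -/
noncomputable def rrB (f : ℝ[X]) (x : ℝ) (j : ℕ) : ℝ :=
  (U.a : ℝ) * U.pm ((U.y f j).eval x) + (U.a' : ℝ) * U.pp ((U.y f j).eval x)

theorem rrB_pos (ha : 0 < U.a) (ha' : 0 < U.a') (f : ℝ[X]) (x : ℝ) (j : ℕ) :
    0 < U.rrB f x j := U.den_pos ha ha' _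

theorem rr_eval_PP (ha : 0 < U.a) (ha' : 0 < U.a') (f : ℝ[X]) (x : ℝ) :
    (U.PP f).eval x = (∏ j ∈ Finset.range U.D, U.rrB f x j) *
      ((U.Z : ℝ) * (∑ k ∈ Finset.range U.D, (U.w k : ℝ) * U.rrq ((U.y f k).eval x)) - U.Th) := by
  have h1 : (U.PP f).eval x =
      (∑ k ∈ Finset.range U.D, ((U.Z * U.w k * U.a : ℕ) : ℝ) * U.pm ((U.y f k).eval x) *
        ∏ j ∈ Finset.range U.D, if j = k then 1 else U.rrB f x j) -
      (U.Th : ℝ) * ∏ j ∈ Finset.range U.D, U.rrB f x j := U.eval_PP f x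
  rw [h1, mul_sub, Finset.mul_sum, Finset.mul_sum, mul_comm (U.Th : ℝ)]
  congr 1
  apply Finset.sum_congr rfl
  intro k hk
  have h2 : U.rrB f x k * ∏ j ∈ Finset.range U.D, (if j = k then 1 else U.rrB f x j) =
      ∏ j ∈ Finset.range U.D, U.rrB f x j := by
    have h3 : U.rrB f x k = ∏ j ∈ Finset.range U.D, (if j = k then U.rrB f x j else 1) := by
      rw [Finset.prod_ite_eq' (Finset.range U.D) k, if_pos hk]
    rw [h3, ← Finset.prod_mul_distrib]
    apply Finset.prod_congr rfl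
    intro j _
    split_ifs
    · rw [mul_one]
    · rw [one_mul]
  have h4 := (U.rrB_pos ha ha' f x k).ne'
  have h5 : U.rrq ((U.y f k).eval x) = (U.a : ℝ) * U.pm ((U.y f k).eval x) / U.rrB f x k := rfl
  rw [← h2, h5]
  push_cast
  field_simp

theorem rr_prod_pos (ha : 0 < U.a) (ha' : 0 < U.a') (f : ℝ[X]) (x : ℝ) :
    0 < ∏ j ∈ Finset.range U.D, U.rrB f x j :=
  Finset.prod_pos fun j _ => U.rrB_pos ha ha' f x j

theorem rrq_nonneg (ha : 0 < U.a) (ha' : 0 < U.a') (t : ℝ) : 0 ≤ U.rrq t := by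
  unfold rrq
  exact div_nonneg (mul_nonneg (Nat.cast_nonneg _) (U.pm_nonneg t)) (U.den_pos ha ha' t).le

theorem rrq_le_one (ha : 0 < U.a) (ha' : 0 < U.a') (t : ℝ) : U.rrq t ≤ 1 := by
  unfold rrq
  rw [div_le_one (U.den_pos ha ha' t)]
  have := mul_nonneg (Nat.cast_nonneg (α := ℝ) U.a') (U.pp_nonneg t)
  linarith

/-- `t` matches the sign code `v` -/
def rrOK (v : ℕ) (t : ℝ) : Prop :=
  (v = 0 ∧ 1 ≤ t ∧ t ≤ 2 ^ (U.M + 1)) ∨ (v = 1 ∧ t = 0) ∨
    (v = 2 ∧ t ≤ -1 ∧ -2 ^ (U.M + 1) ≤ t)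

theorem rrq_near {δ : ℝ} (ha : 0 < U.a) (haa : U.a ≤ U.a') (haa' : U.a' ≤ 2 * U.a)
    (h1 : 2 * (1 / 9 : ℝ) ^ U.kap ≤ δ)
    (h2 : ((U.a' : ℝ) - U.a) / (2 * (U.a + U.a')) ≤ δ) {t : ℝ} {v : ℕ} (h : U.rrOK v t) :
    |U.rrq t - (v : ℝ) / 2| ≤ δ := by
  have ha' : 0 < U.a' := lt_of_lt_of_le ha haa
  have hp : (0 : ℝ) ≤ (1 / 9 : ℝ) ^ U.kap := by positivity
  rcases h with ⟨hv, h3, h4⟩ | ⟨hv, h3⟩ | ⟨hv, h3, h4⟩
  · have h5 : U.rrq t ≤ (1 / 9 : ℝ) ^ U.kap := U.u_le_of_pos ha haa h3 h4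
    have h6 := U.rrq_nonneg ha ha' t
    rw [hv, Nat.cast_zero, zero_div, sub_zero, abs_of_nonneg h6]
    linarith
  · have h5 : U.rrq 0 = (U.a : ℝ) / (U.a + U.a') := U.u_zero ha ha'
    have haR : (0 : ℝ) < U.a := by exact_mod_cast ha
    have haR' : (0 : ℝ) < U.a' := by exact_mod_cast ha'
    have haaR : (U.a : ℝ) ≤ U.a' := by exact_mod_cast haa
    rw [hv, h3, h5, Nat.cast_one]
    have h6 : (U.a : ℝ) / (U.a + U.a') - 1 / 2 = -(((U.a' : ℝ) - U.a) / (2 * (U.a + U.a'))) := by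
      field_simp
      ring
    rw [h6, abs_neg, abs_of_nonneg]
    · exact h2
    · apply div_nonneg <;> linarith
  · have h5 : 1 - U.rrq t ≤ 2 * (1 / 9 : ℝ) ^ U.kap := U.one_sub_u_le_of_neg ha haa haa' h3 h4
    have h6 := U.rrq_le_one ha ha' t
    have h7 : U.rrq t - ((2 : ℕ) : ℝ) / 2 = -(1 - U.rrq t) := by
      push_cast
      ring
    rw [hv, h7, abs_neg, abs_of_nonneg (by linarith)]
    linarith

theorem rr_sum_near {δ Wt : ℝ} (ha : 0 < U.a) (haa : U.a ≤ U.a') (haa' : U.a' ≤ 2 * U.a)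
    (h1 : 2 * (1 / 9 : ℝ) ^ U.kap ≤ δ)
    (h2 : ((U.a' : ℝ) - U.a) / (2 * (U.a + U.a')) ≤ δ)
    (hW : ∑ k ∈ Finset.range U.D, (U.w k : ℝ) ≤ Wt) (hδ : 0 ≤ δ) (hδW : δ * Wt ≤ 1 / 32)
    (t : ℕ → ℝ) (V : ℕ → ℕ) (h : ∀ k < U.D, U.rrOK (V k) (t k)) :
    |∑ k ∈ Finset.range U.D, (U.w k : ℝ) * U.rrq (t k) -
      (∑ k ∈ Finset.range U.D, ((U.w k * V k : ℕ) : ℝ)) / 2| ≤ 1 / 32 := by
  have h3 : ∑ k ∈ Finset.range U.D, (U.w k : ℝ) * U.rrq (t k) -
      (∑ k ∈ Finset.range U.D, ((U.w k * V k : ℕ) : ℝ)) / 2 =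
      ∑ k ∈ Finset.range U.D, (U.w k : ℝ) * (U.rrq (t k) - (V k : ℝ) / 2) := by
    rw [Finset.sum_div, ← Finset.sum_sub_distrib]
    apply Finset.sum_congr rfl
    intro k _
    push_cast
    ring
  rw [h3]
  refine (Finset.abs_sum_le_sum_abs _ _).trans ?_
  have h4 : ∀ k ∈ Finset.range U.D, |(U.w k : ℝ) * (U.rrq (t k) - (V k : ℝ) / 2)| ≤
      (U.w k : ℝ) * δ := by
    intro k hk
    rw [abs_mul, abs_of_nonneg (Nat.cast_nonneg (α := ℝ) (U.w k))]
    exact mul_le_mul_of_nonneg_left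
      (U.rrq_near ha haa haa' h1 h2 (h k (Finset.mem_range.mp hk))) (Nat.cast_nonneg _)
  refine (Finset.sum_le_sum h4).trans ?_
  rw [← Finset.sum_mul, mul_comm]
  exact (mul_le_mul_of_nonneg_left hW hδ).trans hδW

theorem rr_sum_ge (ha : 0 < U.a) (haa : U.a ≤ U.a') (haa' : U.a' ≤ 2 * U.a) (hD : 1 ≤ U.D)
    (t : ℕ → ℝ) (ht : t 0 ≤ 0) :
    (U.w 0 : ℝ) / 3 ≤ ∑ k ∈ Finset.range U.D, (U.w k : ℝ) * U.rrq (t k) := by
  have ha' : 0 < U.a' := lt_of_lt_of_le ha haa
  have h1 : (U.w 0 : ℝ) * U.rrq (t 0) ≤ ∑ k ∈ Finset.range U.D, (U.w k : ℝ) * U.rrq (t k) :=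
    Finset.single_le_sum (f := fun k => (U.w k : ℝ) * U.rrq (t k))
      (fun k _ => mul_nonneg (Nat.cast_nonneg _) (U.rrq_nonneg ha ha' _))
      (Finset.mem_range.mpr (by omega))
  refine le_trans ?_ h1
  have h2 : (U.a : ℝ) / (U.a + U.a') ≤ U.rrq (t 0) := U.u_ge_of_nonpos ha ha' ht
  have haR : (0 : ℝ) < U.a := by exact_mod_cast ha
  have haR' : (0 : ℝ) < U.a' := by exact_mod_cast ha'
  have haaR : (U.a' : ℝ) ≤ 2 * U.a := by exact_mod_cast haa'
  have h3 : (1 : ℝ) / 3 ≤ (U.a : ℝ) / (U.a + U.a') := by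
    rw [div_le_div_iff₀ (by norm_num) (by positivity)]
    linarith
  have h4 : (U.w 0 : ℝ) * (1 / 3) ≤ (U.w 0 : ℝ) * U.rrq (t 0) :=
    mul_le_mul_of_nonneg_left (h3.trans h2) (Nat.cast_nonneg _)
  linarith

end UP

theorem rr_eval_ofReal (h : ℤ[X]) (x : ℝ) :
    (h.map (Int.castRingHom ℂ)).eval (x : ℂ) =
      (((h.map (Int.castRingHom ℝ)).eval x : ℝ) : ℂ) := by
  have h1 : h.map (Int.castRingHom ℂ) = (h.map (Int.castRingHom ℝ)).map Complex.ofRealHom := by
    rw [Polynomial.map_map]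
    congr 1
  rw [h1]
  exact Polynomial.eval_map_apply Complex.ofRealHom x

theorem rr_mem_roots {f : ℤ[X]} (hf : f.Monic) {x : ℝ}
    (hx : (f.map (Int.castRingHom ℝ)).eval x = 0) :
    (x : ℂ) ∈ (f.map (Int.castRingHom ℂ)).roots := by
  rw [Polynomial.mem_roots (hf.map _).ne_zero, Polynomial.IsRoot.def, rr_eval_ofReal, hx,
    Complex.ofReal_zero]

theorem rr_gap {f h : ℤ[X]} (hf : f.Monic) {D : ℕ} (hD : f.natDegree = D) {S M Y : ℕ}
    (hY : 1 ≤ Y) (hS : Y ^ D ≤ S) (hM : S * Y ≤ 2 ^ (M + 1))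
    (hb : ∀ z ∈ (f.map (Int.castRingHom ℂ)).roots, ‖(h.map (Int.castRingHom ℂ)).eval z‖ ≤ Y)
    {x : ℝ} (hx : (f.map (Int.castRingHom ℝ)).eval x = 0)
    (hne : (h.map (Int.castRingHom ℝ)).eval x ≠ 0) :
    1 ≤ (S : ℝ) * |(h.map (Int.castRingHom ℝ)).eval x| ∧
      (S : ℝ) * |(h.map (Int.castRingHom ℝ)).eval x| ≤ 2 ^ (M + 1) := by
  have hmem := rr_mem_roots hf hx
  have hnorm : ‖(h.map (Int.castRingHom ℂ)).eval (x : ℂ)‖ =
      |(h.map (Int.castRingHom ℝ)).eval x| := by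
    rw [rr_eval_ofReal, Complex.norm_real, Real.norm_eq_abs]
  have hYR : (1 : ℝ) ≤ Y := by exact_mod_cast hY
  have h1 := root_gap hf hD hYR hb hmem (by
    rw [rr_eval_ofReal]
    exact_mod_cast hne)
  have h2 := hb _ hmem
  rw [hnorm] at h1 h2
  constructor
  · have h3 : ((Y : ℝ)) ^ D ≤ S := by exact_mod_cast hS
    refine h1.trans ?_
    rw [mul_comm]
    exact mul_le_mul_of_nonneg_right h3 (abs_nonneg _)
  · have h3 : (S : ℝ) * Y ≤ 2 ^ (M + 1) := by exact_mod_cast hM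
    exact (mul_le_mul_of_nonneg_left h2 (Nat.cast_nonneg _)).trans h3

/-- the sign code of a real number -/
noncomputable def rrCode (t : ℝ) : ℕ := if 0 < t then 0 else if t = 0 then 1 else 2

theorem rrCode_le (t : ℝ) : rrCode t ≤ 2 := by
  unfold rrCode
  split_ifs <;> omega

theorem rrCode_of_pos {t : ℝ} (h : 0 < t) : rrCode t = 0 := if_pos h

theorem rrCode_of_zero {t : ℝ} (h : t = 0) : rrCode t = 1 := by
  unfold rrCode
  rw [if_neg (by rw [h]; exact lt_irrefl 0), if_pos h]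

theorem rrCode_of_neg {t : ℝ} (h : t < 0) : rrCode t = 2 := by
  unfold rrCode
  rw [if_neg (not_lt.mpr h.le), if_neg h.ne]

theorem rrCode_eq {s t : ℝ} (h : rrCode s = rrCode t) : SignType.sign s = SignType.sign t := by
  rcases lt_trichotomy s 0 with hs | hs | hs <;> rcases lt_trichotomy t 0 with ht | ht | ht
  · rw [sign_neg hs, sign_neg ht]
  · rw [rrCode_of_neg hs, rrCode_of_zero ht] at h
    omega
  · rw [rrCode_of_neg hs, rrCode_of_pos ht] at h
    omega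
  · rw [rrCode_of_zero hs, rrCode_of_neg ht] at h
    omega
  · rw [hs, ht]
  · rw [rrCode_of_zero hs, rrCode_of_pos ht] at h
    omega
  · rw [rrCode_of_pos hs, rrCode_of_neg ht] at h
    omega
  · rw [rrCode_of_pos hs, rrCode_of_zero ht] at h
    omega
  · rw [sign_pos hs, sign_pos ht]

theorem rr_ok {U : UP} {D : ℕ} {f h : ℤ[X]} (hf : f.Monic) (hD : f.natDegree = D) {Y : ℕ}
    (hY : 1 ≤ Y) (hS : Y ^ D ≤ U.S) (hM : U.S * Y ≤ 2 ^ (U.M + 1))
    (hb : ∀ z ∈ (f.map (Int.castRingHom ℂ)).roots, ‖(h.map (Int.castRingHom ℂ)).eval z‖ ≤ Y)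
    {x : ℝ} (hx : (f.map (Int.castRingHom ℝ)).eval x = 0) :
    U.rrOK (rrCode ((h.map (Int.castRingHom ℝ)).eval x))
      ((U.S : ℝ) * (h.map (Int.castRingHom ℝ)).eval x) := by
  obtain ⟨t, ht⟩ : ∃ t : ℝ, t = (h.map (Int.castRingHom ℝ)).eval x := ⟨_, rfl⟩
  have h1 := rr_gap hf hD hY hS hM hb hx
  rw [← ht] at h1 ⊢
  unfold UP.rrOK rrCode
  rcases lt_trichotomy t 0 with h2 | h2 | h2
  · right; right
    obtain ⟨h3, h4⟩ := h1 h2.ne
    rw [abs_of_neg h2] at h3 h4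
    refine ⟨?_, by linarith, by linarith⟩
    rw [if_neg (not_lt.mpr h2.le), if_neg h2.ne]
  · right; left
    refine ⟨?_, ?_⟩
    · rw [if_neg (by rw [h2]; exact lt_irrefl 0), if_pos h2]
    · rw [h2, mul_zero]
  · left
    obtain ⟨h3, h4⟩ := h1 h2.ne'
    rw [abs_of_pos h2] at h3 h4
    exact ⟨if_pos h2, h3, h4⟩

theorem rr_bound_der {f : ℤ[X]} (hf : f.Monic) {D : ℕ} (hfD : f.natDegree = D) {u : ℕ} (C : ℕ)
    (hu : ∀ z ∈ (f.map (Int.castRingHom ℂ)).roots, ‖z‖ ≤ u) (k : ℕ) :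
    ∀ z ∈ (f.map (Int.castRingHom ℂ)).roots,
      ‖((derivative^[k] f).map (Int.castRingHom ℂ)).eval z‖ ≤ (thY D C u : ℕ) := by
  intro z hz
  rw [← Polynomial.iterate_derivative_map]
  have h1 := derivative_bound (hf.map (Int.castRingHom ℂ))
    (by rw [hf.natDegree_map, hfD]) (Nat.cast_nonneg u) hu k (hu z hz)
  refine h1.trans ?_
  unfold thY
  push_cast
  have : (0 : ℝ) ≤ C := Nat.cast_nonneg _
  have : (0 : ℝ) ≤ u := Nat.cast_nonneg _
  linarith

theorem rr_bound_zero {f : ℤ[X]} {D u : ℕ} (C : ℕ)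
    (hu : ∀ z ∈ (f.map (Int.castRingHom ℂ)).roots, ‖z‖ ≤ u) :
    ∀ z ∈ (f.map (Int.castRingHom ℂ)).roots,
      ‖((Polynomial.C (C : ℤ) - X).map (Int.castRingHom ℂ)).eval z‖ ≤ (thY D C u : ℕ) := by
  intro z hz
  have h1 : ((Polynomial.C (C : ℤ) - X).map (Int.castRingHom ℂ)).eval z = (C : ℂ) - z := by
    simp
  rw [h1]
  have h2 := norm_sub_le (C : ℂ) z
  have h3 := hu z hz
  rw [Complex.norm_natCast] at h2
  unfold thY
  push_cast
  have : (0 : ℝ) ≤ ((D : ℝ) * (2 * u + 1)) ^ D := by positivity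
  linarith

theorem rr_thY_pos {D C u : ℕ} (hD : 1 ≤ D) : 1 ≤ thY D C u := by
  unfold thY
  have : 0 < (D * (2 * u + 1)) ^ D := by positivity
  omega

/-- the numeric facts about the weights -/
theorem rr_weights {D C S M kap a a' Z Th w0 rho q : ℕ} (hq : q ≤ 2 * D ^ 3 + 6) (hq0 : 0 < q) :
    ∑ k ∈ Finset.range D, ((UP.w ⟨D, C, S, M, kap, a, a', Z, Th, w0, rho, q⟩ k : ℕ) : ℝ) ≤
      ((D * (2 * D ^ 3 + 6) + w0 : ℕ) : ℝ) := by
  have h1 : ∑ k ∈ Finset.range D, UP.w ⟨D, C, S, M, kap, a, a', Z, Th, w0, rho, q⟩ k ≤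
      D * (2 * D ^ 3 + 6) + w0 := by
    have h2 : ∀ k ∈ Finset.range D, UP.w ⟨D, C, S, M, kap, a, a', Z, Th, w0, rho, q⟩ k ≤
        (2 * D ^ 3 + 6) + (if k = 0 then w0 else 0) := by
      intro k _
      unfold UP.w
      by_cases hk : k = 0
      · simp [hk]
      · simp only [if_neg hk, if_neg hq0.ne']
        have := Nat.mod_lt (rho ^ k) hq0
        omega
    refine (Finset.sum_le_sum h2).trans ?_
    rw [Finset.sum_add_distrib, Finset.sum_const, Finset.card_range, smul_eq_mul]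
    have h3 : ∑ k ∈ Finset.range D, (if k = 0 then w0 else 0) ≤ w0 := by
      rw [Finset.sum_ite_eq' (Finset.range D) 0]
      split_ifs <;> omega
    omega
  exact_mod_cast h1

theorem rr_weighted {D C S M kap a a' Z Th w0 rho q : ℕ} (hD : 1 ≤ D) (hq0 : 0 < q)
    (v : ℕ → ℕ) :
    ∑ k ∈ Finset.range D, ((UP.w ⟨D, C, S, M, kap, a, a', Z, Th, w0, rho, q⟩ k *
      (if k = 0 then 0 else v k) : ℕ) : ℝ) =
      ((∑ k ∈ Finset.Ico 1 D, (rho ^ k % q) * v k : ℕ) : ℝ) := by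
  rw [← Nat.cast_sum]
  congr 1
  rw [Finset.range_eq_Ico, Finset.sum_eq_sum_Ico_succ_bot (by omega : 0 < D)]
  simp only [if_true, mul_zero, zero_add]
  apply Finset.sum_congr rfl
  intro k hk
  have hk0 : k ≠ 0 := by
    have := (Finset.mem_Ico.mp hk).1
    omega
  unfold UP.w
  simp only [if_neg hk0, if_neg hq0.ne']

theorem rr_W_le {D q rho : ℕ} (hD : 1 ≤ D) (hq : q ≤ 2 * D ^ 3 + 6) (hq0 : 0 < q) (v : ℕ → ℕ)
    (hv : ∀ k, v k ≤ 2) :
    ∑ k ∈ Finset.Ico 1 D, (rho ^ k % q) * v k ≤ D * ((2 * D ^ 3 + 6) * 2) := by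
  have h1 : ∀ k ∈ Finset.Ico 1 D, (rho ^ k % q) * v k ≤ (2 * D ^ 3 + 6) * 2 := by
    intro k _
    exact Nat.mul_le_mul ((Nat.mod_lt _ hq0).le.trans hq) (hv k)
  refine (Finset.sum_le_card_nsmul _ _ _ h1).trans ?_
  rw [Nat.card_Ico, smul_eq_mul]
  exact Nat.mul_le_mul_right _ (by omega)

theorem rr_delta1 {kap Wt : ℕ} (h0 : 1 ≤ Wt) (hkap : 64 * Wt ≤ 2 ^ kap) :
    2 * (1 / 9 : ℝ) ^ kap ≤ 1 / (32 * Wt) := by
  have hWtR : (1 : ℝ) ≤ Wt := by exact_mod_cast h0
  have h1 : (1 / 9 : ℝ) ^ kap ≤ (1 / 2 : ℝ) ^ kap := by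
    apply pow_le_pow_left₀ (by norm_num) (by norm_num)
  have h2 : (64 * Wt : ℝ) ≤ 2 ^ kap := by exact_mod_cast hkap
  have h3 : (1 / 2 : ℝ) ^ kap ≤ 1 / (64 * Wt) := by
    rw [div_pow, one_pow]
    apply one_div_le_one_div_of_le (by positivity) h2
  have h4 : 2 * (1 / (64 * (Wt : ℝ))) = 1 / (32 * Wt) := by
    field_simp
    norm_num
  rw [← h4]
  linarith

theorem rr_delta2 {a a' D Wt : ℕ} (h0 : 1 ≤ Wt) (ha : 32 * (D ^ 2 + 1) * Wt ≤ a) (ha1 : a ≤ a')
    (ha2 : a' ≤ a + D ^ 2) : ((a' : ℝ) - a) / (2 * (a + a')) ≤ 1 / (32 * Wt) := by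
  have hWtR : (1 : ℝ) ≤ Wt := by exact_mod_cast h0
  have h1 : (a' : ℝ) ≤ a + D ^ 2 := by exact_mod_cast ha2
  have h2 : (32 * ((D : ℝ) ^ 2 + 1) * Wt) ≤ a := by exact_mod_cast ha
  have h3 : (a : ℝ) ≤ a' := by exact_mod_cast ha1
  have h4 : (0 : ℝ) < a := by
    have : (0 : ℝ) < 32 * ((D : ℝ) ^ 2 + 1) * Wt := by positivity
    linarith
  rw [div_le_div_iff₀ (by positivity) (by positivity)]
  have h5 : ((a' : ℝ) - a) * (32 * Wt) ≤ (D : ℝ) ^ 2 * (32 * Wt) := by
    apply mul_le_mul_of_nonneg_right (by linarith) (by positivity)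
  have h6 : 32 * ((D : ℝ) ^ 2 + 1) * Wt = (D : ℝ) ^ 2 * (32 * Wt) + 32 * Wt := by ring
  have h7 : (0 : ℝ) ≤ 32 * Wt := by positivity
  linarith

theorem rr_num_neg {D Th W s : ℝ} (hD : 0 ≤ D) (h1 : s - W / 2 ≤ 1 / 32)
    (h2 : 4 * (D + 2) * W + (D + 2) ≤ Th) : 8 * (D + 2) * s - Th < 0 := by
  have h3 : 8 * (D + 2) * s ≤ 8 * (D + 2) * (W / 2 + 1 / 32) :=
    mul_le_mul_of_nonneg_left (by linarith) (by linarith)
  have h4 : 8 * (D + 2) * (W / 2 + 1 / 32) = 4 * (D + 2) * W + (D + 2) / 4 := by ring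
  linarith

theorem rr_num_pos {D Th W W' s : ℝ} (hD : 0 ≤ D) (h1 : -(1 / 32) ≤ s - W' / 2)
    (h2 : Th ≤ 4 * (D + 2) * W + (D + 2) + 2 * (D + 2)) (h3 : W + 1 ≤ W') :
    0 < 8 * (D + 2) * s - Th := by
  have h4 : 8 * (D + 2) * ((W + 1) / 2 - 1 / 32) ≤ 8 * (D + 2) * s :=
    mul_le_mul_of_nonneg_left (by linarith) (by linarith)
  have h5 : 8 * (D + 2) * ((W + 1) / 2 - 1 / 32) =
    4 * (D + 2) * W + 4 * (D + 2) - (D + 2) / 4 := by ring
  linarith

theorem rr_T0 {D Wm w0 Z : ℕ} (hw0 : w0 = 6 * D * (D ^ 3 + 3) + 4) (hZ : Z = 8 * (D + 2))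
    (hW : Wm ≤ D * ((2 * D ^ 3 + 6) * 2)) :
    3 * (4 * (D + 2) * Wm + (D + 2) + D + 2 + D + 2) < Z * w0 := by
  rw [hZ, hw0]
  have h1 : 3 * (4 * (D + 2) * Wm + (D + 2) + D + 2 + D + 2) = (D + 2) * (12 * Wm + 9) := by
    ring
  have h2 : 8 * (D + 2) * (6 * D * (D ^ 3 + 3) + 4) = (D + 2) * (48 * (D * (D ^ 3 + 3)) + 32) := by
    ring
  rw [h1, h2]
  apply Nat.mul_lt_mul_of_pos_left _ (by omega)
  have h3 : 12 * Wm ≤ 48 * (D * (D ^ 3 + 3)) := by
    calc 12 * Wm ≤ 12 * (D * ((2 * D ^ 3 + 6) * 2)) := Nat.mul_le_mul_left _ hW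
      _ = 48 * (D * (D ^ 3 + 3)) := by ring
  omega

/-- the values below `C` -/
theorem rr_below {f : ℤ[X]} (hf : f.Monic) {D : ℕ} (hD : 1 ≤ D) (hfD : f.natDegree = D)
    {u C S M kap a a' w0 Z Th rho q Wt : ℕ}
    (hu : ∀ z ∈ (f.map (Int.castRingHom ℂ)).roots, ‖z‖ ≤ u)
    (hS : thY D C u ^ D ≤ S) (hM : S * thY D C u ≤ 2 ^ (M + 1))
    (hq : q ≤ 2 * D ^ 3 + 6) (hq0 : 0 < q) (hWt : Wt = D * (2 * D ^ 3 + 6) + w0)
    (hWt1 : 1 ≤ Wt) (hkap : 64 * Wt ≤ 2 ^ kap) (ha : 32 * (D ^ 2 + 1) * Wt ≤ a)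
    (ha1 : a ≤ a') (ha2 : a' ≤ a + D ^ 2) (ha3 : a' ≤ 2 * a) (ha0 : 0 < a)
    {U : UP} (hU : U = ⟨D, C, S, M, kap, a, a', Z, Th, w0, rho, q⟩) {F : ℝ[X]}
    (hF : F = f.map (Int.castRingHom ℝ)) {x : ℝ} (hx : F.eval x = 0) (hxC : x < C) :
    |∑ k ∈ Finset.range U.D, (U.w k : ℝ) * U.rrq ((U.y F k).eval x) -
      ((∑ k ∈ Finset.Ico 1 D, (rho ^ k % q) * rrCode ((derivative^[k] F).eval x) : ℕ) : ℝ) / 2| ≤
        1 / 32 := by
  have hUD : U.D = D := by rw [hU]
  have hUa : U.a = a := by rw [hU]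
  have hUa' : U.a' = a' := by rw [hU]
  have hUS : U.S = S := by rw [hU]
  have hUM : U.M = M := by rw [hU]
  have hUC : U.C = C := by rw [hU]
  have hUkap : U.kap = kap := by rw [hU]
  have hWtR : (1 : ℝ) ≤ Wt := by exact_mod_cast hWt1
  have hδ0 : (0 : ℝ) ≤ 1 / (32 * Wt) := by positivity
  have hδW : (1 / (32 * Wt) : ℝ) * Wt ≤ 1 / 32 := by
    apply le_of_eq
    field_simp
  have hk1 : 2 * (1 / 9 : ℝ) ^ U.kap ≤ 1 / (32 * Wt) := by
    rw [hUkap]
    exact rr_delta1 hWt1 hkap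
  have hk2 : ((U.a' : ℝ) - U.a) / (2 * (U.a + U.a')) ≤ 1 / (32 * Wt) := by
    rw [hUa, hUa']
    exact rr_delta2 hWt1 ha ha1 ha2
  have hWs : ∑ k ∈ Finset.range U.D, (U.w k : ℝ) ≤ Wt := by
    have := rr_weights (D := D) (C := C) (S := S) (M := M) (kap := kap) (a := a) (a' := a')
      (Z := Z) (Th := Th) (w0 := w0) (rho := rho) hq hq0
    rw [← hU, ← hWt] at this
    rw [hUD]
    exact this
  have hfx : (f.map (Int.castRingHom ℝ)).eval x = 0 := by rw [← hF]; exact hx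
  have hok : ∀ k < U.D, U.rrOK (if k = 0 then 0 else rrCode ((derivative^[k] F).eval x))
      ((U.y F k).eval x) := by
    intro k _
    by_cases hk : k = 0
    · have h1 := rr_ok (U := U) hf hfD (rr_thY_pos hD) (by rw [hUS]; exact hS)
        (by rw [hUS, hUM]; exact hM) (rr_bound_zero (D := D) C hu) hfx
      have h2 : ((Polynomial.C (C : ℤ) - X).map (Int.castRingHom ℝ)).eval x = (C : ℝ) - x := by
        simp
      rw [h2] at h1
      have h3 : rrCode ((C : ℝ) - x) = 0 := rrCode_of_pos (by linarith)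
      have h4 : (U.y F k).eval x = (U.S : ℝ) * ((C : ℝ) - x) := by
        unfold UP.y
        rw [if_pos hk, hUC]
        simp
      rw [if_pos hk, h4, ← h3]
      exact h1
    · have h1 := rr_ok (U := U) hf hfD (rr_thY_pos hD) (by rw [hUS]; exact hS)
        (by rw [hUS, hUM]; exact hM) (rr_bound_der hf hfD C hu k) hfx
      rw [← Polynomial.iterate_derivative_map, ← hF] at h1
      have h4 : (U.y F k).eval x = (U.S : ℝ) * (derivative^[k] F).eval x := by
        unfold UP.y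
        rw [if_neg hk, Polynomial.eval_mul, Polynomial.eval_C]
      rw [if_neg hk, h4]
      exact h1
  have h5 := U.rr_sum_near (by rw [hUa]; exact ha0) (by rw [hUa, hUa']; exact ha1)
    (by rw [hUa, hUa']; exact ha3) hk1 hk2 hWs hδ0 hδW (fun k => (U.y F k).eval x)
    (fun k => if k = 0 then 0 else rrCode ((derivative^[k] F).eval x)) hok
  have h6 := rr_weighted (D := D) (C := C) (S := S) (M := M) (kap := kap) (a := a) (a' := a')
    (Z := Z) (Th := Th) (w0 := w0) (rho := rho) hD hq0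
    (fun k => rrCode ((derivative^[k] F).eval x))
  rw [← hU] at h6
  rw [hUD] at h5 ⊢
  rw [h6] at h5
  exact h5

/-- the values at the real roots: exactly one is negative -/
theorem uni_real {f : ℤ[X]} (hf : f.Monic) {D : ℕ} (hD : 1 ≤ D) (hfD : f.natDegree = D)
    {u C S M kap a w0 Z : ℕ} (hu : ∀ z ∈ (f.map (Int.castRingHom ℂ)).roots, ‖z‖ ≤ u)
    (hS : thY D C u ^ D ≤ S) (hM : S * thY D C u ≤ 2 ^ (M + 1))
    (hw0 : w0 = 6 * D * (D ^ 3 + 3) + 4) (hZ : Z = 8 * (D + 2))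
    (hkap : 64 * (D * (2 * D ^ 3 + 6) + w0) ≤ 2 ^ kap)
    (ha : 32 * (D ^ 2 + 1) * (D * (2 * D ^ 3 + 6) + w0) ≤ a) {x0 : ℝ}
    (hx0 : (f.map (Int.castRingHom ℝ)).eval x0 = 0) (hx0C : x0 < C) :
    ∃ (q rho T0 : ℕ) (xm : ℝ), q.Prime ∧ q ≤ 2 * D ^ 3 + 6 ∧ rho < q ∧
      3 * (T0 + D + 2 + D + 2) < Z * w0 ∧ (f.map (Int.castRingHom ℝ)).eval xm = 0 ∧
      ∀ (a' Th : ℕ), a ≤ a' → a' ≤ a + D ^ 2 → T0 ≤ Th → Th ≤ T0 + 2 * (D + 2) →
        ((UP.PP ⟨D, C, S, M, kap, a, a', Z, Th, w0, rho, q⟩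
          (f.map (Int.castRingHom ℝ))).eval xm < 0 ∧
        ∀ x : ℝ, (f.map (Int.castRingHom ℝ)).eval x = 0 → x ≠ xm →
          0 < (UP.PP ⟨D, C, S, M, kap, a, a', Z, Th, w0, rho, q⟩
            (f.map (Int.castRingHom ℝ))).eval x) := by
  obtain ⟨F, hF⟩ : ∃ F : ℝ[X], F = f.map (Int.castRingHom ℝ) := ⟨_, rfl⟩
  have hFm : F.Monic := by rw [hF]; exact hf.map _
  have hFD : F.natDegree = D := by rw [hF, hf.natDegree_map, hfD]
  obtain ⟨q, hq, hq1, hq2⟩ := Nat.exists_prime_lt_and_le_two_mul (D ^ 3 + 3) (by omega)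
  have hq2' : q ≤ 2 * D ^ 3 + 6 := by omega
  have hq0 : 0 < q := hq.pos
  -- the sign codes
  obtain ⟨v, hv⟩ : ∃ v : ℝ → ℕ → ℕ, v = fun x k => rrCode ((derivative^[k] F).eval x) := ⟨_, rfl⟩
  have hv2 : ∀ x k, v x k ≤ 2 := by
    intro x k
    rw [hv]
    exact rrCode_le _
  have hcard : F.roots.toFinset.card ≤ D := by
    rw [← hFD]
    exact (Multiset.toFinset_card_le _).trans (Polynomial.card_roots' F)
  have hmem : ∀ x, x ∈ F.roots.toFinset ↔ F.eval x = 0 := by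
    intro x
    rw [Multiset.mem_toFinset, Polynomial.mem_roots hFm.ne_zero, Polynomial.IsRoot.def]
  obtain ⟨rho, hrho, hhash⟩ := exists_hash hq (by omega) F.roots.toFinset hcard (by omega) v hv2
    (by
      intro x hx y hy hxy
      obtain ⟨k, hk1, hk2, hk3⟩ := thom hFD hD hxy ((hmem x).mp hx) ((hmem y).mp hy)
      refine ⟨k, hk1, hk2, ?_⟩
      intro h
      apply hk3
      rw [hv] at h
      exact rrCode_eq h)
  obtain ⟨W, hW⟩ : ∃ W : ℝ → ℕ, W = fun x => ∑ k ∈ Finset.Ico 1 D, (rho ^ k % q) * v x k :=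
    ⟨_, rfl⟩
  -- the minimal root
  obtain ⟨xm, hxm, hmin⟩ := Finset.exists_min_image
    (F.roots.toFinset.filter fun x => x < (C : ℝ)) W
    ⟨x0, by rw [Finset.mem_filter, hmem, hF]; exact ⟨hx0, hx0C⟩⟩
  rw [Finset.mem_filter, hmem] at hxm
  obtain ⟨hxm0, hxmC⟩ := hxm
  have hWle : W xm ≤ D * ((2 * D ^ 3 + 6) * 2) := by
    rw [hW]
    exact rr_W_le hD hq2' hq0 _ (hv2 xm)
  have hT3 := rr_T0 hw0 hZ hWle
  refine ⟨q, rho, 4 * (D + 2) * W xm + (D + 2), xm, hq, hq2', hrho, hT3,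
    by rw [← hF]; exact hxm0, ?_⟩
  intro a' Th ha1 ha2 hT1 hT2
  rw [← hF]
  obtain ⟨U, hU⟩ : ∃ U : UP, U = ⟨D, C, S, M, kap, a, a', Z, Th, w0, rho, q⟩ := ⟨_, rfl⟩
  have hUD : U.D = D := by rw [hU]
  have hUa : U.a = a := by rw [hU]
  have hUa' : U.a' = a' := by rw [hU]
  have hUZ : U.Z = Z := by rw [hU]
  have hUTh : U.Th = Th := by rw [hU]
  have hUC : U.C = C := by rw [hU]
  have hUw0 : U.w 0 = w0 := by rw [hU]; rfl
  obtain ⟨Wt, hWt⟩ : ∃ Wt : ℕ, Wt = D * (2 * D ^ 3 + 6) + w0 := ⟨_, rfl⟩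
  have hWt1 : 1 ≤ Wt := by
    rw [hWt, hw0]
    omega
  rw [← hWt] at hkap ha
  have haD : D ^ 2 + 1 ≤ a := by
    calc D ^ 2 + 1 = (D ^ 2 + 1) * 1 := (mul_one _).symm
      _ ≤ 32 * (D ^ 2 + 1) * Wt := Nat.mul_le_mul (by omega) hWt1
      _ ≤ a := ha
  have ha0 : 0 < a := by omega
  have haa' : a' ≤ 2 * a := by omega
  have hUa0 : 0 < U.a := by rw [hUa]; exact ha0
  have hUa'0 : 0 < U.a' := by rw [hUa']; omega
  have hkey : ∀ x : ℝ, F.eval x = 0 → x < C →
      |∑ k ∈ Finset.range U.D, (U.w k : ℝ) * U.rrq ((U.y F k).eval x) - (W x : ℝ) / 2| ≤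
        1 / 32 := by
    intro x hx hxC
    have := rr_below hf hD hfD hu hS hM hq2' hq0 hWt hWt1 hkap ha ha1 ha2 haa' ha0 hU hF hx hxC
    rw [hW, hv]
    exact this
  have hZR : (U.Z : ℝ) = 8 * ((D : ℝ) + 2) := by
    rw [hUZ, hZ]
    push_cast
    ring
  have hT1R : 4 * ((D : ℝ) + 2) * (W xm : ℝ) + (D + 2) ≤ U.Th := by
    rw [hUTh]
    exact_mod_cast hT1
  have hT2R : (U.Th : ℝ) ≤ 4 * ((D : ℝ) + 2) * (W xm : ℝ) + (D + 2) + 2 * (D + 2) := by
    rw [hUTh]
    exact_mod_cast hT2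
  have hDR : (0 : ℝ) ≤ D := Nat.cast_nonneg _
  rw [← hU]
  constructor
  · rw [U.rr_eval_PP hUa0 hUa'0]
    apply mul_neg_of_pos_of_neg (U.rr_prod_pos hUa0 hUa'0 F xm)
    rw [hZR]
    exact rr_num_neg hDR (abs_le.mp (hkey xm hxm0 hxmC)).2 hT1R
  · intro x hx hxne
    rw [U.rr_eval_PP hUa0 hUa'0]
    apply mul_pos (U.rr_prod_pos hUa0 hUa'0 F x)
    by_cases hxC : x < C
    · have h2 : W xm ≤ W x := hmin x (by rw [Finset.mem_filter, hmem]; exact ⟨hx, hxC⟩)
      have h3 : W x ≠ W xm := by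
        have := hhash x ((hmem x).mpr hx) xm ((hmem xm).mpr hxm0) hxne
        rw [hW]
        exact this
      have h4 : W xm + 1 ≤ W x := by omega
      have h5 : (W xm : ℝ) + 1 ≤ W x := by exact_mod_cast h4
      rw [hZR]
      exact rr_num_pos hDR (abs_le.mp (hkey x hx hxC)).1 hT2R h5
    · have h1 := U.rr_sum_ge hUa0 (by rw [hUa, hUa']; exact ha1) (by rw [hUa, hUa']; exact haa')
        (by rw [hUD]; exact hD) (fun k => (U.y F k).eval x) (by
          unfold UP.y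
          simp only [if_true, Polynomial.eval_mul, Polynomial.eval_C, Polynomial.eval_sub,
            Polynomial.eval_X]
          rw [hUC]
          apply mul_nonpos_of_nonneg_of_nonpos (Nat.cast_nonneg _)
          linarith [not_lt.mp hxC])
      have h2 : 3 * Th < Z * w0 := by omega
      have h3 : 3 * (U.Th : ℝ) < U.Z * w0 := by
        rw [hUTh, hUZ]
        exact_mod_cast h2
      rw [hUw0] at h1
      have h4 : (U.Z : ℝ) * ((w0 : ℝ) / 3) ≤
          (U.Z : ℝ) * ∑ k ∈ Finset.range U.D, (U.w k : ℝ) * U.rrq ((U.y F k).eval x) :=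
        mul_le_mul_of_nonneg_left h1 (Nat.cast_nonneg _)
      linarith

end Vale.Agent.P337

end

section

/-!
P337, univariate criterion: completeness.
-/

namespace Vale.Agent.P337

open Polynomial

/-- values of an integer polynomial at conjugate numbers -/
theorem ucm_eval_conj (P : ℤ[X]) (z : ℂ) :
    (P.map (Int.castRingHom ℂ)).eval (starRingEnd ℂ z) =
      starRingEnd ℂ ((P.map (Int.castRingHom ℂ)).eval z) := by
  rw [eval_map, eval_map, hom_eval₂]
  congr 1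
  exact Subsingleton.elim _ _

/-- values of an integer polynomial at real numbers -/
theorem ucm_eval_real (P : ℤ[X]) (x : ℝ) :
    (P.map (Int.castRingHom ℂ)).eval (x : ℂ) =
      (((P.map (Int.castRingHom ℝ)).eval x : ℝ) : ℂ) := by
  have h : (((P.map (Int.castRingHom ℝ)).eval x : ℝ) : ℂ) =
      Complex.ofRealHom ((P.map (Int.castRingHom ℝ)).eval x) := rfl
  rw [h, eval_map, eval_map, hom_eval₂,
    Subsingleton.elim (Complex.ofRealHom.comp (Int.castRingHom ℝ)) (Int.castRingHom ℂ)]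
  rfl

/-- The product of the values at a finite set of numbers that is closed under conjugation, if exactly one
real value is negative. -/
theorem ucm_prod_neg (P : ℤ[X]) (s : Finset ℂ) (hconj : ∀ z ∈ s, starRingEnd ℂ z ∈ s) (xm : ℝ)
    (hxm : (xm : ℂ) ∈ s) (hneg : (P.map (Int.castRingHom ℝ)).eval xm < 0)
    (hpos : ∀ x : ℝ, (x : ℂ) ∈ s → x ≠ xm → 0 < (P.map (Int.castRingHom ℝ)).eval x)
    (hnz : ∀ z ∈ s, (P.map (Int.castRingHom ℂ)).eval z ≠ 0) :
    ∃ r : ℝ, r < 0 ∧ ∏ z ∈ s, (P.map (Int.castRingHom ℂ)).eval z = (r : ℂ) := by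
  classical
  set g : ℂ → ℂ := fun z => (P.map (Int.castRingHom ℂ)).eval z with hg
  set A := s.filter fun z => 0 < z.im with hA
  -- the real roots
  have hR : ∏ z ∈ s.filter (fun z => z.im = 0), g z =
      ((∏ z ∈ s.filter (fun z => z.im = 0), (P.map (Int.castRingHom ℝ)).eval z.re : ℝ) : ℂ) := by
    rw [Complex.ofReal_prod]
    refine Finset.prod_congr rfl fun z hz => ?_
    rw [Finset.mem_filter] at hz
    have h1 : (z.re : ℂ) = z := by
      apply Complex.ext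
      · simp
      · simp [hz.2]
    rw [← ucm_eval_real P z.re, h1]
  have hRn : ∏ z ∈ s.filter (fun z => z.im = 0), (P.map (Int.castRingHom ℝ)).eval z.re < 0 := by
    have h1 : (xm : ℂ) ∈ s.filter (fun z => z.im = 0) := by
      rw [Finset.mem_filter]
      exact ⟨hxm, Complex.ofReal_im _⟩
    rw [← Finset.mul_prod_erase _ _ h1]
    refine mul_neg_of_neg_of_pos ?_ (Finset.prod_pos fun z hz => ?_)
    · rw [Complex.ofReal_re]
      exact hneg
    · rw [Finset.mem_erase, Finset.mem_filter] at hz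
      have h2 : (z.re : ℂ) = z := by
        apply Complex.ext
        · simp
        · simp [hz.2.2]
      refine hpos z.re (by rw [h2]; exact hz.2.1) fun h3 => hz.1 ?_
      rw [← h2, h3]
  -- the other roots
  have hN : ∏ z ∈ s.filter (fun z => ¬ z.im = 0), g z =
      ((Complex.normSq (∏ z ∈ A, g z) : ℝ) : ℂ) := by
    have h1 : s.filter (fun z => ¬ z.im = 0) =
        A ∪ s.filter (fun z => z.im < 0) := by
      ext z
      simp only [hA, Finset.mem_filter, Finset.mem_union]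
      constructor
      · rintro ⟨h1, h2⟩
        rcases lt_or_gt_of_ne h2 with h3 | h3
        · exact Or.inr ⟨h1, h3⟩
        · exact Or.inl ⟨h1, h3⟩
      · rintro (⟨h1, h2⟩ | ⟨h1, h2⟩)
        · exact ⟨h1, h2.ne'⟩
        · exact ⟨h1, h2.ne⟩
    have h2 : Disjoint A (s.filter fun z => z.im < 0) := by
      rw [Finset.disjoint_left]
      intro z hz hz'
      rw [hA, Finset.mem_filter] at hz
      rw [Finset.mem_filter] at hz'
      linarith [hz.2, hz'.2]
    have h3 : ∏ z ∈ s.filter (fun z => z.im < 0), g z = starRingEnd ℂ (∏ z ∈ A, g z) := by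
      rw [map_prod]
      refine Finset.prod_nbij' (fun z => starRingEnd ℂ z) (fun z => starRingEnd ℂ z) ?_ ?_ ?_ ?_ ?_
      · intro z hz
        rw [Finset.mem_filter] at hz
        rw [hA, Finset.mem_filter]
        refine ⟨hconj z hz.1, ?_⟩
        rw [Complex.conj_im]
        linarith [hz.2]
      · intro z hz
        rw [hA, Finset.mem_filter] at hz
        rw [Finset.mem_filter]
        refine ⟨hconj z hz.1, ?_⟩
        rw [Complex.conj_im]
        linarith [hz.2]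
      · intro z _
        exact Complex.conj_conj z
      · intro z _
        exact Complex.conj_conj z
      · intro z _
        rw [hg]
        simp only
        rw [ucm_eval_conj, Complex.conj_conj]
    rw [h1, Finset.prod_union h2, h3, Complex.mul_conj]
  have hNp : 0 < Complex.normSq (∏ z ∈ A, g z) := by
    rw [Complex.normSq_pos, Finset.prod_ne_zero_iff]
    intro z hz
    rw [hA, Finset.mem_filter] at hz
    exact hnz z hz.1
  refine ⟨_, mul_neg_of_neg_of_pos hRn hNp, ?_⟩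
  rw [← Finset.prod_filter_mul_prod_filter_not s (fun z => z.im = 0), hR, hN]
  push_cast
  rfl

/-- completeness -/
theorem uni_complete {f : ℤ[X]} (hf : f.Monic) {D : ℕ} (hD : 1 ≤ D) (hfD : f.natDegree = D)
    (hnd : (f.map (Int.castRingHom ℂ)).roots.Nodup)
    {u C S M kap a w0 Z : ℕ} (hu : ∀ z ∈ (f.map (Int.castRingHom ℂ)).roots, ‖z‖ ≤ u)
    (hS : thY D C u ^ D ≤ S) (hM : S * thY D C u ≤ 2 ^ (M + 1))
    (hw0 : w0 = 6 * D * (D ^ 3 + 3) + 4) (hZ : Z = 8 * (D + 2))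
    (hkap : 64 * (D * (2 * D ^ 3 + 6) + w0) ≤ 2 ^ kap)
    (ha : 32 * (D ^ 2 + 1) * (D * (2 * D ^ 3 + 6) + w0) ≤ a) {x0 : ℝ}
    (hx0 : (f.map (Int.castRingHom ℝ)).eval x0 = 0) (hx0C : x0 < C) :
    ∃ a' Th rho q : ℕ, a ≤ a' ∧ a' ≤ 2 * a ∧ 3 * Th < Z * w0 ∧ rho < q ∧ q ≤ 2 * D ^ 3 + 6 ∧
      ∀ n : ℤ, (n : ℂ) = ((f.map (Int.castRingHom ℂ)).roots.map fun z =>
        (UP.PP ⟨D, C, S, M, kap, a, a', Z, Th, w0, rho, q⟩
          (f.map (Int.castRingHom ℂ))).eval z).prod → n < 0 := by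
  classical
  obtain ⟨q, rho, T0, xm, -, hqb, hrho, hT, hxm, hreal⟩ :=
    uni_real hf hD hfD hu hS hM hw0 hZ hkap ha hx0 hx0C
  have ha0 : D ^ 2 + 1 ≤ a := by
    refine le_trans ?_ ha
    have h1 : 1 ≤ 32 * (D * (2 * D ^ 3 + 6) + w0) := by
      have h2 : 1 ≤ w0 := by omega
      omega
    calc D ^ 2 + 1 = (D ^ 2 + 1) * 1 := (mul_one _).symm
      _ ≤ (D ^ 2 + 1) * (32 * (D * (2 * D ^ 3 + 6) + w0)) := Nat.mul_le_mul_left _ h1
      _ = _ := by ring
  have hF0 : f.map (Int.castRingHom ℂ) ≠ 0 := (hf.map _).ne_zero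
  have hFD : (f.map (Int.castRingHom ℂ)).natDegree = D := by
    rw [hf.natDegree_map]
    exact hfD
  have hcard : (f.map (Int.castRingHom ℂ)).roots.toFinset.card ≤ D := by
    rw [← hFD]
    exact (Multiset.toFinset_card_le _).trans (card_roots' _)
  obtain ⟨a', Th, h1, h2, h3, h4, hnz⟩ :=
    uni_nonzero hFD C S M kap a Z w0 rho q T0 (by omega) _ hcard
  obtain ⟨hneg, hpos⟩ := hreal a' Th h1 h2 h3 h4
  refine ⟨a', Th, rho, q, h1, by omega, by omega, hrho, hqb, ?_⟩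
  intro n hn
  have hmem : ∀ z : ℂ, z ∈ (f.map (Int.castRingHom ℂ)).roots.toFinset ↔
      (f.map (Int.castRingHom ℂ)).eval z = 0 := by
    intro z
    rw [Multiset.mem_toFinset, mem_roots hF0]
    rfl
  obtain ⟨r, hr, hprod⟩ := ucm_prod_neg
    (UP.PP ⟨D, C, S, M, kap, a, a', Z, Th, w0, rho, q⟩ f)
    (f.map (Int.castRingHom ℂ)).roots.toFinset
    (by
      intro z hz
      rw [hmem] at hz ⊢
      rw [ucm_eval_conj, hz, map_zero])
    xm
    (by rw [hmem, ucm_eval_real, hxm, Complex.ofReal_zero])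
    (by rw [UP.PP_map]; exact hneg)
    (by
      intro x hx hne
      rw [hmem, ucm_eval_real, Complex.ofReal_eq_zero] at hx
      rw [UP.PP_map]
      exact hpos x hx hne)
    (by
      intro z hz
      rw [UP.PP_map]
      exact hnz z hz)
  have h5 : (n : ℂ) = (r : ℂ) := by
    rw [hn, ← hprod]
    have h6 : (f.map (Int.castRingHom ℂ)).roots.toFinset.val = (f.map (Int.castRingHom ℂ)).roots := by
      rw [Multiset.toFinset_val]
      exact hnd.dedup
    unfold Finset.prod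
    rw [h6, UP.PP_map]
  have h7 : (n : ℝ) = r := by
    apply Complex.ofReal_injective
    rw [← h5]
    simp
  rw [← h7] at hr
  exact_mod_cast hr

end Vale.Agent.P337

end
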