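import Mathlib
import Vale.Agent.Lib.P337.M.Main
import Vale.Agent.Lib.P337.M.AlgB
import Vale.Agent.Lib.P337.M.AlgC
import Vale.Agent.Lib.P337.M.Uni
import Vale.Agent.Lib.P337.M.UniB
import Vale.Agent.Lib.P337.M.CxB

section

/-!
P337: the ingredients of the formula modulo `r` are values of polynomials over `ZMod r`.
-/

namespace Vale.Agent.P337

open MvPolynomial

namespace Prm

variable (P : Prm)

/-- right hand sides of the gradient system over `ZMod r` -/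
noncomputable def HR (i : Fin P.N) : MvPolynomial (Fin P.N) (ZMod P.r) :=
  gH ((P.L : ℕ) : ZMod P.r) (fun i : Fin P.N => ((P.b i : ℕ) : ZMod P.r))
    (map (Int.castRingHom _) P.p) i

/-- the perturbed function over `ZMod r` -/
noncomputable def gR : MvPolynomial (Fin P.N) (ZMod P.r) :=
  gG P.e ((P.L : ℕ) : ZMod P.r) (fun i : Fin P.N => ((P.b i : ℕ) : ZMod P.r))
    (map (Int.castRingHom _) P.p)

theorem HR_deg (he : 2 ≤ P.e) (hp : P.p.totalDegree < 2 * P.e) (i : Fin P.N) :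
    (P.HR i).totalDegree < P.d := by
  have h1 : (map (Int.castRingHom (ZMod P.r)) P.p).totalDegree < 2 * P.e :=
    lt_of_le_of_lt (Finset.sup_mono (support_map_subset _ _)) hp
  exact gH_totalDegree he _ _ h1 i

theorem gz_eq (z : ℕ → ℕ) : P.gz z = eval (P.pt z) P.gR := by
  unfold gz gR gG ev0
  rw [Finset.sum_range, Finset.sum_range]
  simp only [map_add, map_mul, map_sum, map_pow, eval_X, eval_C, pt]
  push_cast
  rfl

theorem Hz_eq (i : Fin P.N) (z : ℕ → ℕ) : P.Hz i z = eval (P.pt z) (P.HR i) := by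
  unfold Hz HR gH ev1
  rw [dif_pos i.2]
  simp only [map_sub, map_neg, map_mul, eval_C, pderiv_map, Fin.eta]

theorem Jz_eq (z : ℕ → ℕ) : P.Jz z = eval (P.pt z) (jac P.d P.HR) := by
  unfold Jz jac
  rw [RingHom.map_det]
  congr 1
  ext i j
  simp only [Matrix.of_apply, RingHom.mapMatrix_apply, Matrix.map_apply]
  unfold Jent ev2 Fs HR gH
  rw [dif_pos i.2, dif_pos j.2]
  simp only [map_sub, map_neg, Derivation.leibniz, Derivation.leibniz_pow, pderiv_map, pderiv_C,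
    Fin.eta, smul_eq_mul, mul_zero, add_zero, sub_zero, map_mul, map_nsmul, eval_C]
  by_cases hij : i = j
  · subst hij
    simp [pt]
  · have hij' : (i : ℕ) ≠ (j : ℕ) := fun h => hij (Fin.ext h)
    rw [if_neg hij', pderiv_X_of_ne hij]
    simp

end Prm

end Vale.Agent.P337

end

section

/-!
P337: traces and elementary symmetric functions in the formula modulo `r`.
-/

namespace Vale.Agent.P337

open MvPolynomial

theorem formEqB_pderiv_degree {N : ℕ} {R : Type} [CommRing R] (p : MvPolynomial (Fin N) R)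
    (i : Fin N) : (pderiv i p).totalDegree ≤ p.totalDegree - 1 := by
  unfold totalDegree
  refine Finset.sup_le fun m hm => ?_
  rw [mem_support_iff, coeff_pderiv] at hm
  have h1 : m + Finsupp.single i 1 ∈ p.support := by
    rw [mem_support_iff]
    intro h0
    rw [h0, zero_mul] at hm
    exact hm rfl
  have h2 := le_totalDegree h1
  have h3 : ((m + Finsupp.single i 1).sum fun _ e => e) = (m.sum fun _ e => e) + 1 := by
    rw [Finsupp.sum_add_index' (fun _ => rfl) (fun _ _ _ => rfl), Finsupp.sum_single_index rfl]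
  rw [h3] at h2
  unfold totalDegree at h2
  omega

theorem jac_totalDegree_le {N : ℕ} {R : Type} [CommRing R] {d : ℕ} (hd : 1 ≤ d)
    {H : Fin N → MvPolynomial (Fin N) R} (hH : ∀ i, (H i).totalDegree < d) :
    (jac d H).totalDegree ≤ N * (d - 1) := by
  classical
  have hent : ∀ i j, (pderiv j (Fs d H i)).totalDegree ≤ d - 1 := by
    intro i j
    unfold Fs
    rw [map_sub, pderiv_pow]
    refine (totalDegree_sub _ _).trans (max_le ?_ ?_)
    · refine (totalDegree_mul _ _).trans ?_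
      have h1 : ((d : MvPolynomial (Fin N) R) * X i ^ (d - 1)).totalDegree ≤ d - 1 := by
        rw [← C_eq_coe_nat]
        refine (totalDegree_mul _ _).trans ?_
        rw [totalDegree_C, zero_add]
        refine (totalDegree_pow _ _).trans ?_
        refine (Nat.mul_le_mul_left _ (show (X i : MvPolynomial (Fin N) R).totalDegree ≤ 1 from ?_)).trans
          (by simp)
        exact (totalDegree_monomial_le _ _).trans (by simp)
      have h2 : (pderiv j (X i : MvPolynomial (Fin N) R)).totalDegree = 0 := by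
        rw [pderiv_X]
        by_cases hij : i = j
        · subst hij
          simp
        · simp [hij]
      omega
    · have h1 : (pderiv j (H i)).totalDegree ≤ (H i).totalDegree - 1 :=
        formEqB_pderiv_degree (H i) j
      have h2 := hH i
      omega
  unfold jac
  rw [Matrix.det_apply]
  refine totalDegree_finsetSum_le fun σ _ => ?_
  have h1 : (∏ i, (Matrix.of fun i j => pderiv j (Fs d H i)) (σ i) i).totalDegree ≤ N * (d - 1) := by
    refine (totalDegree_finsetProd _ _).trans ?_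
    refine (Finset.sum_le_sum fun i _ => hent (σ i) i).trans ?_
    simp
  rcases Int.units_eq_one_or (Equiv.Perm.sign σ) with h | h
  · rw [h, one_smul]
    exact h1
  · rw [h, Units.neg_smul, one_smul, totalDegree_neg]
    exact h1

namespace Prm

variable (P : Prm)

theorem trz_eq [Fact P.r.Prime] (hd1 : 1 ≤ P.d) (he : 2 ≤ P.e) (hp : P.p.totalDegree < 2 * P.e)
    (hH : ∀ i, (P.HR i).totalDegree < P.d) (h : MvPolynomial (Fin P.N) (ZMod P.r))
    (hK : h.totalDegree + P.N * (P.d - 1) ≤ P.K)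
    (hrK : P.K + P.N * P.K * (P.d - 1) + P.d * (P.K + 1) < P.r - 1) :
    P.trz (fun z => eval (P.pt z) h) = (mmat hd1 hH h).trace := by
  have hd : 2 ≤ P.d := by
    unfold Prm.d
    omega
  have hjac : (h * jac P.d P.HR).totalDegree ≤ P.K :=
    (totalDegree_mul _ _).trans ((Nat.add_le_add_left (jac_totalDegree_le hd1 hH) _).trans hK)
  have key := mmat_trace_sum hd1 hd hH h P.K hjac hrK
  refine Eq.trans ?_ key.symm
  refine congrArg (fun t => (-1) ^ P.N * t) (Finset.sum_congr rfl fun z _ => ?_)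
  have hpt : P.pt (ext z) = fun i : Fin P.N => ((z i : ℕ) : ZMod P.r) := by
    funext i
    simp [pt, ext]
  have hT : P.Tz (ext z) = eval (fun i : Fin P.N => ((z i : ℕ) : ZMod P.r)) (jac P.d P.HR) *
      ∏ i : Fin P.N, ∑ k ∈ Finset.range (P.K + 1),
        eval (fun i : Fin P.N => ((z i : ℕ) : ZMod P.r)) (P.HR i) ^ k *
            ((z i : ZMod P.r)⁻¹) ^ (P.d * (k + 1) - 1) := by
    rw [Tz, Jz_eq, hpt, Finset.prod_range]
    refine congrArg _ (Finset.prod_congr rfl fun i _ => ?_)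
    refine Finset.sum_congr rfl fun k _ => ?_
    rw [Hz_eq, hpt]
    simp [ext]
  rw [hT]
  refine congrArg (fun t => t * _) ?_
  change eval (P.pt (ext z)) h = _
  rw [hpt]

theorem expF_eq [Fact P.r.Prime] (hD : P.D * P.D + P.D + 2 < P.r - 1) (S : ℕ → ZMod P.r) {j : ℕ}
    (hj : j ≤ P.D) : P.expF S j = expc P.D S j := by
  unfold expF expc
  refine Finset.sum_congr rfl fun l hl => ?_
  have hl' : l ≤ P.D := by
    have := Finset.mem_range.1 hl
    omega
  congr 1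
  have hdeg : (∑ i ∈ Finset.Ico 1 (P.D + 1), Polynomial.C ((-1) ^ (i - 1) * S i *
      ((i : ℕ) : ZMod P.r)⁻¹) * Polynomial.X ^ i).natDegree ≤ P.D := by
    refine Polynomial.natDegree_sum_le_of_forall_le _ _ fun i hi => ?_
    refine (Polynomial.natDegree_C_mul_X_pow_le _ _).trans ?_
    have := (Finset.mem_Ico.1 hi).2
    omega
  have hdeg2 : ((∑ i ∈ Finset.Ico 1 (P.D + 1), Polynomial.C ((-1) ^ (i - 1) * S i *
      ((i : ℕ) : ZMod P.r)⁻¹) * Polynomial.X ^ i) ^ l).natDegree < P.r - 1 := by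
    refine lt_of_le_of_lt (Polynomial.natDegree_pow_le.trans (Nat.mul_le_mul hl' hdeg)) ?_
    omega
  rw [polynomial_coeff_eq_sum _ j hdeg2 (by omega)]
  congr 1
  refine Finset.sum_congr rfl fun x _ => ?_
  congr 1
  rw [Polynomial.eval_pow, Polynomial.eval_finsetSum]
  congr 1
  refine Finset.sum_congr rfl fun i _ => ?_
  rw [Polynomial.eval_mul, Polynomial.eval_C, Polynomial.eval_pow, Polynomial.eval_X]

end Prm

end Vale.Agent.P337

end

section

/-!
P337: characteristic polynomial, its derivatives and the isolating polynomial in the formula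
modulo `r`.
-/

namespace Vale.Agent.P337

open MvPolynomial

theorem mmat_pow' {N : ℕ} {R : Type} [CommRing R] {d : ℕ} (hd : 1 ≤ d)
    {H : Fin N → MvPolynomial (Fin N) R} (hH : ∀ i, (H i).totalDegree < d)
    (g : MvPolynomial (Fin N) R) (i : ℕ) : mmat hd hH (g ^ i) = mmat hd hH g ^ i := by
  simp [mmat]

namespace Prm

variable (P : Prm)

theorem card_fun_eq_D : Fintype.card (Fin P.N → Fin P.d) = P.D := by
  simp [Prm.D]

theorem natCast_ne_zero_of_le_D [Fact P.r.Prime] (hD : P.D * P.D + P.D + 2 < P.r - 1) {i : ℕ}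
    (h1 : 1 ≤ i) (h2 : i ≤ P.D) : (i : ZMod P.r) ≠ 0 := by
  rw [Ne, ZMod.natCast_eq_zero_iff]
  intro h
  have := Nat.le_of_dvd h1 h
  omega

theorem pw_eq_trace [Fact P.r.Prime] (hd1 : 1 ≤ P.d) (he : 2 ≤ P.e)
    (hp : P.p.totalDegree < 2 * P.e) (hH : ∀ i, (P.HR i).totalDegree < P.d)
    (hK : 2 * P.e * P.D + P.N * (P.d - 1) ≤ P.K)
    (hrK : P.K + P.N * P.K * (P.d - 1) + P.d * (P.K + 1) < P.r - 1) {i : ℕ} (hi : i ≤ P.D) :
    P.pw i = (mmat hd1 hH P.gR ^ i).trace := by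
  have h1 : (fun z => P.gz z ^ i) = fun z => eval (P.pt z) (P.gR ^ i) := by
    funext z
    rw [gz_eq, map_pow]
  have hp' : (map (Int.castRingHom (ZMod P.r)) P.p).totalDegree < 2 * P.e :=
    lt_of_le_of_lt (Finset.sup_mono (support_map_subset _ _)) hp
  have hg : P.gR.totalDegree ≤ 2 * P.e := gG_totalDegree he _ _ hp'
  have h2 : (P.gR ^ i).totalDegree + P.N * (P.d - 1) ≤ P.K := by
    have h3 : (P.gR ^ i).totalDegree ≤ i * (2 * P.e) :=
      (totalDegree_pow _ _).trans (Nat.mul_le_mul_left _ hg)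
    have h4 : i * (2 * P.e) ≤ 2 * P.e * P.D := by
      rw [mul_comm]
      exact Nat.mul_le_mul_left _ hi
    omega
  rw [pw, h1, trz_eq P hd1 he hp hH _ h2 hrK, mmat_pow']

theorem charpoly_coeff_eq [Fact P.r.Prime] (hd1 : 1 ≤ P.d) (he : 2 ≤ P.e)
    (hp : P.p.totalDegree < 2 * P.e) (hH : ∀ i, (P.HR i).totalDegree < P.d)
    (hK : 2 * P.e * P.D + P.N * (P.d - 1) ≤ P.K)
    (hrK : P.K + P.N * P.K * (P.d - 1) + P.d * (P.K + 1) < P.r - 1)
    (hD : P.D * P.D + P.D + 2 < P.r - 1) {j : ℕ} (hj : j ≤ P.D) :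
    (mmat hd1 hH P.gR).charpoly.coeff (P.D - j) = (-1) ^ j * P.expF P.pw j := by
  have h1 := charpoly_coeff_exp (mmat hd1 hH P.gR) (j := j) (fun i hi => by
    rw [card_fun_eq_D] at hi
    exact natCast_ne_zero_of_le_D P hD (Finset.mem_Ico.1 hi).1
      (Nat.lt_succ_iff.1 (Finset.mem_Ico.1 hi).2)) (by rw [card_fun_eq_D]; exact hj)
  rw [card_fun_eq_D] at h1
  rw [h1, expF_eq P hD P.pw hj]
  congr 1
  unfold expc
  refine Finset.sum_congr rfl fun l _ => ?_
  congr 3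
  refine Finset.sum_congr rfl fun i hi => ?_
  rw [pw_eq_trace P hd1 he hp hH hK hrK (Nat.lt_succ_iff.1 (Finset.mem_Ico.1 hi).2)]

theorem fd_eq [Fact P.r.Prime] (hd1 : 1 ≤ P.d) (he : 2 ≤ P.e) (hp : P.p.totalDegree < 2 * P.e)
    (hH : ∀ i, (P.HR i).totalDegree < P.d)
    (hK : 2 * P.e * P.D + P.N * (P.d - 1) ≤ P.K)
    (hrK : P.K + P.N * P.K * (P.d - 1) + P.d * (P.K + 1) < P.r - 1)
    (hD : P.D * P.D + P.D + 2 < P.r - 1) (k : ℕ) (x : ZMod P.r) :
    P.fd k x = (Polynomial.derivative^[k] (mmat hd1 hH P.gR).charpoly).eval x := by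
  have hdeg : (mmat hd1 hH P.gR).charpoly.natDegree = P.D := by
    rw [Matrix.charpoly_natDegree_eq_dim, card_fun_eq_D]
  have hf : (mmat hd1 hH P.gR).charpoly = ∑ j ∈ Finset.range (P.D + 1),
      Polynomial.C ((mmat hd1 hH P.gR).charpoly.coeff (P.D - j)) *
        Polynomial.X ^ (P.D - j) := by
    rw [Finset.sum_flip (fun m => Polynomial.C ((mmat hd1 hH P.gR).charpoly.coeff m) *
        Polynomial.X ^ m)]
    conv_lhs => rw [Polynomial.as_sum_range_C_mul_X_pow (mmat hd1 hH P.gR).charpoly, hdeg]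
  rw [hf, Polynomial.iterate_derivative_sum, Polynomial.eval_finsetSum]
  unfold fd
  refine Finset.sum_congr rfl fun j hj => ?_
  have hj' : j ≤ P.D := Nat.lt_succ_iff.1 (Finset.mem_range.1 hj)
  rw [Polynomial.iterate_derivative_C_mul, Polynomial.iterate_derivative_X_pow_eq_C_mul,
    Polynomial.eval_mul, Polynomial.eval_mul, Polynomial.eval_C, Polynomial.eval_C,
    Polynomial.eval_pow, Polynomial.eval_X, charpoly_coeff_eq P hd1 he hp hH hK hrK hD hj']
  ring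

theorem PPz_eq [Fact P.r.Prime] (hd1 : 1 ≤ P.d) (he : 2 ≤ P.e) (hp : P.p.totalDegree < 2 * P.e)
    (hH : ∀ i, (P.HR i).totalDegree < P.d)
    (hK : 2 * P.e * P.D + P.N * (P.d - 1) ≤ P.K)
    (hrK : P.K + P.N * P.K * (P.d - 1) + P.d * (P.K + 1) < P.r - 1)
    (hD : P.D * P.D + P.D + 2 < P.r - 1) (x : ZMod P.r) :
    P.PPz x = (P.U.PP (mmat hd1 hH P.gR).charpoly).eval x := by
  have hy : ∀ k, P.yz k x = (P.U.y (mmat hd1 hH P.gR).charpoly k).eval x := by
    intro k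
    unfold yz UP.y
    rw [Polynomial.eval_mul, Polynomial.eval_C]
    refine congrArg₂ (fun a b => a * b) rfl ?_
    by_cases hk : k = 0
    · rw [if_pos hk, if_pos hk, Polynomial.eval_sub, Polynomial.eval_C, Polynomial.eval_X]
      rfl
    · rw [if_neg hk, if_neg hk]
      exact fd_eq P hd1 he hp hH hK hrK hD k x
  have hB : ∀ j, P.Bz j x = ((P.U.a : ZMod P.r) *
      P.U.pm ((P.U.y (mmat hd1 hH P.gR).charpoly j).eval x) +
      (P.U.a' : ZMod P.r) * P.U.pp ((P.U.y (mmat hd1 hH P.gR).charpoly j).eval x)) := by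
    intro j
    rw [← hy j]
    rfl
  rw [UP.eval_PP]
  unfold PPz
  refine congrArg₂ (fun a b => a - b) (Finset.sum_congr rfl fun k _ => ?_) ?_
  · refine congrArg₂ (fun a b => a * b) ?_ (Finset.prod_congr rfl fun j _ => ?_)
    · rw [← hy k]
      rfl
    · by_cases hjk : j = k
      · rw [if_pos hjk, if_pos hjk]
      · rw [if_neg hjk, if_neg hjk, hB]
  · refine congrArg₂ (fun a b => a * b) rfl (Finset.prod_congr rfl fun j _ => hB j)

end Prm

end Vale.Agent.P337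

end

section

/-!
P337: the residue of the decisive integer modulo a large prime is given by the formula.
-/

namespace Vale.Agent.P337

open MvPolynomial

/-- the exponential formula only uses the power sums with positive index at most `D` -/
theorem formEq_expc_congr {K : Type} [Field K] {D : ℕ} {S S' : ℕ → K}
    (h : ∀ i ∈ Finset.Ico 1 (D + 1), S i = S' i) (j : ℕ) : expc D S j = expc D S' j := by
  unfold expc
  have h1 : (∑ i ∈ Finset.Ico 1 (D + 1),
      Polynomial.C ((-1) ^ (i - 1) * S i * ((i : ℕ) : K)⁻¹) * Polynomial.X ^ i) =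
      ∑ i ∈ Finset.Ico 1 (D + 1),
        Polynomial.C ((-1) ^ (i - 1) * S' i * ((i : ℕ) : K)⁻¹) * Polynomial.X ^ i :=
    Finset.sum_congr rfl fun i hi => by rw [h i hi]
  rw [h1]

theorem formEq_decisive_congr {N d : ℕ} {R : Type} [CommRing R] (hd hd' : 1 ≤ d)
    {H H' : Fin N → MvPolynomial (Fin N) R} (hH : ∀ i, (H i).totalDegree < d)
    (hH' : ∀ i, (H' i).totalDegree < d) {g g' : MvPolynomial (Fin N) R} (U : UP)
    (h1 : H = H') (h2 : g = g') : decisive hd hH g U = decisive hd' hH' g' U := by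
  subst h1
  subst h2
  rfl

/-- degree of a polynomial in `g` -/
theorem formEq_totalDegree_aeval {N : ℕ} {R : Type} [CommRing R] (g : MvPolynomial (Fin N) R)
    (q : Polynomial R) :
    (Polynomial.aeval g q).totalDegree ≤ q.natDegree * g.totalDegree := by
  rw [Polynomial.aeval_eq_sum_range]
  refine totalDegree_finsetSum_le fun i hi => ?_
  rw [Finset.mem_range] at hi
  refine (totalDegree_smul_le _ _).trans ((totalDegree_pow _ _).trans ?_)
  exact Nat.mul_le_mul_right _ (by omega)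

theorem formEq_eval_aeval {N : ℕ} {R : Type} [CommRing R] (x : Fin N → R)
    (g : MvPolynomial (Fin N) R) (q : Polynomial R) :
    eval x (Polynomial.aeval g q) = q.eval (eval x g) := by
  have h := Polynomial.aeval_algHom_apply (MvPolynomial.aeval x : MvPolynomial (Fin N) R →ₐ[R] R) g q
  rw [Polynomial.coe_aeval_eq_eval] at h
  exact h.symm

/-- the residue of the decisive integer modulo a large prime is given by the formula -/
theorem nInt_cast_eq_form (P : Prm) (he : 2 ≤ P.e) (hp : P.p.totalDegree < 2 * P.e)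
    (hr : P.r.Prime)
    (hK : 2 * P.e * P.D * (P.D * (P.D * (2 * P.kap * (P.M + 1))) + 1) + P.N * (P.d - 1) ≤ P.K)
    (hrK : P.K + P.N * P.K * (P.d - 1) + P.d * (P.K + 1) + P.D * P.D + P.D + 2 < P.r - 1) :
    ((nInt he hp (2 ^ 2 ^ P.Es) P.L P.U : ℤ) : ZMod P.r) = P.form := by
  have : Fact P.r.Prime := ⟨hr⟩
  have hd1 : 1 ≤ P.d := by unfold Prm.d; omega
  have hD1 : 1 ≤ P.D := Nat.one_le_pow _ _ hd1
  have hH : ∀ i, (P.HR i).totalDegree < P.d := P.HR_deg he hp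
  have hcard : Fintype.card (Fin P.N → Fin P.d) = P.D := by
    rw [Fintype.card_fun, Fintype.card_fin, Fintype.card_fin]
    rfl
  have hmul : ∀ x : ℕ, 2 * P.e * P.D ≤ 2 * P.e * P.D * (x + 1) := fun x =>
    Nat.le_mul_of_pos_right _ (Nat.succ_pos x)
  have hK1 : 2 * P.e * P.D + P.N * (P.d - 1) ≤ P.K :=
    (Nat.add_le_add_right (hmul _) _).trans hK
  have hrK1 : P.K + P.N * P.K * (P.d - 1) + P.d * (P.K + 1) < P.r - 1 := by omega
  have hrD : P.D * P.D + P.D + 2 < P.r - 1 := by omega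
  have hDr : P.D < P.r := by omega
  -- the decisive integer modulo `r`
  have e1 : ((nInt he hp (2 ^ 2 ^ P.Es) P.L P.U : ℤ) : ZMod P.r) = decisive hd1 hH P.gR P.U := by
    have hHint := gH_deg_of he ((P.L : ℕ) : ℤ)
      (fun i : Fin P.N => ((bs (2 ^ 2 ^ P.Es) P.e i : ℕ) : ℤ)) hp
    have hfun : (fun i => map (Int.castRingHom (ZMod P.r)) (gH ((P.L : ℕ) : ℤ)
        (fun i : Fin P.N => ((bs (2 ^ 2 ^ P.Es) P.e i : ℕ) : ℤ)) P.p i)) = P.HR := by
      funext i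
      rw [gH_map]
      unfold Prm.HR
      simp only [map_natCast]
      rfl
    have hgen : map (Int.castRingHom (ZMod P.r)) (gG P.e ((P.L : ℕ) : ℤ)
        (fun i : Fin P.N => ((bs (2 ^ 2 ^ P.Es) P.e i : ℕ) : ℤ)) P.p) = P.gR := by
      rw [gG_map]
      unfold Prm.gR
      simp only [map_natCast]
      rfl
    have hH' : ∀ i, (map (Int.castRingHom (ZMod P.r)) (gH ((P.L : ℕ) : ℤ)
        (fun i : Fin P.N => ((bs (2 ^ 2 ^ P.Es) P.e i : ℕ) : ℤ)) P.p i)).totalDegree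
          < 2 * P.e - 1 := by
      intro i
      have := congrFun hfun i
      rw [this]
      exact hH i
    have h1 := decisive_map (Int.castRingHom (ZMod P.r)) (d := 2 * P.e - 1) (by omega) hHint hH'
      (gG P.e ((P.L : ℕ) : ℤ) (fun i : Fin P.N => ((bs (2 ^ 2 ^ P.Es) P.e i : ℕ) : ℤ)) P.p) P.U
    refine Eq.trans ?_ (h1.symm.trans ?_)
    · rfl
    · exact formEq_decisive_congr (d := 2 * P.e - 1) _ _ hH' hH P.U hfun hgen
  rw [e1]
  unfold decisive Prm.form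
  set q : Polynomial (ZMod P.r) := P.U.PP (mmat hd1 hH P.gR).charpoly with hq
  have hdeg : q.natDegree ≤ P.D * (P.D * (2 * P.kap * (P.M + 1))) := by
    have h1 := PP_natDegree_le P.U (mmat hd1 hH P.gR).charpoly (by
      rw [Matrix.charpoly_natDegree_eq_dim, hcard]
      exact le_rfl) hD1
    exact h1
  have hgdeg : P.gR.totalDegree ≤ 2 * P.e := by
    have hp' : (map (Int.castRingHom (ZMod P.r)) P.p).totalDegree < 2 * P.e :=
      lt_of_le_of_lt (Finset.sup_mono (support_map_subset _ _)) hp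
    exact gG_totalDegree he _ _ hp'
  have key : ∀ i ∈ Finset.Ico 1 (P.D + 1),
      ((Polynomial.aeval (mmat hd1 hH P.gR) q) ^ i).trace =
        P.trz (fun z => P.PPz (P.gz z) ^ i) := by
    intro i hi
    rw [Finset.mem_Ico] at hi
    have h1 : (fun z => P.PPz (P.gz z) ^ i) =
        fun z => eval (P.pt z) (Polynomial.aeval P.gR (q ^ i)) := by
      funext z
      rw [formEq_eval_aeval, Polynomial.eval_pow, P.PPz_eq hd1 he hp hH hK1 hrK1 hrD, P.gz_eq]
    have h2 : (Polynomial.aeval P.gR (q ^ i)).totalDegree + P.N * (P.d - 1) ≤ P.K := by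
      refine le_trans (Nat.add_le_add_right ?_ _) hK
      refine (formEq_totalDegree_aeval _ _).trans ?_
      have h3 : (q ^ i).natDegree ≤ P.D * (P.D * (P.D * (2 * P.kap * (P.M + 1)))) := by
        refine Polynomial.natDegree_pow_le.trans ?_
        exact Nat.mul_le_mul (by omega) hdeg
      calc (q ^ i).natDegree * P.gR.totalDegree
          ≤ (P.D * (P.D * (P.D * (2 * P.kap * (P.M + 1))))) * (2 * P.e) :=
            Nat.mul_le_mul h3 hgdeg
        _ = 2 * P.e * P.D * (P.D * (P.D * (2 * P.kap * (P.M + 1)))) := by ring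
        _ ≤ 2 * P.e * P.D * (P.D * (P.D * (2 * P.kap * (P.M + 1))) + 1) :=
            Nat.mul_le_mul_left _ (Nat.le_succ _)
    rw [h1, P.trz_eq hd1 he hp hH _ h2 hrK1, mmat_aeval, map_pow]
  have hne : ∀ i ∈ Finset.Ico 1 (Fintype.card (Fin P.N → Fin P.d) + 1), ((i : ℕ) : ZMod P.r) ≠ 0 := by
    intro i hi
    rw [hcard, Finset.mem_Ico] at hi
    intro h0
    rw [ZMod.natCast_eq_zero_iff] at h0
    have := Nat.le_of_dvd (by omega) h0
    omega
  rw [det_exp _ hne, hcard, P.expF_eq hrD _ le_rfl]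
  exact formEq_expc_congr key P.D

end Vale.Agent.P337

end

section

/-!
P337: size of the decisive integer.
-/

namespace Vale.Agent.P337

open MvPolynomial

private theorem bnd_deg {N : ℕ} {R R' : Type} [CommRing R] [CommRing R'] (φ : R →+* R')
    (p : MvPolynomial (Fin N) R) : (map φ p).totalDegree ≤ p.totalDegree :=
  Finset.sup_mono (support_map_subset φ p)

private theorem bnd_congr {N d : ℕ} {R : Type} [CommRing R] (hd : 1 ≤ d)
    {H H' : Fin N → MvPolynomial (Fin N) R} (hH : ∀ i, (H i).totalDegree < d)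
    (hH' : ∀ i, (H' i).totalDegree < d) {g g' : MvPolynomial (Fin N) R} (h : H = H')
    (hg : g = g') : mmat hd hH g = mmat hd hH' g' := by
  subst h
  subst hg
  rfl

/-- size of the product over a multiset -/
private theorem bnd_prod (s : Multiset ℂ) (F : ℂ → ℂ) (B : ℝ) (h : ∀ z ∈ s, ‖F z‖ ≤ B) :
    ‖(s.map F).prod‖ ≤ B ^ s.card := by
  induction s using Multiset.induction_on with
  | empty => simp
  | cons a s ih =>
    rw [Multiset.map_cons, Multiset.prod_cons, Multiset.card_cons, pow_succ', norm_mul]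
    have h1 := h a (Multiset.mem_cons_self a s)
    have h2 := ih fun z hz => h z (Multiset.mem_cons_of_mem hz)
    exact mul_le_mul h1 h2 (norm_nonneg _) ((norm_nonneg _).trans h1)

/-- size of the decisive integer -/
theorem nInt_bound {N e : ℕ} (he : 2 ≤ e) {p : MvPolynomial (Fin N) ℤ}
    (hp : p.totalDegree < 2 * e) {Q : ℕ} (hQ : l1 p ≤ Q) {s L : ℕ} {U : UP}
    (hD : U.D = (2 * e - 1) ^ N) (haa : U.a ≤ U.a') (haa' : U.a' ≤ 2 * U.a) (hq : 0 < U.q) :
    |nInt he hp s L U| ≤ (((U.D * U.Z * (U.w0 + U.q) * U.a + U.Th) *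
      (3 * U.a * (U.S * thY U.D U.C (thu N e Q s L) + 2 ^ U.M + 1) ^ (2 * U.kap * (U.M + 1)) + 1) ^
        (U.D + 1)) ^ U.D : ℕ) := by
  have hd : 1 ≤ 2 * e - 1 := by omega
  have hH := gH_deg_of he (L : ℤ) (fun i : Fin N => ((bs s e i : ℕ) : ℤ)) hp
  have hpC : (map (Int.castRingHom ℂ) p).totalDegree < 2 * e :=
    lt_of_le_of_lt (bnd_deg _ _) hp
  have hHC := gH_deg_of he (L : ℂ) (fun i : Fin N => ((bs s e i : ℕ) : ℂ)) hpC
  have hH2 : ∀ i, (map (Int.castRingHom ℂ)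
      (gH (L : ℤ) (fun i : Fin N => ((bs s e i : ℕ) : ℤ)) p i)).totalDegree < 2 * e - 1 :=
    fun i => lt_of_le_of_lt (bnd_deg _ _) (hH i)
  have hmm : mmat hd hH2 (map (Int.castRingHom ℂ)
      (gG e (L : ℤ) (fun i : Fin N => ((bs s e i : ℕ) : ℤ)) p)) =
      mmat hd hHC (gG e (L : ℂ) (fun i : Fin N => ((bs s e i : ℕ) : ℂ))
        (map (Int.castRingHom ℂ) p)) := by
    apply bnd_congr
    · funext i
      rw [gH_map]
      simp only [eq_intCast, Int.cast_natCast]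
    · rw [gG_map]
      simp only [eq_intCast, Int.cast_natCast]
  have h7 := decisive_map (Int.castRingHom ℂ) hd hH hH2
    (gG e (L : ℤ) (fun i : Fin N => ((bs s e i : ℕ) : ℤ)) p) U
  have h8 : ((nInt he hp s L U : ℤ) : ℂ) =
      Int.castRingHom ℂ (decisive hd hH (gG e (L : ℤ) (fun i : Fin N => ((bs s e i : ℕ) : ℤ)) p)
        U) := rfl
  rw [← h7] at h8
  unfold decisive at h8
  rw [det_aeval_eq_prod, hmm] at h8
  set f := (mmat hd hHC (gG e (L : ℂ) (fun i : Fin N => ((bs s e i : ℕ) : ℂ))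
        (map (Int.castRingHom ℂ) p))).charpoly with hf
  have hmon : f.Monic := Matrix.charpoly_monic _
  have hdeg : f.natDegree = U.D := by
    rw [hf, Matrix.charpoly_natDegree_eq_dim, Fintype.card_fun, Fintype.card_fin, Fintype.card_fin,
      hD]
  have hD1 : 1 ≤ U.D := by
    rw [hD]
    exact Nat.one_le_pow _ _ (by omega)
  -- bound for the roots
  have hroot : ∀ z ∈ f.roots, ‖z‖ ≤ (thu N e Q s L : ℕ) := by
    intro z hz
    have h1 := (Polynomial.mem_roots'.1 hz).2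
    have hφ : ∀ n : ℤ, (fun a : ℂ => ‖a‖) (Int.castRingHom ℂ n) ≤ |(n : ℝ)| := by
      intro n
      simp
    have hLn : (fun a : ℂ => ‖a‖) (L : ℂ) ≤ (L : ℕ) := by
      simp
    have hb : ∀ i : Fin N, (fun a : ℂ => ‖a‖) ((fun i : Fin N => ((bs s e i : ℕ) : ℂ)) i) ≤
        ((s * 2 ^ (N * (2 * e - 1)) : ℕ) : ℝ) := by
      intro i
      have h4 : bs s e i ≤ s * 2 ^ (N * (2 * e - 1)) := by
        unfold bs
        exact Nat.mul_le_mul_left _ (Nat.pow_le_pow_right (by norm_num)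
          (Nat.mul_le_mul_right _ i.2.le))
      simp only [Complex.norm_natCast]
      exact_mod_cast h4
    have h2 := wnorm_gH_le isNrm_complex (Int.castRingHom ℂ) hφ he hp hQ hLn hb
    have h3 := wnorm_gG_le isNrm_complex (Int.castRingHom ℂ) hφ he hp hQ hLn hb
    refine (mmat_root_le ?_ hd hHC h2 _ z h1).trans h3
    have h5 : 1 ≤ 2 * e * Q * L + s * 2 ^ (N * (2 * e - 1)) + 1 := by omega
    exact_mod_cast h5
  have hcard : f.roots.card = U.D := by
    rw [← hdeg]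
    exact (IsAlgClosed.splits f).natDegree_eq_card_roots.symm
  have h9 := bnd_prod f.roots (fun z => (U.PP f).eval z) _ (fun z hz =>
    PP_bound U hmon hdeg hD1 hq hroot haa haa' (hroot z hz))
  rw [← h8, hcard] at h9
  have h10 : ‖((nInt he hp s L U : ℤ) : ℂ)‖ = |((nInt he hp s L U : ℤ) : ℝ)| := by
    simp
  rw [h10] at h9
  exact_mod_cast h9

end Vale.Agent.P337

end

section

/-!
P337: soundness of the criterion.
-/

namespace Vale.Agent.P337

open MvPolynomial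

/-- the linear term is absorbed by the leading term -/
theorem sound_absorb {e : ℕ} (he : 2 ≤ e) {b B : ℕ} (hb : b ≤ B) (x : ℝ) :
    -(2 * (e : ℝ) * (b : ℝ) * x) ≤ x ^ (2 * e) / 2 + (4 * (e : ℝ) * (B : ℝ) + 1) ^ 2 := by
  have hb' : (b : ℝ) ≤ (B : ℝ) := by exact_mod_cast hb
  have hb0 : (0 : ℝ) ≤ (b : ℝ) := by positivity
  have hB0 : (0 : ℝ) ≤ (B : ℝ) := by positivity
  have he0 : (0 : ℝ) ≤ (e : ℝ) := by positivity
  have hx0 : (0 : ℝ) ≤ |x| := abs_nonneg x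
  have heb : (e : ℝ) * (b : ℝ) ≤ (e : ℝ) * (B : ℝ) := mul_le_mul_of_nonneg_left hb' he0
  have heb0 : (0 : ℝ) ≤ (e : ℝ) * (b : ℝ) := mul_nonneg he0 hb0
  have heB0 : (0 : ℝ) ≤ (e : ℝ) * (B : ℝ) := mul_nonneg he0 hB0
  have h1 : -(2 * (e : ℝ) * (b : ℝ) * x) ≤ 2 * ((e : ℝ) * (B : ℝ)) * |x| := by
    have h2 : -x ≤ |x| := neg_le_abs x
    calc -(2 * (e : ℝ) * (b : ℝ) * x) = 2 * ((e : ℝ) * (b : ℝ)) * (-x) := by ring
      _ ≤ 2 * ((e : ℝ) * (b : ℝ)) * |x| := by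
          apply mul_le_mul_of_nonneg_left h2
          linarith
      _ ≤ 2 * ((e : ℝ) * (B : ℝ)) * |x| := by
          apply mul_le_mul_of_nonneg_right _ hx0
          linarith
  have hpow : x ^ (2 * e) = |x| ^ (2 * e) := (Even.pow_abs (even_two_mul e) x).symm
  rw [hpow]
  rcases le_total |x| (4 * ((e : ℝ) * (B : ℝ)) + 1) with h | h
  · have h3 : (0 : ℝ) ≤ |x| ^ (2 * e) / 2 := by positivity
    have h4 : 2 * ((e : ℝ) * (B : ℝ)) * |x| ≤ (4 * ((e : ℝ) * (B : ℝ)) + 1) ^ 2 := by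
      nlinarith
    have h5 : (4 * (e : ℝ) * (B : ℝ) + 1) ^ 2 = (4 * ((e : ℝ) * (B : ℝ)) + 1) ^ 2 := by ring
    rw [h5]
    linarith
  · have h3 : |x| ^ 2 ≤ |x| ^ (2 * e) := pow_le_pow_right₀ (by linarith) (by omega)
    have h4 : 2 * ((e : ℝ) * (B : ℝ)) * |x| ≤ |x| ^ 2 / 2 := by nlinarith
    have h5 : (0 : ℝ) ≤ (4 * (e : ℝ) * (B : ℝ) + 1) ^ 2 := by positivity
    linarith

/-- polynomials in a polynomial, evaluated -/
theorem sound_eval_aeval {N : ℕ} (ξ : Fin N → ℝ) (g : MvPolynomial (Fin N) ℝ)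
    (P : Polynomial ℝ) : eval ξ (Polynomial.aeval g P) = P.eval (eval ξ g) := by
  have h : Polynomial.aeval (eval ξ g) P = eval ξ (Polynomial.aeval g P) :=
    Polynomial.aeval_algHom_apply (aeval ξ : MvPolynomial (Fin N) ℝ →ₐ[ℝ] ℝ) g P
  rw [← h]
  simp [Polynomial.aeval_def, Polynomial.eval₂_eq_eval_map]

/-- the total degree does not grow under base change -/
theorem sound_totalDegree_map_le {N : ℕ} {R R' : Type} [CommRing R] [CommRing R'] (φ : R →+* R')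
    (p : MvPolynomial (Fin N) R) : (map φ p).totalDegree ≤ p.totalDegree :=
  Finset.sup_mono (support_map_subset φ p)

/-- a real point where the value of `g` is below the threshold -/
theorem sound_point {N e : ℕ} (he : 2 ≤ e) {p : MvPolynomial (Fin N) ℤ}
    (hp : p.totalDegree < 2 * e) {s L : ℕ} {U : UP} (hD : U.D = (2 * e - 1) ^ N)
    (ha : 0 < U.a) (haa : U.a ≤ U.a') (haa' : U.a' ≤ 2 * U.a)
    (hTh : 3 * U.Th < U.Z * U.w0) (h : nInt he hp s L U < 0) :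
    ∃ ξ : Fin N → ℝ, 2 * (e : ℝ) * (L : ℝ) * eval ξ (toR p) + ∑ i, ξ i ^ (2 * e) +
      ∑ i : Fin N, 2 * (e : ℝ) * ((bs s e i : ℕ) : ℝ) * ξ i < (U.C : ℝ) := by
  have hd : 1 ≤ 2 * e - 1 := by omega
  have hD1 : 1 ≤ U.D := by
    rw [hD]
    exact Nat.one_le_pow _ _ (by omega)
  have hHZ := gH_deg_of he (L : ℤ) (fun i : Fin N => ((bs s e i : ℕ) : ℤ)) hp
  have hH' : ∀ i, (map (Int.castRingHom ℝ) (gH (L : ℤ)
      (fun i : Fin N => ((bs s e i : ℕ) : ℤ)) p i)).totalDegree < 2 * e - 1 := by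
    intro i
    exact lt_of_le_of_lt (sound_totalDegree_map_le _ _) (hHZ i)
  have h1 := decisive_map (Int.castRingHom ℝ) hd hHZ hH'
    (gG e (L : ℤ) (fun i : Fin N => ((bs s e i : ℕ) : ℤ)) p) U
  have h2 : (Int.castRingHom ℝ) (nInt he hp s L U) < 0 := by
    have h3 : ((nInt he hp s L U : ℤ) : ℝ) < ((0 : ℤ) : ℝ) := Int.cast_lt.mpr h
    simpa using h3
  have h3 : decisive hd hH' (map (Int.castRingHom ℝ)
      (gG e (L : ℤ) (fun i : Fin N => ((bs s e i : ℕ) : ℤ)) p)) U < 0 := by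
    rw [h1]
    exact h2
  unfold decisive at h3
  rw [← mmat_aeval] at h3
  obtain ⟨ξ, hξ⟩ : ∃ ξ : Fin N → ℝ, eval ξ (Polynomial.aeval (map (Int.castRingHom ℝ)
      (gG e (L : ℤ) (fun i : Fin N => ((bs s e i : ℕ) : ℤ)) p))
        (U.PP (mmat hd hH' (map (Int.castRingHom ℝ)
          (gG e (L : ℤ) (fun i : Fin N => ((bs s e i : ℕ) : ℤ)) p))).charpoly)) < 0 := by
    by_contra hcon
    push Not at hcon
    exact absurd (mmat_det_nonneg hd hH' _ (fun ξ _ => hcon ξ)) (not_le.mpr h3)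
  rw [sound_eval_aeval] at hξ
  have h4 := uni_sound U hD1 ha haa haa' hTh _ _ hξ
  refine ⟨ξ, ?_⟩
  rw [gG_map] at h4
  unfold gG at h4
  simpa [eval_sum] using h4

/-- soundness of the criterion -/
theorem nInt_sound {N e : ℕ} (he : 2 ≤ e) {p : MvPolynomial (Fin N) ℤ}
    (hp : p.totalDegree < 2 * e) (hpos : ∀ x, 0 ≤ eval x (toR p)) {Q : ℕ} (hQ : l1 p ≤ Q)
    {s L : ℕ} {U : UP} (hD : U.D = (2 * e - 1) ^ N) (hC : thC N e Q s < U.C)
    (hL : thL2 N e Q s U.C < L) (ha : 0 < U.a) (haa : U.a ≤ U.a') (haa' : U.a' ≤ 2 * U.a)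
    (hTh : 3 * U.Th < U.Z * U.w0) (h : nInt he hp s L U < 0) : ∃ x, eval x (toR p) = 0 := by
  obtain ⟨ξ, hξ⟩ := sound_point he hp hD ha haa haa' hTh h
  -- the constant
  have hbs : ∀ i : Fin N, bs s e i ≤ s * 2 ^ (N * (2 * e - 1)) := by
    intro i
    unfold bs
    apply Nat.mul_le_mul_left
    apply Nat.pow_le_pow_right (by norm_num)
    exact Nat.mul_le_mul_right _ i.2.le
  refine gap_pos he hp hQ hpos
    (c := 2 * (U.C + N * (4 * e * (s * 2 ^ (N * (2 * e - 1))) + 1) ^ 2)) ?_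
    (L := 2 * (L : ℝ)) ?_ ξ ?_
  · have h1 : (1 + thU N e Q 1 0) ^ ((2 * e - 1) ^ N) + 1 ≤ thC N e Q s := by
      unfold thC
      exact Nat.le_mul_of_pos_right _ (by positivity)
    have h2 : U.C ≤ 2 * (U.C + N * (4 * e * (s * 2 ^ (N * (2 * e - 1))) + 1) ^ 2) := by
      have := Nat.zero_le (N * (4 * e * (s * 2 ^ (N * (2 * e - 1))) + 1) ^ 2)
      omega
    omega
  · have h1 : (2 * (U.C + N * (4 * e * (s * 2 ^ (N * (2 * e - 1))) + 1) ^ 2) +
        thU N e Q 1 0) ^ ((2 * e - 1) ^ N) + 1 < 2 * L := by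
      unfold thL2 at hL
      omega
    exact_mod_cast h1
  · have h1 : ∑ i : Fin N, -(2 * (e : ℝ) * ((bs s e i : ℕ) : ℝ) * ξ i) ≤
        ∑ i : Fin N, (ξ i ^ (2 * e) / 2 +
          (4 * (e : ℝ) * ((s * 2 ^ (N * (2 * e - 1)) : ℕ) : ℝ) + 1) ^ 2) :=
      Finset.sum_le_sum fun i _ => sound_absorb he (hbs i) (ξ i)
    rw [Finset.sum_neg_distrib, Finset.sum_add_distrib, Finset.sum_const, Finset.card_univ,
      Fintype.card_fin, nsmul_eq_mul, ← Finset.sum_div] at h1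
    have h2 : 2 * (e : ℝ) * (2 * (L : ℝ)) * eval ξ (toR p) + ∑ i, ξ i ^ (2 * e) <
        2 * ((U.C : ℝ) + (N : ℝ) * (4 * (e : ℝ) *
          ((s * 2 ^ (N * (2 * e - 1)) : ℕ) : ℝ) + 1) ^ 2) := by
      nlinarith
    refine lt_of_lt_of_eq h2 ?_
    push_cast
    ring

end Vale.Agent.P337

end

section

/-!
P337: completeness of the criterion.
-/

namespace Vale.Agent.P337

open MvPolynomial

/-! ### base change of the multiplication matrix of `g` -/

private theorem cpl_deg {N : ℕ} {R R' : Type} [CommRing R] [CommRing R'] (φ : R →+* R')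
    (p : MvPolynomial (Fin N) R) : (map φ p).totalDegree ≤ p.totalDegree :=
  Finset.sup_mono (support_map_subset φ p)

private theorem cpl_congr {N d : ℕ} {R : Type} [CommRing R] (hd : 1 ≤ d)
    {H H' : Fin N → MvPolynomial (Fin N) R} (hH : ∀ i, (H i).totalDegree < d)
    (hH' : ∀ i, (H' i).totalDegree < d) {g g' : MvPolynomial (Fin N) R} (h : H = H')
    (hg : g = g') : mmat hd hH g = mmat hd hH' g' := by
  subst h
  subst hg
  rfl

private theorem cpl_map {N e : ℕ} {R : Type} [CommRing R] (hd : 1 ≤ 2 * e - 1)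
    {p : MvPolynomial (Fin N) ℤ} {s L : ℕ}
    (hH : ∀ i, (gH (L : ℤ) (fun i : Fin N => ((bs s e i : ℕ) : ℤ)) p i).totalDegree < 2 * e - 1)
    (hH' : ∀ i, (gH (L : R) (fun i : Fin N => ((bs s e i : ℕ) : R))
      (map (Int.castRingHom R) p) i).totalDegree < 2 * e - 1) :
    mmat hd hH' (gG e (L : R) (fun i : Fin N => ((bs s e i : ℕ) : R))
      (map (Int.castRingHom R) p)) =
    (mmat hd hH (gG e (L : ℤ) (fun i : Fin N => ((bs s e i : ℕ) : ℤ)) p)).map
      (Int.castRingHom R) := by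
  have h1 : (fun i => map (Int.castRingHom R)
      (gH (L : ℤ) (fun i : Fin N => ((bs s e i : ℕ) : ℤ)) p i)) =
      gH (L : R) (fun i : Fin N => ((bs s e i : ℕ) : R)) (map (Int.castRingHom R) p) := by
    funext i
    rw [gH_map]
    simp only [eq_intCast, Int.cast_natCast]
  have h2 : map (Int.castRingHom R) (gG e (L : ℤ) (fun i : Fin N => ((bs s e i : ℕ) : ℤ)) p) =
      gG e (L : R) (fun i : Fin N => ((bs s e i : ℕ) : R)) (map (Int.castRingHom R) p) := by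
    rw [gG_map]
    simp only [eq_intCast, Int.cast_natCast]
  have h3 : ∀ i, (map (Int.castRingHom R)
      (gH (L : ℤ) (fun i : Fin N => ((bs s e i : ℕ) : ℤ)) p i)).totalDegree < 2 * e - 1 := by
    intro i
    rw [congrFun h1 i]
    exact hH' i
  rw [← mmat_map (Int.castRingHom R) hd hH h3]
  exact cpl_congr hd hH' h3 h1.symm h2.symm

private theorem cpl_charpoly {N e : ℕ} {R : Type} [CommRing R] (hd : 1 ≤ 2 * e - 1)
    {p : MvPolynomial (Fin N) ℤ} {s L : ℕ}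
    (hH : ∀ i, (gH (L : ℤ) (fun i : Fin N => ((bs s e i : ℕ) : ℤ)) p i).totalDegree < 2 * e - 1)
    (hH' : ∀ i, (gH (L : R) (fun i : Fin N => ((bs s e i : ℕ) : R))
      (map (Int.castRingHom R) p) i).totalDegree < 2 * e - 1) :
    (mmat hd hH' (gG e (L : R) (fun i : Fin N => ((bs s e i : ℕ) : R))
      (map (Int.castRingHom R) p))).charpoly =
    (mmat hd hH (gG e (L : ℤ) (fun i : Fin N => ((bs s e i : ℕ) : ℤ)) p)).charpoly.map
      (Int.castRingHom R) := by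
  rw [cpl_map hd hH hH', Matrix.charpoly_map]

/-! ### the value of the minimum -/

private theorem cpl_val {N e : ℕ} (he : 2 ≤ e) {p : MvPolynomial (Fin N) ℤ} {s L A : ℕ}
    (hA : 1 ≤ A) {x : Fin N → ℝ} (hx0 : eval x (toR p) = 0)
    (hx : ∑ i, x i ^ (2 * e) ≤ (A : ℝ)) :
    eval x (gG e (L : ℝ) (fun i : Fin N => ((bs s e i : ℕ) : ℝ)) (toR p)) ≤
      ((A * (1 + 2 * e * N * (s * 2 ^ (N * (2 * e - 1)))) : ℕ) : ℝ) := by
  have hA' : (1 : ℝ) ≤ A := by exact_mod_cast hA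
  have h1 : ∀ i, x i ≤ A := by
    intro i
    by_cases h : x i ≤ 1
    · exact h.trans hA'
    · have h2 : 1 ≤ x i := by linarith
      have h3 : x i ≤ x i ^ (2 * e) := le_self_pow₀ h2 (by omega)
      have h4 : x i ^ (2 * e) ≤ ∑ j, x j ^ (2 * e) :=
        Finset.single_le_sum (f := fun j => x j ^ (2 * e))
          (fun j _ => by rw [pow_mul]; positivity) (Finset.mem_univ i)
      linarith
  have h2 : ∀ i : Fin N, 2 * (e : ℝ) * ((bs s e i : ℕ) : ℝ) * x i ≤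
      2 * (e : ℝ) * ((s * 2 ^ (N * (2 * e - 1)) : ℕ) : ℝ) * A := by
    intro i
    have h3 : ((bs s e i : ℕ) : ℝ) ≤ ((s * 2 ^ (N * (2 * e - 1)) : ℕ) : ℝ) := by
      have h4 : bs s e i ≤ s * 2 ^ (N * (2 * e - 1)) := by
        unfold bs
        exact Nat.mul_le_mul_left _ (Nat.pow_le_pow_right (by norm_num)
          (Nat.mul_le_mul_right _ i.2.le))
      exact_mod_cast h4
    have h5 : 2 * (e : ℝ) * ((bs s e i : ℕ) : ℝ) * x i ≤ 2 * (e : ℝ) * ((bs s e i : ℕ) : ℝ) * A :=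
      mul_le_mul_of_nonneg_left (h1 i) (by positivity)
    have h6 : 2 * (e : ℝ) * ((bs s e i : ℕ) : ℝ) * A ≤
        2 * (e : ℝ) * ((s * 2 ^ (N * (2 * e - 1)) : ℕ) : ℝ) * A :=
      mul_le_mul_of_nonneg_right (mul_le_mul_of_nonneg_left h3 (by positivity)) (by positivity)
    exact h5.trans h6
  have h3 : eval x (gG e (L : ℝ) (fun i : Fin N => ((bs s e i : ℕ) : ℝ)) (toR p)) =
      2 * (e : ℝ) * L * eval x (toR p) + ∑ i, x i ^ (2 * e) +
        ∑ i : Fin N, 2 * (e : ℝ) * ((bs s e i : ℕ) : ℝ) * x i := by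
    unfold gG
    simp only [map_add, map_mul, map_sum, eval_C, eval_X, map_pow]
  rw [h3, hx0, mul_zero, zero_add]
  have h4 : ∑ i : Fin N, 2 * (e : ℝ) * ((bs s e i : ℕ) : ℝ) * x i ≤
      ∑ i : Fin N, 2 * (e : ℝ) * ((s * 2 ^ (N * (2 * e - 1)) : ℕ) : ℝ) * A :=
    Finset.sum_le_sum fun i _ => h2 i
  rw [Finset.sum_const, Finset.card_univ, Fintype.card_fin, nsmul_eq_mul] at h4
  refine (add_le_add hx h4).trans (le_of_eq ?_)
  push_cast
  ring

/-- completeness of the criterion -/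
theorem nInt_complete {N e : ℕ} (he : 2 ≤ e) {p : MvPolynomial (Fin N) ℤ}
    (hp : p.totalDegree < 2 * e) (hpos : ∀ x, 0 ≤ eval x (toR p)) {Q : ℕ} (hQ : l1 p ≤ Q)
    {s L D C S M kap a w0 Z : ℕ} (hD : D = (2 * e - 1) ^ N) (hs : thS N e Q < s)
    (hC : thC N e Q s < C) (hL : thL1 N e Q s < L)
    (hS : thY D C (thu N e Q s L) ^ D ≤ S) (hM : S * thY D C (thu N e Q s L) ≤ 2 ^ (M + 1))
    (hw0 : w0 = 6 * D * (D ^ 3 + 3) + 4) (hZ : Z = 8 * (D + 2))
    (hkap : 64 * (D * (2 * D ^ 3 + 6) + w0) ≤ 2 ^ kap)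
    (ha : 32 * (D ^ 2 + 1) * (D * (2 * D ^ 3 + 6) + w0) ≤ a)
    (hz : ∃ x, eval x (toR p) = 0) :
    ∃ a' Th rho q : ℕ, a ≤ a' ∧ a' ≤ 2 * a ∧ 3 * Th < Z * w0 ∧ rho < q ∧ q ≤ 2 * D ^ 3 + 6 ∧
      nInt he hp s L ⟨D, C, S, M, kap, a, a', Z, Th, w0, rho, q⟩ < 0 := by
  have hd : 1 ≤ 2 * e - 1 := by omega
  have hH := gH_deg_of he (L : ℤ) (fun i : Fin N => ((bs s e i : ℕ) : ℤ)) hp
  have hpR : (map (Int.castRingHom ℝ) p).totalDegree < 2 * e :=
    lt_of_le_of_lt (cpl_deg _ _) hp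
  have hpC : (map (Int.castRingHom ℂ) p).totalDegree < 2 * e :=
    lt_of_le_of_lt (cpl_deg _ _) hp
  have hHR := gH_deg_of he (L : ℝ) (fun i : Fin N => ((bs s e i : ℕ) : ℝ)) hpR
  have hHC := gH_deg_of he (L : ℂ) (fun i : Fin N => ((bs s e i : ℕ) : ℂ)) hpC
  -- the characteristic polynomial
  set f := (mmat hd hH (gG e (L : ℤ) (fun i : Fin N => ((bs s e i : ℕ) : ℤ)) p)).charpoly with hf
  have hfR := cpl_charpoly (R := ℝ) hd hH hHR
  have hfC := cpl_charpoly (R := ℂ) hd hH hHC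
  rw [← hf] at hfR hfC
  have hmon : f.Monic := Matrix.charpoly_monic _
  have hdeg : f.natDegree = D := by
    rw [hf, Matrix.charpoly_natDegree_eq_dim, Fintype.card_fun, Fintype.card_fin, Fintype.card_fin,
      hD]
  have hD1 : 1 ≤ D := by
    rw [hD]
    exact Nat.one_le_pow _ _ (by omega)
  -- distinct roots
  have hnd : (f.map (Int.castRingHom ℂ)).roots.Nodup := by
    rw [← hfC]
    exact generic_nodup he hd hp hQ hs hL hHC
  -- bound for the roots
  have hroot : ∀ z ∈ (f.map (Int.castRingHom ℂ)).roots, ‖z‖ ≤ (thu N e Q s L : ℕ) := by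
    intro z hz
    rw [← hfC] at hz
    have h1 := (Polynomial.mem_roots'.1 hz).2
    have hφ : ∀ n : ℤ, (fun a : ℂ => ‖a‖) (Int.castRingHom ℂ n) ≤ |(n : ℝ)| := by
      intro n
      simp
    have hLn : (fun a : ℂ => ‖a‖) (L : ℂ) ≤ (L : ℕ) := by
      simp
    have hb : ∀ i : Fin N, (fun a : ℂ => ‖a‖) ((fun i : Fin N => ((bs s e i : ℕ) : ℂ)) i) ≤
        ((s * 2 ^ (N * (2 * e - 1)) : ℕ) : ℝ) := by
      intro i
      have h4 : bs s e i ≤ s * 2 ^ (N * (2 * e - 1)) := by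
        unfold bs
        exact Nat.mul_le_mul_left _ (Nat.pow_le_pow_right (by norm_num)
          (Nat.mul_le_mul_right _ i.2.le))
      simp only [Complex.norm_natCast]
      exact_mod_cast h4
    have h2 := wnorm_gH_le isNrm_complex (Int.castRingHom ℂ) hφ he hp hQ hLn hb
    have h3 := wnorm_gG_le isNrm_complex (Int.castRingHom ℂ) hφ he hp hQ hLn hb
    refine (mmat_root_le ?_ hd hHC h2 _ z h1).trans h3
    have h5 : 1 ≤ 2 * e * Q * L + s * 2 ^ (N * (2 * e - 1)) + 1 := by omega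
    exact_mod_cast h5
  -- the real root
  obtain ⟨x, hx0, hx⟩ := gap_zero he hp hQ hpos hz
  obtain ⟨ξ, hξ, hξ'⟩ := exists_min he hpos (L := (L : ℝ)) (Nat.cast_nonneg L)
    (fun i : Fin N => ((bs s e i : ℕ) : ℝ))
  have hroot0 : (f.map (Int.castRingHom ℝ)).eval
      (eval ξ (gG e (L : ℝ) (fun i : Fin N => ((bs s e i : ℕ) : ℝ)) (toR p))) = 0 := by
    rw [← hfR]
    exact mmat_eigen hd hHR _ ξ hξ'
  have hlt : eval ξ (gG e (L : ℝ) (fun i : Fin N => ((bs s e i : ℕ) : ℝ)) (toR p)) < C := by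
    have h1 := cpl_val (N := N) (s := s) (L := L) he (by omega) hx0 hx
    have h2 : ((thC N e Q s : ℕ) : ℝ) < C := by exact_mod_cast hC
    exact lt_of_le_of_lt ((hξ x).trans h1) h2
  obtain ⟨a', Th, rho, q, h1, h2, h3, h4, h5, h6⟩ := uni_complete hmon hD1 hdeg hnd hroot hS hM
    hw0 hZ hkap ha hroot0 hlt
  refine ⟨a', Th, rho, q, h1, h2, h3, h4, h5, h6 _ ?_⟩
  -- the decisive integer
  have hH2 : ∀ i, (map (Int.castRingHom ℂ)
      (gH (L : ℤ) (fun i : Fin N => ((bs s e i : ℕ) : ℤ)) p i)).totalDegree < 2 * e - 1 :=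
    fun i => lt_of_le_of_lt (cpl_deg _ _) (hH i)
  have h7 := decisive_map (Int.castRingHom ℂ) hd hH hH2
    (gG e (L : ℤ) (fun i : Fin N => ((bs s e i : ℕ) : ℤ)) p)
    ⟨D, C, S, M, kap, a, a', Z, Th, w0, rho, q⟩
  have h8 : ((nInt he hp s L ⟨D, C, S, M, kap, a, a', Z, Th, w0, rho, q⟩ : ℤ) : ℂ) =
      Int.castRingHom ℂ (decisive hd hH (gG e (L : ℤ) (fun i : Fin N => ((bs s e i : ℕ) : ℤ)) p)
        ⟨D, C, S, M, kap, a, a', Z, Th, w0, rho, q⟩) := rfl
  rw [h8, ← h7]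
  unfold decisive
  rw [det_aeval_eq_prod, mmat_map (Int.castRingHom ℂ) hd hH hH2, Matrix.charpoly_map]

end Vale.Agent.P337

end

section

/-!
P337: choice of the doubly exponential parameters.
-/

namespace Vale.Agent.P337

open Vale.Agent.Lib.Common.PolyTime

theorem choiceC_SE_d : SE (fun I : Inst => 2 * eI I - 1) :=
  SE.mono (SE.mul (SE.const 2) (SE.of_PT PT_eI)) fun _ => Nat.sub_le _ _

theorem choiceC_SE_N : SE (fun I : Inst => I.1) := SE.of_PT (by fun_prop)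

theorem choiceC_SE_D : SE (fun I : Inst => (2 * eI I - 1) ^ I.1) :=
  SE.pow choiceC_SE_d (by fun_prop)

theorem choiceC_SE_e : SE eI := SE.of_PT PT_eI

theorem choiceC_SE_B : SE (fun I : Inst => 2 ^ (I.1 * (2 * eI I - 1))) := by
  have h := PT_eI
  exact SE.twoPow (PT.mul (by fun_prop) (PT.sub (PT.mul (by fun_prop) h) (by fun_prop)))

/-- the bound `thU` is doubly exponential -/
theorem choiceC_DE_thU {Q lam B : Inst → ℕ} (hQ : DE Q) (hlam : DE lam) (hB : DE B) :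
    DE (fun I => thU I.1 (eI I) (Q I) (lam I) (B I)) := by
  have he := choiceC_SE_e.toDE
  have hN := choiceC_SE_N.toDE
  unfold thU
  exact DE.mul
    (DE.add (DE.add (DE.add (DE.mul (DE.mul (DE.mul (DE.const 2) he) hlam) hQ) hN)
      (DE.mul (DE.mul (DE.mul (DE.const 2) he) hN) hB)) (DE.const 1))
    (DE.pow (DE.add (DE.add (DE.mul (DE.mul (DE.mul (DE.const 2) he) hQ) hlam) hB) (DE.const 1))
      (SE.mul (SE.const 2) choiceC_SE_e))

theorem choiceC_DE_nodup {Q B : Inst → ℕ} (hQ : DE Q) (hB : DE B) :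
    DE (fun I : Inst => ((2 * eI I - 1) ^ I.1 * ((2 * eI I - 1) ^ I.1 *
      thU I.1 (eI I) (Q I) 1 (B I) ^ (2 * (2 * eI I - 1) ^ I.1))) ^ ((2 * eI I - 1) ^ I.1) + 1) :=
  DE.add (DE.pow (DE.mul choiceC_SE_D.toDE (DE.mul choiceC_SE_D.toDE
    (DE.pow (choiceC_DE_thU hQ (DE.const 1) hB) (SE.mul (SE.const 2) choiceC_SE_D))))
    choiceC_SE_D) (DE.const 1)

theorem choiceC_DE_thY {C u : Inst → ℕ} (hC : DE C) (hu : DE u) :
    DE (fun I : Inst => thY (DI I) (C I) (u I)) := by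
  have hD : SE DI := choiceC_SE_D
  unfold thY
  exact DE.add (DE.add (DE.pow (DE.mul hD.toDE (DE.add (DE.mul (DE.const 2) hu) (DE.const 1))) hD)
    hC) hu

/-- the doubly exponential parameters -/
theorem exists_choice (EQ : Inst → ℕ) (hEQ : PT EQ) :
    ∃ Es EC EL ES EM Ek : Inst → ℕ, PT Es ∧ PT EC ∧ PT EL ∧ PT ES ∧ PT EM ∧ PT Ek ∧
      ∀ I : Inst,
        thS I.1 (eI I) (2 ^ EQ I) < 2 ^ 2 ^ Es I ∧
        thC I.1 (eI I) (2 ^ EQ I) (2 ^ 2 ^ Es I) < 2 ^ 2 ^ EC I ∧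
        thL1 I.1 (eI I) (2 ^ EQ I) (2 ^ 2 ^ Es I) < 2 ^ 2 ^ EL I ∧
        thL2 I.1 (eI I) (2 ^ EQ I) (2 ^ 2 ^ Es I) (2 ^ 2 ^ EC I) < 2 ^ 2 ^ EL I ∧
        thY (DI I) (2 ^ 2 ^ EC I)
          (thu I.1 (eI I) (2 ^ EQ I) (2 ^ 2 ^ Es I) (2 ^ 2 ^ EL I)) ^ DI I ≤ 2 ^ 2 ^ ES I ∧
        2 ^ 2 ^ ES I * thY (DI I) (2 ^ 2 ^ EC I)
          (thu I.1 (eI I) (2 ^ EQ I) (2 ^ 2 ^ Es I) (2 ^ 2 ^ EL I)) ≤ 2 ^ (2 ^ EM I + 1) ∧
        64 * (DI I * (2 * DI I ^ 3 + 6) + w0I I) ≤ 2 ^ Ek I := by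
  have hQ : DE (fun I : Inst => 2 ^ EQ I) := (SE.twoPow hEQ).toDE
  have he := choiceC_SE_e.toDE
  have hN := choiceC_SE_N.toDE
  have hD : SE DI := choiceC_SE_D
  have hB := choiceC_SE_B.toDE
  have h1 : DE (fun _ : Inst => 1) := DE.const 1
  have h2 : DE (fun _ : Inst => 2) := DE.const 2
  -- the threshold for `s`
  have hS : DE (fun I : Inst => thS I.1 (eI I) (2 ^ EQ I)) := by
    unfold thS
    exact choiceC_DE_nodup hQ hB
  obtain ⟨Es, hEs, hEs'⟩ := hS.exists_lt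
  have hs : DE (fun I : Inst => 2 ^ 2 ^ Es I) := DE.twoTwoPow hEs
  have hsB : DE (fun I : Inst => 2 ^ 2 ^ Es I * 2 ^ (I.1 * (2 * eI I - 1))) := DE.mul hs hB
  have hU : DE (fun I : Inst => thU I.1 (eI I) (2 ^ EQ I) 1 0) :=
    choiceC_DE_thU hQ h1 (DE.const 0)
  -- the threshold for `C`
  have hC : DE (fun I : Inst => thC I.1 (eI I) (2 ^ EQ I) (2 ^ 2 ^ Es I)) := by
    unfold thC
    exact DE.mul (DE.add (DE.pow (DE.add h1 hU) choiceC_SE_D) h1)
      (DE.add h1 (DE.mul (DE.mul (DE.mul h2 he) hN) hsB))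
  obtain ⟨EC, hEC, hEC'⟩ := hC.exists_lt
  have hc : DE (fun I : Inst => 2 ^ 2 ^ EC I) := DE.twoTwoPow hEC
  -- the thresholds for `L`
  have hL1 : DE (fun I : Inst => thL1 I.1 (eI I) (2 ^ EQ I) (2 ^ 2 ^ Es I)) := by
    unfold thL1
    exact choiceC_DE_nodup hQ hsB
  have hL2 : DE (fun I : Inst => thL2 I.1 (eI I) (2 ^ EQ I) (2 ^ 2 ^ Es I) (2 ^ 2 ^ EC I)) := by
    unfold thL2
    exact DE.add (DE.pow (DE.add (DE.mul h2 (DE.add hc (DE.mul hN
      (DE.pow (DE.add (DE.mul (DE.mul (DE.const 4) he) hsB) h1) (SE.const 2))))) hU)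
      choiceC_SE_D) h1
  obtain ⟨EL, hEL, hEL'⟩ := (DE.add hL1 hL2).exists_lt
  have hL : DE (fun I : Inst => 2 ^ 2 ^ EL I) := DE.twoTwoPow hEL
  have hu : DE (fun I : Inst =>
      thu I.1 (eI I) (2 ^ EQ I) (2 ^ 2 ^ Es I) (2 ^ 2 ^ EL I)) := by
    unfold thu
    exact choiceC_DE_thU hQ hL hsB
  have hY : DE (fun I : Inst => thY (DI I) (2 ^ 2 ^ EC I)
      (thu I.1 (eI I) (2 ^ EQ I) (2 ^ 2 ^ Es I) (2 ^ 2 ^ EL I))) := choiceC_DE_thY hc hu
  obtain ⟨ES, hES, hES'⟩ := (DE.pow hY hD).exists_lt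
  obtain ⟨EM, hEM, hEM'⟩ := (DE.mul (DE.twoTwoPow hES) hY).exists_lt
  have hw0 : SE w0I := by
    unfold w0I
    exact SE.add (SE.mul (SE.mul (SE.const 6) hD) (SE.add (SE.pow hD (by fun_prop)) (SE.const 3)))
      (SE.const 4)
  have hk : SE (fun I : Inst => 64 * (DI I * (2 * DI I ^ 3 + 6) + w0I I)) :=
    SE.mul (SE.const 64) (SE.add (SE.mul hD (SE.add (SE.mul (SE.const 2)
      (SE.pow hD (by fun_prop))) (SE.const 6))) hw0)
  obtain ⟨Ek, hEk, hEk'⟩ := hk.exists_lt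
  refine ⟨Es, EC, EL, ES, EM, Ek, hEs, hEC, hEL, hES, hEM, hEk, fun I => ⟨hEs' I, hEC' I,
    (Nat.le_add_right _ _).trans_lt (hEL' I), (Nat.le_add_left _ _).trans_lt (hEL' I),
    (hES' I).le, (hEM' I).le.trans ?_, (hEk' I).le⟩⟩
  exact Nat.pow_le_pow_right (by norm_num) (Nat.le_succ _)

end Vale.Agent.P337

end

section

/-!
P337: the parameters are computable.
-/

namespace Vale.Agent.P337

open Vale.Agent.Lib.Common.PolyTime

theorem FC_DI : FC DI :=
  (FC.of_PTnat (PT.sub (PT.mul (PT.const 2) PT_eI) (PT.const 1))).powUnary (PT.fst PT.id)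

theorem FC_w0I : FC w0I :=
  (((FC.const 6).mul FC_DI).mul ((FC_DI.powUnary (PT.const 3)).add (FC.const 3))).add (FC.const 4)

theorem FC_ZI : FC ZI := (FC.const 8).mul (FC_DI.add (FC.const 2))

theorem FC_aI : FC aI :=
  ((FC.const 32).mul ((FC_DI.powUnary (PT.const 2)).add (FC.const 1))).mul
    ((FC_DI.mul (((FC.const 2).mul (FC_DI.powUnary (PT.const 3))).add (FC.const 6))).add FC_w0I)

/-- the context: instance and guessed parameters `a', Th, rho, q` -/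
abbrev Ctx := Inst × (BNat × BNat × BNat × BNat)

/-- the parameter record of a context and a modulus -/
def mkPrm (Es EC EL ES EM Ek : Inst → ℕ) (c : Ctx) (r : ℕ) : Prm where
  N := c.1.1
  e := eI c.1
  EL := EL c.1
  Es := Es c.1
  ES := ES c.1
  EC := EC c.1
  qs := c.1.2
  K := 2 * eI c.1 * DI c.1 * (DI c.1 * (DI c.1 * (2 * Ek c.1 * (2 ^ EM c.1 + 1))) + 1) +
    c.1.1 * (2 * eI c.1 - 1 - 1)
  M := 2 ^ EM c.1
  kap := Ek c.1
  a := aI c.1
  a' := c.2.1.v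
  Z := ZI c.1
  Th := c.2.2.1.v
  w0 := w0I c.1
  rho := c.2.2.2.1.v
  q := c.2.2.2.2.v
  r := r

theorem CPrm_mkPrm {Es EC EL ES EM Ek : Inst → ℕ} (h1 : PT Es) (h2 : PT EC) (h3 : PT EL)
    (h4 : PT ES) (h5 : PT EM) (h6 : PT Ek) :
    CPrm (fun p : Ctx × BNat => mkPrm Es EC EL ES EM Ek p.1 p.2.v) := by
  have hI : PT (fun p : Ctx × BNat => p.1.1) := PT.fst (PT.fst PT.id)
  have he : PT (fun p : Ctx × BNat => eI p.1.1) := PT.comp (f := eI) PT_eI hI
  have hN : PT (fun p : Ctx × BNat => p.1.1.1) := PT.fst hI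
  have hc : PT (fun p : Ctx × BNat => p.1.2) := PT.snd (PT.fst PT.id)
  have hD : FC (fun p : Ctx × BNat => DI p.1.1) := FC_DI.pre hI
  have hM : FC (fun p : Ctx × BNat => 2 ^ EM p.1.1) := FC.twoPow (PT.comp (f := EM) h5 hI)
  have hk : FC (fun p : Ctx × BNat => Ek p.1.1) := FC.of_PTnat (PT.comp (f := Ek) h6 hI)
  exact {
    N := hN
    e := he
    EL := PT.comp (f := EL) h3 hI
    Es := PT.comp (f := Es) h1 hI
    ES := PT.comp (f := ES) h4 hI
    EC := PT.comp (f := EC) h2 hI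
    qs := PT.snd hI
    K := by
      refine FC.add (FC.mul (FC.mul (FC.of_PTnat (PT.mul (PT.const 2) he)) hD)
        (FC.add (FC.mul hD (FC.mul hD (FC.mul (FC.mul (FC.const 2) hk)
          (FC.add hM (FC.const 1))))) (FC.const 1))) (FC.of_PTnat (PT.mul hN ?_))
      exact PT.sub (PT.sub (PT.mul (PT.const 2) he) (PT.const 1)) (PT.const 1)
    M := hM
    kap := hk
    a := FC_aI.pre hI
    a' := FC.of_PT (PT.fst hc)
    Z := FC_ZI.pre hI
    Th := FC.of_PT (PT.fst (PT.snd hc))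
    w0 := FC_w0I.pre hI
    rho := FC.of_PT (PT.fst (PT.snd (PT.snd hc)))
    q := FC.of_PT (PT.snd (PT.snd (PT.snd hc)))
    r := FC.of_PT (PT.snd PT.id) }

/-- the constraints on the guessed parameters -/
def okC (c : Ctx) : Prop :=
  aI c.1 ≤ c.2.1.v ∧ c.2.1.v ≤ 2 * aI c.1 ∧ 3 * c.2.2.1.v < ZI c.1 * w0I c.1 ∧
    c.2.2.2.1.v < c.2.2.2.2.v ∧ c.2.2.2.2.v ≤ 2 * DI c.1 ^ 3 + 6

theorem CHp_okC : CHp okC := by
  have hI : PT (fun c : Ctx => c.1) := PT.fst PT.id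
  have hc : PT (fun c : Ctx => c.2) := PT.snd PT.id
  have ha : FC (fun c : Ctx => c.2.1.v) := FC.of_PT (PT.fst hc)
  have hT : FC (fun c : Ctx => c.2.2.1.v) := FC.of_PT (PT.fst (PT.snd hc))
  have hr : FC (fun c : Ctx => c.2.2.2.1.v) := FC.of_PT (PT.fst (PT.snd (PT.snd hc)))
  have hq : FC (fun c : Ctx => c.2.2.2.2.v) := FC.of_PT (PT.snd (PT.snd (PT.snd hc)))
  refine CHp.and (CHp.le (FC_aI.pre hI) ha) (CHp.and (CHp.le ha ((FC.const 2).mul (FC_aI.pre hI)))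
    (CHp.and (CHp.lt ((FC.const 3).mul hT) ((FC_ZI.mul FC_w0I).pre hI))
      (CHp.and (CHp.lt hr hq) (CHp.le hq ?_))))
  exact ((FC.const 2).mul ((FC_DI.pre hI).powUnary (PT.const 3))).add (FC.const 6)

end Vale.Agent.P337

end

section

/-!
P337: residues and size of the decisive integer.
-/

namespace Vale.Agent.P337

open Vale.Agent.Lib.Common.PolyTime

open Classical in
/-- the decisive integer of a context -/
noncomputable def nI (Es EC EL ES EM Ek : Inst → ℕ) (c : Ctx) : ℤ :=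
  if okC c then nInt (two_le_eI c.1) (sqs_totalDegree c.1) (2 ^ 2 ^ Es c.1)
    (2 ^ 2 ^ EL c.1) (mkPrm Es EC EL ES EM Ek c 0).U else 0

/-- residues for large primes -/
theorem exists_E1 {Es EC EL ES EM Ek : Inst → ℕ} (h1 : PT Es) (h2 : PT EC) (h3 : PT EL)
    (h4 : PT ES) (h5 : PT EM) (h6 : PT Ek) :
    ∃ E1 : Ctx → ℕ, PT E1 ∧ ∀ (c : Ctx) (r : ℕ), r.Prime → 2 ^ E1 c < r → okC c →
      ((nI Es EC EL ES EM Ek c : ℤ) : ZMod r) = (mkPrm Es EC EL ES EM Ek c r).form := by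
  have hI : PT (fun c : Ctx => c.1) := PT.fst PT.id
  have hN : SE (fun c : Ctx => c.1.1) := SE.of_PT (PT.fst hI)
  have hePT : PT (fun c : Ctx => eI c.1) := PT.comp (f := eI) PT_eI hI
  have he : SE (fun c : Ctx => eI c.1) := SE.of_PT hePT
  have hD : SE (fun c : Ctx => DI c.1) := SE.of_FC (FC_DI.pre hI)
  have hk : SE (fun c : Ctx => Ek c.1) := SE.of_PT (PT.comp (f := Ek) h6 hI)
  have hM : SE (fun c : Ctx => 2 ^ EM c.1) := SE.twoPow (PT.comp (f := EM) h5 hI)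
  have hK : SE (fun c : Ctx => 2 * eI c.1 * DI c.1 *
      (DI c.1 * (DI c.1 * (2 * Ek c.1 * (2 ^ EM c.1 + 1))) + 1) +
      c.1.1 * (2 * eI c.1 - 1 - 1)) := by
    refine SE.add (((SE.mul (SE.const 2) he).mul hD).mul
      ((hD.mul (hD.mul (((SE.const 2).mul hk).mul (hM.add (SE.const 1))))).add (SE.const 1)))
      (hN.mul ?_)
    exact SE.mono ((SE.const 2).mul he) fun c => by omega
  have hd : SE (fun c : Ctx => 2 * eI c.1 - 1) :=
    SE.mono ((SE.const 2).mul he) fun c => by omega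
  have hd' : SE (fun c : Ctx => 2 * eI c.1 - 1 - 1) :=
    SE.mono ((SE.const 2).mul he) fun c => by omega
  have hall : SE (fun c : Ctx => (2 * eI c.1 * DI c.1 *
      (DI c.1 * (DI c.1 * (2 * Ek c.1 * (2 ^ EM c.1 + 1))) + 1) +
      c.1.1 * (2 * eI c.1 - 1 - 1)) +
      c.1.1 * (2 * eI c.1 * DI c.1 *
      (DI c.1 * (DI c.1 * (2 * Ek c.1 * (2 ^ EM c.1 + 1))) + 1) +
      c.1.1 * (2 * eI c.1 - 1 - 1)) * (2 * eI c.1 - 1 - 1) +
      (2 * eI c.1 - 1) * ((2 * eI c.1 * DI c.1 *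
      (DI c.1 * (DI c.1 * (2 * Ek c.1 * (2 ^ EM c.1 + 1))) + 1) +
      c.1.1 * (2 * eI c.1 - 1 - 1)) + 1) + DI c.1 * DI c.1 + DI c.1 + 2 + 1) :=
    (((((hK.add ((hN.mul hK).mul hd')).add (hd.mul (hK.add (SE.const 1)))).add
      (hD.mul hD)).add hD).add (SE.const 2)).add (SE.const 1)
  obtain ⟨E1, hE1, hlt⟩ := hall.exists_lt
  refine ⟨E1, hE1, fun c r hr hr1 hok => ?_⟩
  have hc := hlt c
  rw [nI, if_pos hok]
  have hlt' : (mkPrm Es EC EL ES EM Ek c r).K + (mkPrm Es EC EL ES EM Ek c r).N *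
      (mkPrm Es EC EL ES EM Ek c r).K * ((mkPrm Es EC EL ES EM Ek c r).d - 1) +
      (mkPrm Es EC EL ES EM Ek c r).d * ((mkPrm Es EC EL ES EM Ek c r).K + 1) +
      (mkPrm Es EC EL ES EM Ek c r).D * (mkPrm Es EC EL ES EM Ek c r).D +
      (mkPrm Es EC EL ES EM Ek c r).D + 2 < (mkPrm Es EC EL ES EM Ek c r).r - 1 := by
    have := hc.trans hr1
    exact Nat.lt_sub_of_add_lt this
  exact nInt_cast_eq_form (mkPrm Es EC EL ES EM Ek c r) (two_le_eI c.1) (sqs_totalDegree c.1) hr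
    le_rfl hlt'

/-- size -/
theorem exists_E {Es EC EL ES EM Ek : Inst → ℕ} (h1 : PT Es) (h2 : PT EC) (h3 : PT EL)
    (h4 : PT ES) (h5 : PT EM) (h6 : PT Ek) :
    ∃ E : Ctx → ℕ, PT E ∧ ∀ c : Ctx,
      |nI Es EC EL ES EM Ek c| ≤ ((2 ^ 2 ^ E c : ℕ) : ℤ) := by
  obtain ⟨EQ, hEQ, hQ⟩ := exists_EQ
  have hI : PT (fun c : Ctx => c.1) := PT.fst PT.id
  have hc : PT (fun c : Ctx => c.2) := PT.snd PT.id
  have hNPT : PT (fun c : Ctx => c.1.1) := PT.fst hI
  have hN : SE (fun c : Ctx => c.1.1) := SE.of_PT hNPT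
  have hePT : PT (fun c : Ctx => eI c.1) := PT.comp (f := eI) PT_eI hI
  have he : SE (fun c : Ctx => eI c.1) := SE.of_PT hePT
  have hD : SE (fun c : Ctx => DI c.1) := SE.of_FC (FC_DI.pre hI)
  have hk : SE (fun c : Ctx => Ek c.1) := SE.of_PT (PT.comp (f := Ek) h6 hI)
  have hM : SE (fun c : Ctx => 2 ^ EM c.1) := SE.twoPow (PT.comp (f := EM) h5 hI)
  have ha : SE (fun c : Ctx => aI c.1) := SE.of_FC (FC_aI.pre hI)
  have hZ : SE (fun c : Ctx => ZI c.1) := SE.of_FC (FC_ZI.pre hI)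
  have hw : SE (fun c : Ctx => w0I c.1) := SE.of_FC (FC_w0I.pre hI)
  have hTh : SE (fun c : Ctx => c.2.2.1.v) := SE.of_BNat (PT.fst (PT.snd hc))
  have hq : SE (fun c : Ctx => c.2.2.2.2.v) := SE.of_BNat (PT.snd (PT.snd (PT.snd hc)))
  have hs : DE (fun c : Ctx => 2 ^ 2 ^ Es c.1) := DE.twoTwoPow (PT.comp (f := Es) h1 hI)
  have hL : DE (fun c : Ctx => 2 ^ 2 ^ EL c.1) := DE.twoTwoPow (PT.comp (f := EL) h3 hI)
  have hC : DE (fun c : Ctx => 2 ^ 2 ^ EC c.1) := DE.twoTwoPow (PT.comp (f := EC) h2 hI)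
  have hS : DE (fun c : Ctx => 2 ^ 2 ^ ES c.1) := DE.twoTwoPow (PT.comp (f := ES) h4 hI)
  have hQ' : DE (fun c : Ctx => 2 ^ EQ c.1) := (SE.twoPow (PT.comp (f := EQ) hEQ hI)).toDE
  have hB : DE (fun c : Ctx => 2 ^ 2 ^ Es c.1 * 2 ^ (c.1.1 * (2 * eI c.1 - 1))) :=
    hs.mul (SE.twoPow (PT.mul hNPT (PT.sub (PT.mul (PT.const 2) hePT) (PT.const 1)))).toDE
  have h2e : SE (fun c : Ctx => 2 * eI c.1) := (SE.const 2).mul he
  have hthu : DE (fun c : Ctx => thu c.1.1 (eI c.1) (2 ^ EQ c.1) (2 ^ 2 ^ Es c.1)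
      (2 ^ 2 ^ EL c.1)) := by
    refine DE.mul ((((h2e.toDE.mul hL).mul hQ').add hN.toDE).add
      ((h2e.toDE.mul hN.toDE).mul hB) |>.add (DE.const 1)) ?_
    exact DE.pow ((((h2e.toDE.mul hQ').mul hL).add hB).add (DE.const 1)) h2e
  have hY : DE (fun c : Ctx => thY (DI c.1) (2 ^ 2 ^ EC c.1)
      (thu c.1.1 (eI c.1) (2 ^ EQ c.1) (2 ^ 2 ^ Es c.1) (2 ^ 2 ^ EL c.1))) :=
    (((hD.toDE.mul (((DE.const 2).mul hthu).add (DE.const 1))).pow hD).add hC).add hthu
  have hbig : DE (fun c : Ctx =>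
      ((DI c.1 * ZI c.1 * (w0I c.1 + c.2.2.2.2.v) * aI c.1 + c.2.2.1.v) *
      (3 * aI c.1 * (2 ^ 2 ^ ES c.1 * thY (DI c.1) (2 ^ 2 ^ EC c.1)
        (thu c.1.1 (eI c.1) (2 ^ EQ c.1) (2 ^ 2 ^ Es c.1) (2 ^ 2 ^ EL c.1)) +
          2 ^ 2 ^ EM c.1 + 1) ^ (2 * Ek c.1 * (2 ^ EM c.1 + 1)) + 1) ^
        (DI c.1 + 1)) ^ DI c.1) := by
    refine DE.pow (DE.mul ((((hD.mul hZ).mul (hw.add hq)).mul ha).add hTh).toDE ?_) hD
    refine DE.pow (DE.add (DE.mul ((SE.const 3).mul ha).toDE (DE.pow ?_ ?_)) (DE.const 1))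
      (hD.add (SE.const 1))
    · exact ((hS.mul hY).add (DE.twoTwoPow (PT.comp (f := EM) h5 hI))).add (DE.const 1)
    · exact ((SE.const 2).mul hk).mul (hM.add (SE.const 1))
  obtain ⟨E, hE, hb⟩ := hbig
  refine ⟨E, hE, fun c => ?_⟩
  by_cases hok : okC c
  · rw [nI, if_pos hok]
    refine (nInt_bound (two_le_eI c.1) (sqs_totalDegree c.1) (Q := 2 ^ EQ c.1) (hQ c.1) rfl
      hok.1 hok.2.1 ?_).trans ?_
    · exact lt_of_le_of_lt (Nat.zero_le _) hok.2.2.2.1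
    · exact_mod_cast hb c
  · rw [nI, if_neg hok, abs_zero]
    positivity

end Vale.Agent.P337

end

section

/-!
P337: feasibility of systems of polynomial equations is in the counting hierarchy.
-/

namespace Vale.Agent.P337

open Vale.Agent.Lib.Common.PolyTime

/-- the sign of the decisive integer is decidable in the counting hierarchy -/
theorem CHp_nI_neg {Es EC EL ES EM Ek : Inst → ℕ} (h1 : PT Es) (h2 : PT EC) (h3 : PT EL)
    (h4 : PT ES) (h5 : PT EM) (h6 : PT Ek) :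
    CHp (fun c : Ctx => nI Es EC EL ES EM Ek c < 0) := by
  classical
  obtain ⟨E1, hE1, hres⟩ := exists_E1 h1 h2 h3 h4 h5 h6
  obtain ⟨E, hE, hsz⟩ := exists_E h1 h2 h3 h4 h5 h6
  refine CHp.neg_of_residues (E1 := E1) (E2 := fun c => E c + E1 c + 20) hE1 (by fun_prop)
    (F := fun c r => if okC c then (mkPrm Es EC EL ES EM Ek c r).form else 0) ?_ ?_ ?_
  · have hform := FCz_form (CPrm_mkPrm h1 h2 h3 h4 h5 h6)
    have hr : FC (fun p : Ctx × BNat => p.2.v) := FC.of_PT (PT.snd PT.id)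
    have hok : CHp (fun p : Ctx × BNat => okC p.1) := CHp_okC.pre (PT.fst PT.id)
    have hzero : FCz (fun p : Ctx × BNat => p.2.v) (fun _ => 0) :=
      (FCz.cast hr (FC.const 0)).congr (fun a _ => by simp)
    exact FCz.ite hok hform hzero
  · intro c r hr
    simp only [prs, Finset.mem_filter, Finset.mem_range] at hr
    obtain ⟨-, hr1, hr2⟩ := hr
    by_cases hok : okC c
    · simp only [hok]
      exact hres c r hr2 hr1 hok
    · simp [nI, hok]
  · intro c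
    have h := prod_prs_ge (E c) (E1 c)
    have h' := hsz c
    have h0 : (0 : ℤ) < ((2 ^ 2 ^ E c : ℕ) : ℤ) := by positivity
    have h2 : ((2 ^ 2 ^ E c * 32 : ℕ) : ℤ) ≤ ((∏ r ∈ prs (E1 c) (E c + E1 c + 20), r : ℕ) : ℤ) := by
      exact_mod_cast h
    refine lt_of_lt_of_le ?_ h2
    rw [Nat.cast_mul]
    push_cast at h0 h' ⊢
    linarith

theorem CHp_Feas : CHp Feas := by
  classical
  obtain ⟨EQ, hEQ, hQ⟩ := exists_EQ
  obtain ⟨Es, EC, EL, ES, EM, Ek, h1, h2, h3, h4, h5, h6, hch⟩ := exists_choice EQ hEQ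
  have hneg := CHp_nI_neg h1 h2 h3 h4 h5 h6
  have key : ∀ I : Inst, Feas I ↔ ∃ a' < 2 * aI I + 1, ∃ Th < ZI I * w0I I,
      ∃ rho < 2 * DI I ^ 3 + 7, ∃ q < 2 * DI I ^ 3 + 7,
        (okC (I, ((⟨a'⟩ : BNat), (⟨Th⟩ : BNat), (⟨rho⟩ : BNat), (⟨q⟩ : BNat))) ∧
          nI Es EC EL ES EM Ek
            (I, ((⟨a'⟩ : BNat), (⟨Th⟩ : BNat), (⟨rho⟩ : BNat), (⟨q⟩ : BNat))) < 0) := by
    intro I
    obtain ⟨hs, hC, hL1, hL2, hS, hM, hk⟩ := hch I
    have hZ : (∃ x : Fin I.1 → ℝ, MvPolynomial.eval x (toR (sqs I.1 I.2)) = 0) ↔ Feas I :=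
      exists_congr fun x => sqs_eq_zero_iff I x
    have haI : 0 < aI I := by
      unfold aI w0I
      positivity
    constructor
    · intro hF
      obtain ⟨a', Th, rho, q, ha1, ha2, hTh, hrq, hq, hn⟩ :=
        nInt_complete (two_le_eI I) (sqs_totalDegree I) (sqs_nonneg I) (Q := 2 ^ EQ I)
          (hQ I) (D := DI I) (M := 2 ^ EM I) (kap := Ek I) (a := aI I) (w0 := w0I I)
          (Z := ZI I) rfl hs hC hL1 hS hM rfl rfl hk le_rfl (hZ.2 hF)
      have hok : okC (I, ((⟨a'⟩ : BNat), (⟨Th⟩ : BNat), (⟨rho⟩ : BNat), (⟨q⟩ : BNat))) :=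
        ⟨ha1, ha2, hTh, hrq, hq⟩
      refine ⟨a', by omega, Th, by omega, rho, by omega, q, by omega, hok, ?_⟩
      rw [nI, if_pos hok]
      exact hn
    · rintro ⟨a', -, Th, -, rho, -, q, -, hok, hn⟩
      rw [nI, if_pos hok] at hn
      obtain ⟨ha1, ha2, hTh, hrq, hq⟩ := hok
      exact hZ.1 (nInt_sound (two_le_eI I) (sqs_totalDegree I) (sqs_nonneg I) (hQ I) rfl hC hL2
        haI ha1 ha2 hTh hn)
  refine CHp.congr ?_ fun I => (key I).symm
  have hctx : PT (fun p : (((Inst × BNat) × BNat) × BNat) × BNat =>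
      ((p.1.1.1.1, (p.1.1.1.2, p.1.1.2, p.1.2, p.2)) : Ctx)) := by fun_prop
  have hB : CHp (fun p : (((Inst × BNat) × BNat) × BNat) × BNat =>
      okC ((p.1.1.1.1, (p.1.1.1.2, p.1.1.2, p.1.2, p.2)) : Ctx) ∧
        nI Es EC EL ES EM Ek ((p.1.1.1.1, (p.1.1.1.2, p.1.1.2, p.1.2, p.2)) : Ctx) < 0) :=
    (CHp_okC.pre hctx).and (hneg.pre hctx)
  have hcub : FC (fun I : Inst => 2 * DI I ^ 3 + 7) :=
    ((FC.const 2).mul (FC_DI.powUnary (PT.const 3))).add (FC.const 7)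
  refine CHp.exists_lt (((FC.const 2).mul FC_aI).add (FC.const 1)) ?_
  refine CHp.exists_lt (α := Inst × BNat) ((FC_ZI.mul FC_w0I).pre (PT.fst PT.id)) ?_
  refine CHp.exists_lt (α := (Inst × BNat) × BNat) (hcub.pre (PT.fst (PT.fst PT.id))) ?_
  refine CHp.exists_lt (α := ((Inst × BNat) × BNat) × BNat)
    (hcub.pre (PT.fst (PT.fst (PT.fst PT.id)))) ?_
  exact hB

end Vale.Agent.P337

end
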